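import Vale.Agent.P287T.Psi.Opn
import Vale.Agent.P287T.Cl.Lat2
import Vale.Agent.P287T.Oc.Fin

/-!
# The Mukai lattice and the periods as an instance of the abstract setting
-/

set_option linter.unusedSectionVars false

noncomputable section

namespace Vale.Agent.P287T.Psi

open Set Filter Topology Metric P291Z P269 P269.Mono P287Q P287Q.Cub P287T.Cy P287T.Rr P287T.G3
  P287T.Top P287T.Cl
open scoped ComplexConjugate

variable (F : S6)

/-- the Mukai pairing -/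
def JV : VV F →ₗ[ℂ] VV F →ₗ[ℂ] ℂ := (mu F).compl₁₂ (VV F).subtype (VV F).subtype

/-- the Mukai lattice -/
def LV : Submodule ℤ (VV F) := (LM F).comap ((VV F).subtype.restrictScalars ℤ)

/-- a retraction -/
def rV : MV F →ₗ[ℂ] VV F := (VV F).subtype.leftInverse

/-- the vector of a primitive class -/
def vn : H (XF F) →ₗ[ℂ] VV F := rV F ∘ₗ LinearMap.inr ℂ _ _

variable {F}

/-- the vector of a class -/
def vc (v : Cls F) : VV F := rV F (mv F v)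

/-- the root orthogonal to the charge -/
def eC (v : Cls F) : Cls F := ((om - om ^ 2) * v.1, 0)

/-- the charge -/
def wC (v : Cls F) : Cls F := (v.1, 0)

/-- primitive classes of degree four -/
def P4 (n : H (XF F)) : Prop := H.IsDeg 4 n ∧ hyp F * n = 0

theorem P4.zero : P4 (0 : H (XF F)) := ⟨zero_mem (H.deg _ 4), mul_zero _⟩

theorem JV_apply (x y : VV F) : JV F x y = mu F x.1 y.1 := rfl

theorem mem_LV {x : VV F} : x ∈ LV F ↔ x.1 ∈ LM F := Iff.rfl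

theorem rV_val {x : MV F} (hx : x ∈ VV F) : (rV F x).1 = x :=
  congrArg Subtype.val (LinearMap.leftInverse_apply_of_inj (VV F).ker_subtype ⟨x, hx⟩)

theorem vc_val {v : Cls F} (h : P4 v.2) : (vc v).1 = mv F v := rV_val ⟨al_sum _, h⟩

theorem vn_val {n : H (XF F)} (h : P4 n) : (vn F n).1 = (0, n) := rV_val ⟨by simp, h⟩

theorem JV_vc {v w : Cls F} (h : P4 v.2) (h' : P4 w.2) : JV F (vc v) (vc w) = mk v w := by
  rw [JV_apply, vc_val h, vc_val h', mu_mv]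

theorem JV_vn (y : VV F) {n : H (XF F)} (h : P4 n) : JV F y (vn F n) = -JF F (y.1.2 * n) := by
  rw [JV_apply, vn_val h, mu_apply, dotProduct_zero, zero_sub]

theorem vn_JV {n : H (XF F)} (h : P4 n) (y : VV F) : JV F (vn F n) y = -JF F (n * y.1.2) := by
  rw [JV_apply, vn_val h, mu_apply, zero_dotProduct, zero_sub]

theorem P4_LT (c : Cu F) {v : Cls F} (h : v ∈ LT F) : P4 v.2 :=
  ⟨(muk_prim c v h).1, (muk_prim c v h).2.1⟩

theorem vc_mem (c : Cu F) {v : Cls F} (h : v ∈ LT F) : vc v ∈ LV F := by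
  rw [mem_LV, vc_val (P4_LT c h)]
  exact mv_mem_LM.2 h

theorem exists_vc (c : Cu F) {x : VV F} (h : x ∈ LV F) : ∃ y ∈ LT F, x = vc y :=
  let ⟨y, h1, h2⟩ := mem_LM.1 h
  ⟨y, h1, Subtype.ext (h2.symm.trans (vc_val (P4_LT c h1)).symm)⟩

theorem vc_inj {v w : Cls F} (h : P4 v.2) (h' : P4 w.2) (e : vc v = vc w) : v = w :=
  mv_injective (by rw [← vc_val h, e, vc_val h'])

theorem om_sub : om - om ^ 2 = (√3 : ℝ) * Complex.I := by
  rw [om_sq]
  refine Complex.ext ?_ ?_ <;> simp [om]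
  norm_num

theorem mk_eC (y v : Cls F) : mk y (eC v) = -(2 / 3 * (√3 * (conj y.1 * v.1).im : ℝ)) := by
  simp [Top.mk, eC, om_sub]
  ring

theorem mk_wC (y v : Cls F) : mk y (wC v) = 2 / 3 * ((conj y.1 * v.1).re : ℝ) := by
  rw [Top.mk, wC, mul_zero, map_zero, sub_zero]

theorem eC_mem {v : Cls F} (h : v ∈ LT F) : eC v ∈ LT F := by
  have := sub_mem (muk_rot v h) (muk_rot _ (muk_rot v h))
  rwa [show (om * v.1, v.2) - (om * (om * v.1, v.2).1, (om * v.1, v.2).2) = eC v from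
    Prod.ext (by simp only [Prod.fst_sub, eC]; ring) (sub_self _)] at this

/-- **The lattice.** -/
theorem base (c : Cu F) {v : Cls F} (hv : Node v) :
    Base (JV F) (LV F) (vc v) (vc (eC v)) (vc (wC v)) := by
  have m := stLat c
  have p := P4_LT c hv.mem
  have n : (Complex.normSq v.1 : ℂ) ≠ 0 := by simpa using Oc.fst_ne hv
  have e : ∀ y : Cls F, y.2 = 0 → mk y v = mk y (wC v) := fun y hy => by
    rw [mk_wC, Top.mk, hy, zero_mul, map_zero, sub_zero]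
  have e1 : mk (eC v) (wC v) = 0 := by
    rw [mk_wC]
    simp [eC, om_sub]
    ring_nf
  refine ⟨fun x y => m.symm _ x.2 _ y.2, fun x hx => Subtype.ext (m.nondeg _ x.2 fun y hy =>
    hx ⟨y, hy⟩), by rw [m.dim]; norm_num, fun x hx y hy => ?_, vc_mem c (eC_mem hv.mem),
    (JV_vc p p).trans hv.iso, ?_, (JV_vc P4.zero P4.zero).trans e1, ?_, ?_⟩
  · obtain ⟨x, h1, rfl⟩ := exists_vc c hx
    obtain ⟨y, h2, rfl⟩ := exists_vc c hy
    exact ⟨_, (JV_vc (P4_LT c h1) (P4_LT c h2)).trans (bL_cast c ⟨x, h1⟩ ⟨y, h2⟩).symm⟩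
  · rw [JV_vc P4.zero p, e _ rfl, e1]
  · rw [JV_vc P4.zero P4.zero, mk_eC, show (conj (eC v).1 * v.1).im = -(√3 * Complex.normSq v.1) by
      simp [eC, om_sub, Complex.normSq_apply]; ring]
    simpa using Oc.fst_ne hv
  · rw [JV_vc p P4.zero, mk_wC, ← Complex.normSq_eq_conj_mul_self, Complex.ofReal_re]
    exact mul_ne_zero (by norm_num) n

theorem ww_ne {v : Cls F} (hv : Node v) : JV F (vc (wC v)) (vc (wC v)) ≠ 0 := by
  rw [JV_vc P4.zero P4.zero, mk_wC, wC, ← Complex.normSq_eq_conj_mul_self, Complex.ofReal_re]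
  simpa using Oc.fst_ne hv

theorem fst_zero {v : Cls F} (hv : Node v) {y : VV F} (h1 : JV F y (vc (eC v)) = 0)
    (h2 : JV F y (vc (wC v)) = 0) : y.1.1 = 0 := by
  have n : ((v.1.re * v.1.re + v.1.im * v.1.im : ℝ) : ℂ) ≠ 0 := by
    rw [← Complex.normSq_apply]; simpa using Oc.fst_ne hv
  have s : ((√3 : ℝ) : ℂ) * (√3 : ℝ) = 3 := by exact_mod_cast sq3
  have h0 := y.2.1
  rw [JV_apply, vc_val P4.zero, mu_apply] at h1 h2
  simp [mv_apply, eC, wC, om_sub, al, dotProduct, Fin.sum_univ_three] at h1 h2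
  push_cast at n
  generalize ((√3 : ℝ) : ℂ) = q, (v.1.re : ℂ) = a1, (v.1.im : ℂ) = a2 at *
  have a : y.1.1 0 = 0 := (mul_eq_zero.1 (by
    linear_combination a1 * h2 - q / 3 * a2 * h1 + (a1 ^ 2 / 3 + q ^ 2 * a2 ^ 2 / 9) * h0 -
      (a2 ^ 2 * y.1.1 0 - q / 3 * a1 * a2 * (y.1.1 1 - y.1.1 2)) / 3 * s)).resolve_left n
  have b : y.1.1 1 - y.1.1 2 = 0 := (mul_eq_zero.1 (by
    linear_combination q * a2 * h2 + a1 * h1 -
      (a1 ^ 2 + a2 ^ 2) * (y.1.1 1 - y.1.1 2) / 3 * s)).resolve_left n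
  funext j
  fin_cases j
  · exact a
  · show y.1.1 1 = 0
    linear_combination (h0 + b - a) / 2
  · show y.1.1 2 = 0
    linear_combination (h0 - b - a) / 2

/-- **The Hodge index inequality.** -/
theorem neg_cls (c : Cu F) {v y : Cls F} (hv : Node v) (hy : y ∈ LT F) (h1 : Hdg v) (h2 : Hdg y)
    (e1 : mk y v = 0) (e2 : mk y (eC v) = 0) : (mk y y).re ≤ 0 := by
  have n : Complex.normSq v.1 ≠ 0 := by simpa using Oc.fst_ne hv
  have i0 : (conj y.1 * v.1).im = 0 := by simpa [mk_eC, -Complex.mul_im] using e2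
  obtain ⟨l, hl⟩ : ∃ l : ℝ, (conj y.1 * v.1).re = l * Complex.normSq v.1 :=
    ⟨_, (div_mul_cancel₀ _ n).symm⟩
  have h3 : (conj y.1 * y.1).re = l ^ 2 * Complex.normSq v.1 := mul_right_cancel₀ n (by
    have := Complex.normSq_apply (conj y.1 * v.1)
    rw [i0, hl, map_mul, Complex.normSq_conj] at this
    rw [← Complex.normSq_eq_conj_mul_self, Complex.ofReal_re, this]
    ring)
  have h4 := hv.iso
  rw [Top.mk, ← Complex.normSq_eq_conj_mul_self, Complex.ofReal_re, sub_eq_zero] at h4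
  rw [Top.mk, hl, sub_eq_zero] at e1
  have h5 : JF F ((y.2 - (l : ℂ) • v.2) * (y.2 - (l : ℂ) • v.2)) = -mk y y := by
    simp only [mul_sub, sub_mul, smul_mul_assoc, mul_smul_comm, map_sub, map_smul, smul_eq_mul,
      J_symm c (muk_prim c y hy).1 v.2, ← h4, ← e1, Top.mk, h3]
    push_cast
    ring
  rw [← neg_nonneg, ← Complex.neg_re, ← h5]
  by_cases z : y.2 - (l : ℂ) • v.2 = 0
  · rw [z, zero_mul, map_zero, Complex.zero_re]
  refine (J_pos c (sub_mem h2 (Submodule.smul_mem _ _ h1)) ?_ z).le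
  rw [map_sub, LinearMap.map_smulₛₗ, (muk_prim c y hy).2.2, (muk_prim c v hv.mem).2.2,
    Complex.conj_ofReal]

section chart

variable {h : Per.Sm F} {r : ℝ} {Φ : T3 → Per.V → Per.V} {σ : T3 → H (XF F)}
  {η : T3 → T3 →ₗ[ℂ] H (XF F)} (k : Per.PM h p3 r Φ σ η) {t : T3} (ht : t ∈ ball (0 : T3) r)
include k ht

theorem per_spec : P4 (σ t) ∧ σ t ≠ 0 ∧ JF F (σ t * σ t) = 0 := by
  obtain ⟨s, h1, h2, h3⟩ := k.om t ht
  obtain ⟨a1, a2, a3, a4, -⟩ := Per.stTop h (k.sm t ht) (k.tr t ht)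
  have g := (k.sm t ht).cubH
  rw [h3]
  refine ⟨⟨(a4 4 s).2 (g.hg.deg 3 1 s h1), ?_⟩, fun e => h2 (a3.1 (e.trans (map_zero _).symm)), ?_⟩
  · rw [← a1, ← map_mul, Per.stFil.prim (k.sm t ht) s h1, map_zero]
  · rw [← map_mul]
    exact (a2 _).trans (Zc.hg_J g.hg (g.hg.mul _ _ _ _ s h1 s h1) (.inl (by rw [g.n]; decide)))

theorem hdg_iff {y : Cls (F + p3 t)} (hy : y ∈ LT (F + p3 t)) :
    Hdg y ↔ JF F ((tr (k.tr t ht).φ y).2 * σ t) = 0 := by
  refine ⟨Oc.J_zero k ht, fun e => ?_⟩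
  obtain ⟨s, h1, h2, h3⟩ := k.om t ht
  have c := (k.sm t ht).cu
  have e' : JF (F + p3 t) (y.2 * s) = 0 := by
    rw [h3] at e
    exact ((Per.stTop h (k.sm t ht) (k.tr t ht)).2.1 _).symm.trans
      ((congrArg _ (map_mul _ _ _)).trans e)
  refine (Per.stFil.t22 (k.sm t ht) s h1 h2 _ (muk_prim c y hy).1).2 ⟨e', ?_⟩
  have := J_cj c (y.2 * s)
  rwa [cj_mul, (muk_prim c y hy).2.2, e', map_zero] at this

theorem tr_LT {y : Cls (F + p3 t)} : tr (k.tr t ht).φ y ∈ LT F ↔ y ∈ LT (F + p3 t) :=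
  (stTr h.cu (k.sm t ht).cu (k.tr t ht)).2.1 y

theorem JV_tr {y z : Cls (F + p3 t)} (hy : y ∈ LT (F + p3 t)) (hz : z ∈ LT (F + p3 t)) :
    JV F (vc (tr (k.tr t ht).φ y)) (vc (tr (k.tr t ht).φ z)) = mk y z :=
  (JV_vc (P4_LT h.cu ((tr_LT k ht).2 hy)) (P4_LT h.cu ((tr_LT k ht).2 hz))).trans
    ((stTr h.cu (k.sm t ht).cu (k.tr t ht)).2.2.1 y z)

theorem JV_om {y : Cls (F + p3 t)} (hy : y ∈ LT (F + p3 t)) :
    JV F (vc (tr (k.tr t ht).φ y)) (vn F (σ t)) = 0 ↔ Hdg y := by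
  rw [JV_vn _ (per_spec k ht).1, vc_val (P4_LT h.cu ((tr_LT k ht).2 hy)), neg_eq_zero,
    hdg_iff k ht hy]
  rfl

theorem om_iso : JV F (vn F (σ t)) (vn F (σ t)) = 0 := by
  rw [JV_vn _ (per_spec k ht).1, vn_val (per_spec k ht).1, (per_spec k ht).2.2, neg_zero]

theorem om_ne' : vn F (σ t) ≠ 0 := fun e => (per_spec k ht).2.1 (by
  have := vn_val (per_spec k ht).1
  rw [e] at this
  exact (congrArg Prod.snd this).symm)

theorem om_A {y : Cls F} (hy : y.2 = 0) : JV F (vn F (σ t)) (vc y) = 0 := by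
  rw [vn_JV (per_spec k ht).1, vc_val (hy ▸ P4.zero), mv_apply, hy, mul_zero, map_zero, neg_zero]

variable {v : Cls (F + p3 t)} (hv : Node v) (hg : Hdg v)
include hv hg

theorem om_tr : Tr (JV F) (vc (tr (k.tr t ht).φ v)) (vc (eC (tr (k.tr t ht).φ v)))
    (vc (wC (tr (k.tr t ht).φ v))) (vn F (σ t)) :=
  ⟨om_A k ht rfl, ((stLat h.cu).symm _ (vn F _).2 _ (vc _).2).trans ((JV_om k ht hv.mem).2 hg),
    om_A k ht rfl⟩

theorem om_neg (x : VV F) (hx : x ∈ LV F) (h1 : JV F x (vc (tr (k.tr t ht).φ v)) = 0)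
    (h2 : JV F x (vc (eC (tr (k.tr t ht).φ v))) = 0) (h3 : JV F x (vn F (σ t)) = 0) :
    (JV F x x).re ≤ 0 := by
  obtain ⟨x, hx', rfl⟩ := exists_vc h.cu hx
  obtain ⟨y, rfl⟩ := (stTr h.cu (k.sm t ht).cu (k.tr t ht)).1.2 x
  have hy := (tr_LT k ht).1 hx'
  rw [show eC (tr (k.tr t ht).φ v) = tr (k.tr t ht).φ (eC v) from
    Prod.ext rfl (map_zero (H.map _)).symm, JV_tr k ht hy (eC_mem hv.mem)] at h2
  rw [JV_tr k ht hy hv.mem] at h1
  rw [JV_tr k ht hy hy]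
  exact neg_cls (k.sm t ht).cu hv hy hg ((JV_om k ht hy).1 h3) h1 h2

end chart

section dom

variable {h : Per.Sm F} {r : ℝ} {Φ : T3 → Per.V → Per.V} {σ : T3 → H (XF F)}
  {η : T3 → T3 →ₗ[ℂ] H (XF F)} (k : Per.PM h p3 r Φ σ η) (φ : ℝ) (v : Cls F)

/-- the points of the chart where the flat class `v` is realised with phase `φ` -/
def Dm : Set T3 := {t | ∃ (ht : t ∈ ball 0 r) (v' : Cls (F + p3 t)),
  tr (k.tr t ht).φ v' = v ∧ ∃ E, QE (k.sm t ht).cu φ v' E}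

variable {k φ v}

theorem Dm.ball (t : Dm k φ v) : t.1 ∈ ball (0 : T3) r := t.2.1

theorem Dm.cu (t : Dm k φ v) : Cu (F + p3 t.1) := (k.sm t.1 (Dm.ball t)).cu

/-- the class at a point -/
def Dm.vt (t : Dm k φ v) : Cls (F + p3 t.1) := t.2.2.choose

theorem Dm.tr_v (t : Dm k φ v) : tr (k.tr t.1 (Dm.ball t)).φ (Dm.vt t) = v := t.2.2.choose_spec.1

theorem Dm.qe (t : Dm k φ v) : ∃ E, QE (Dm.cu t) φ (Dm.vt t) E := t.2.2.choose_spec.2

theorem Dm.v_eq (t : Dm k φ v) {v' : Cls (F + p3 t.1)}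
    (e : tr (k.tr t.1 (Dm.ball t)).φ v' = v) : v' = Dm.vt t :=
  (stTr h.cu (Dm.cu t) (k.tr _ (Dm.ball t))).1.1 (e.trans (Dm.tr_v t).symm)

theorem Dm.node (hv : Node v) (t : Dm k φ v) : Node (Dm.vt t) :=
  ((stTr h.cu (Dm.cu t) (k.tr _ (Dm.ball t))).2.2.2 _).1 ((Dm.tr_v t).symm ▸ hv)

theorem Dm.hdg (hM : StMem) (t : Dm k φ v) : Hdg (Dm.vt t) :=
  let ⟨E, hE⟩ := Dm.qe t
  hE.2 ▸ (hM _ E.isMF).2

theorem Dm.tr (hM : StMem) (hv : Node v) (t : Dm k φ v) :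
    Tr (JV F) (vc v) (vc (eC v)) (vc (wC v)) (vn F (σ t)) := by
  have := om_tr k (Dm.ball t) (Dm.node hv t) (Dm.hdg hM t)
  rwa [Dm.tr_v] at this

theorem Dm.neg (hM : StMem) (hv : Node v) (t : Dm k φ v) (x : VV F) (hx : x ∈ LV F)
    (h1 : JV F x (vc v) = 0) (h2 : JV F x (vc (eC v)) = 0) (h3 : JV F x (vn F (σ t)) = 0) :
    (JV F x x).re ≤ 0 :=
  om_neg k (Dm.ball t) (Dm.node hv t) (Dm.hdg hM t) x hx ((Dm.tr_v t).symm ▸ h1)
    ((Dm.tr_v t).symm ▸ h2) h3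

/-- **Openness of the period map.** -/
theorem Dm.opn (hK : Df.StKur) (hM : StMem) (hv : Node v) :
    Opn (JV F) (vc v) (vc (eC v)) (vc (wC v)) fun t : Dm k φ v => vn F (σ t) := by
  have b : ∀ t ∈ Dm k φ v, ∀ᶠ s in 𝓝 t, s ∈ Metric.ball (0 : T3) r := fun t ht =>
    isOpen_ball.mem_nhds ht.1
  have e : ∀ t ∈ Dm k φ v, ∀ y : VV F, (fun s => JV F y (vn F (σ s))) =ᶠ[𝓝 t]
      fun s => h.J (-y.1.2 * σ s) := fun t ht y => (b t ht).mono fun s hs => by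
    beta_reduce
    rw [neg_mul, map_neg]
    exact JV_vn y (per_spec k hs).1
  refine opn_of (base h.cu hv) (ww_ne hv) (σ := fun t => vn F (σ t)) (κ := fun t => vn F ∘ₗ η t)
    (fun t ht y => (k.an _ t ht.1).congr (e t ht y).symm) (fun t ht y u => ?_)
    (fun t ht y h1 h2 h3 => ?_)
    (fun t ht => (b t ht).mono fun s hs => ⟨om_A k hs rfl, om_A k hs rfl, om_iso k hs⟩)
    (fun t ht => (Dm.tr hM hv ⟨t, ht⟩).2.1) (fun t ht => om_ne' k ht.1) fun t ht => ?_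
  · rw [(e t ht y).fderiv_eq, k.der _ t ht.1, neg_mul, map_neg]
    exact (JV_vn y ⟨(k.tan t ht.1 u).1, (k.tan t ht.1 u).2.1⟩).symm
  · rw [JV_vn y (per_spec k ht.1).1, neg_eq_zero] at h3
    obtain ⟨u, hu⟩ := k.onto p3_onto t ht.1 _ y.2.2.1 y.2.2.2 h3
    refine ⟨u, Subtype.ext ?_⟩
    rw [LinearMap.comp_apply, hu, vn_val y.2.2]
    exact Prod.ext (fst_zero hv h1 h2).symm rfl
  · obtain ⟨E, hE⟩ := Dm.qe ⟨t, ht⟩
    filter_upwards [b t ht, Oc.opn' k Oc.opO hK hM p3_hom p3_onto ht.1 _ E hE.1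
      (hE.2 ▸ Dm.tr_v ⟨t, ht⟩) hv] with s hs h1 h2
    rw [vn_JV (per_spec k hs).1, neg_eq_zero, vc_val (P4_LT h.cu hv.mem), mv_apply,
      J_symm h.cu (P4_LT h.cu hv.mem).1] at h2
    obtain ⟨_, c', E', h3, h4⟩ := h1 h2
    exact ⟨hs, _, h4, E', h3, rfl⟩

end dom

end Vale.Agent.P287T.Psi
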