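import Vale.Agent.P287T.Psi.Kv
import Vale.Agent.P287T.Gl.St
import Vale.Agent.P287T.Psi.Bas
import Vale.Agent.P287T.Top.Alg

/-!
# The Mukai map of the moduli surface: the statements of the geometric steps
-/

set_option linter.unusedVariables false

noncomputable section

namespace Vale.Agent.P287T.Psi

open Set Function Filter Topology Metric P291Z P269 P287Q P287Q.Cub P287Q.Zc P287T.Cy P287T.Rr
  P287T.Top P287T.Cl P287T.Au P287T.Gl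

/-- the intersection form of the surface -/
def IZ {ν : ℕ} (Z : Set (Fin ν → ℂ)) : H (SZ Z) →ₗ[ℂ] H (SZ Z) →ₗ[ℂ] ℂ :=
  (LinearMap.mul ℂ (H (SZ Z))).compr₂ (JZ Z)

/-- the classes of type `(2, 0)` -/
abbrev SgZ {ν : ℕ} (Z : Set (Fin ν → ℂ)) : Submodule ℂ (H (SZ Z)) :=
  Hb.QT (scl (π₀ (Fin ν))) Z 2 0

variable {W : S6}

theorem nice (C : Cf W) : Nice (SZ C.Z) :=
  haveI := N0_isAct (π₀ (Fin C.ν))
  haveI := C.pv.fp
  inferInstance

/-- a global continuous family on the surface with the given members -/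
structure Gf (C : Cf W) where
  U : Fm W (SZ C.Z)
  fib : ∀ z : C.Z, ∀ d ∈ C.O z.1, U.At (Quo.mk _ z) C.p d

/-- the class of the global family -/
def Gf.θ {C : Cf W} (G : Gf C) (c : Cu W) (k : ℕ) : KV (SZ C.Z) W :=
  haveI := nice C
  G.U.kap c k

/-- the Mukai map -/
abbrev Gf.ψ {C : Cf W} (G : Gf C) (c : Cu W) : VV W →ₗ[ℂ] H (SZ C.Z) := psi (G.θ c 1)

/-- the Mukai map preserves the Hodge filtration -/
def Gf.Typ {C : Cf W} (G : Gf C) (c : Cu W) : Prop :=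
  ∀ s ∈ SgZ C.Z, ∀ y : VV W, (∀ σ ∈ Per.TT W 3 1, JF W (y.1.2 * σ) = 0) →
    IZ C.Z s (G.ψ c y) = 0

/-- all members have the class `v` -/
def Cv (c : Cu W) (C : Cf W) (v : Cls W) : Prop := ∀ x : Mem C, clE c (ob C x) = v

/-! ## The class of a family -/

/-- **DG** -/
def StDg : Prop := ∀ (W : S6) (c : Cu W) (T : Type) [TopologicalSpace T] [Nice T] (U : Fm W T)
  (k : ℕ), Dg k (U.kap c k)

/-- **NAT** -/
def StNat : Prop := ∀ (W : S6) (c : Cu W) (T T' : Type) [TopologicalSpace T] [Nice T]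
  [PreconnectedSpace T] [TopologicalSpace T'] [Nice T'] [Nonempty T'] (U : Fm W T) (f : C(T', T))
  (k : ℕ), (U.pb f).kap c k = pbK f (U.kap c k)

/-- **AT**: the part of degree zero is the class of a member; constant families -/
def StAt : Prop := ∀ (W : S6) (c : Cu W) (T : Type) [TopologicalSpace T] [Nice T]
  [ConnectedSpace T] (ι : Type) [Fintype ι] [DecidableEq ι] (p : ι → ℤ) (d : Matrix ι ι S6)
  (hd : IsMF W p d), (∀ (U : Fm W T) (t : T), U.At t p d → U.kap c 0 = cst T W (mv W (cl c hd))) ∧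
    ∀ hW k, (Fm.const hW hd T).kap c (k + 1) = 0

/-- **OR**: Riemann-Roch for fibrewise orthogonal families -/
def StOr : Prop := ∀ (W : S6) (c : Cu W) (T : Type) [TopologicalSpace T] [Nice T]
  [ConnectedSpace T] (U U' : Fm W T), (∀ t, U.Or U' t) → ∀ k, rh (U.kap c) (U'.kap c) k = 0

/-! ## One surface -/

/-- **GLOB + TYP** -/
def StGlob : Prop := ∀ (W : S6) (c : Cu W) (C : Cf W), HasOut C → ∃ G : Gf C, G.Typ c

/-- **ADJ** -/
def StAdj : Prop := ∀ (W : S6) (c : Cu W) (C : Cf W) (G : Gf C) (v : Cls W), Cv c C v →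
  ∀ x x' : VV W, ∀ l ∈ H.deg (SZ C.Z) 2, ∀ l' ∈ H.deg (SZ C.Z) 2,
    (∀ y, JV W x y = IZ C.Z l (G.ψ c y)) → (∀ y, JV W x' y = IZ C.Z l' (G.ψ c y)) →
      JV W x x' = JZ C.Z (psi (G.θ c 2) (vc v)) * IZ C.Z l l'

/-- **M1** -/
def StM1 : Prop := ∀ (W : S6) (c : Cu W) (C : Cf W) (G : Gf C) (v : Cls W), Cv c C v →
  G.ψ c (vc v) = 0 ∧ JZ C.Z (psi (G.θ c 2) (vc v)) = 1

/-- **SNE** -/
def StSne : Prop := ∀ (ν : ℕ) (Z : Set (Fin ν → ℂ)) σ, PV (π₀ (Fin ν)) Z 2 → IsConnected Z →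
  Kx.Sym Z σ → ∃ s ∈ SgZ Z, s ≠ 0

/-- **COL**: maps with the relations of the columns of `f` -/
def StCol : Prop := ∀ (W : S6) (c : Cu W) (C : Cf W) (G : Gf C) (L' L : G3.HM W) (I J : Type)
  [Fintype I] [Fintype J] (a : J → (L' ⟶ L)) (n : ℕ) (f : Matrix I J (MvPolynomial (Fin C.ν) ℂ))
  (l : H (SZ C.Z)), Sw.Lb (ob C) L' → Sw.Lb (ob C) L → Rat C a f → Rk1 C.Z n f → Gl.Cls C.Z f l →
    G.ψ c (vc (clE c L')) - G.ψ c (vc (clE c L)) = l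

/-- **LEF** -/
def StLef : Prop := ∀ (W : S6) (c : Cu W) (C : Cf W) (G : Gf C), Lb3 C →
  ∃ L₀, LbO C L₀ ∧ ∀ l ∈ Lk (SZ C.Z) 2, (∀ s ∈ SgZ C.Z, IZ C.Z s l = 0) →
    ∃ L, LbO C L ∧ G.ψ c (vc (clE c L)) = G.ψ c (vc (clE c L₀)) + l

/-! ## The deformation -/

/-- the data over a cubic `W` which is identified with `F` by `τ` -/
structure Dat {F : S6} (φ : ℝ) (v : Cls F) (W : S6) (τ : C(XF F, XF W)) where
  c : Cu W
  v' : Cls W
  tv : tr τ v' = v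
  C : Cf W
  all : C.All (QQ c φ v')
  span : Sw.Span (ob C)
  G : Gf C

/-- the Mukai map, transported to `F` -/
def Dat.ψ {F : S6} {φ : ℝ} {v : Cls F} {W : S6} {τ : C(XF F, XF W)} (D : Dat φ v W τ) :
    VV F →ₗ[ℂ] H (SZ D.C.Z) := psi (trK τ (D.G.θ D.c 1))

/-- **FLAT** -/
def StFlat : Prop := ∀ (F : S6) (h : Per.Sm F) (r : ℝ) Φ σ η (k : Per.PM h p3 r Φ σ η) (φ : ℝ)
  (v : Cls F), Node v → ∀ (t₀ : T3) (h₀ : t₀ ∈ ball (0 : T3) r)
    (D₀ : Dat φ v (F + p3 t₀) (k.tr t₀ h₀).φ), ∀ᶠ t in 𝓝 t₀, JF F (v.2 * σ t) = 0 →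
      ∀ (ht : t ∈ ball (0 : T3) r) (D : Dat φ v (F + p3 t) (k.tr t ht).φ),
        Flat (JV F) (vc v) (IZ D₀.C.Z) (Lk (SZ D₀.C.Z) 2) D₀.ψ (IZ D.C.Z) (H.deg (SZ D.C.Z) 2)
          (Lk (SZ D.C.Z) 2) D.ψ

end Vale.Agent.P287T.Psi
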