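import Vale.Agent.P287T.Psi.Kv
import Vale.Agent.P287T.Gl.St
import Vale.Agent.P287T.Gb.Inv
import Vale.Agent.P287T.Gb.Alg

/-!
# Families over a surface whose bundles are holomorphic
-/

noncomputable section

namespace Vale.Agent.P287T.Psi

open P269 P287T.Cy P287T.Fa P287T.Gb P287T.Gl

variable {W : S6} {ν : ℕ} {Z : Set (Fin ν → ℂ)}

/-- The even generators of `U` are a sum of line bundles `O(m i)`, and the image of the odd
generators is the image of the holomorphic matrix `φ`. -/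
structure Fm.HolD (U : Fm W (SZ Z)) {ι μ : Type} [Fintype ι] [Fintype μ] [DecidableEq ι]
    [DecidableEq μ] (p : ι → ℤ) (q : μ → ℤ) (m : ι → ℕ) (φ : (Fin ν → ℂ) → Matrix ι μ S6)
    (B : Z → Matrix ι U.κ ℂ) : Prop where
  an : ∀ z ∈ Z, ∀ i j k, AnalyticAt ℂ (fun y => MvPolynomial.coeff k (φ y i j)) z
  deg : ∀ z ∈ Z, φ z ∈ MM q p 3
  cB : Continuous B
  bB : ∀ z, Blk U.q p (B z)
  eB : ∀ (z z' : Z) (c : ℂ), z'.1 = c • z.1 → B z' = dg c m * B z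
  ev : ∀ z, ∃ A : Matrix U.κ ι ℂ, Blk p U.q A ∧ B z * A = pe p 0 ∧
    A * B z = U.e (Quo.mk _ z) * pe U.q 0
  od : ∀ z : Z, ∃ α ∈ MM U.q q 0, ∃ β ∈ MM q U.q 0,
    cM (B z) * U.D (Quo.mk _ z) * cM (pe U.q 1) = φ z.1 * cM (pe q 1) * α ∧
      φ z.1 * cM (pe q 1) = cM (B z) * U.D (Quo.mk _ z) * cM (pe U.q 1) * β

/-- the bundles of the family are holomorphic -/
def Fm.Hol (U : Fm W (SZ Z)) : Prop :=
  ∃ (ι μ : Type) (_ : Fintype ι) (_ : Fintype μ) (_ : DecidableEq ι) (_ : DecidableEq μ)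
    (p : ι → ℤ) (q : μ → ℤ) (m : ι → ℕ) (φ : (Fin ν → ℂ) → Matrix ι μ S6)
    (B : Z → Matrix ι U.κ ℂ), U.HolD p q m φ B

end Vale.Agent.P287T.Psi
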