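import Vale.Agent.P287T.Psi.Kv
import Vale.Agent.P287T.Rr.Geo0

/-!
# The Chern characters of the bundles attached to a family
-/

set_option linter.unusedSectionVars false

noncomputable section

namespace Vale.Agent.P287T.Psi

open Set Function Module Matrix MvPolynomial P291Z P269 P269.Ch P269.Grr P287Q P287Q.Cub P287T.Cy
  P287T.Rr P287T.Fa P287Z.O P287Z.O.L

variable {ι κ : Type} [Fintype ι] [Fintype κ]

section chF

variable {Y Y' : Ch.Sp} {χ : Y.G →ₜ* ℂˣ} {χ' : Y'.G →ₜ* ℂˣ} {w : ι → ℤ} {w' : κ → ℤ}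
  {F : Y.T → Submodule ℂ (ι → ℂ)} {F' : Y'.T → Submodule ℂ (κ → ℂ)} {r : ℕ}

theorem chF_eq (h : Fam χ w F r) : chF χ w F = h.vb.chc := by
  have h1 : ∃ r, Fam χ w F r := ⟨r, h⟩
  have k : Iso (Mor.id Y) h1.choose_spec.vb h.vb fun _ => LinearMap.id :=
    ⟨Hom.of_continuous (fun _ _ hv => hv) continuous_snd fun _ _ _ _ => rfl, fun _ _ _ e => e,
      fun _ v hv => ⟨v, hv, rfl⟩⟩
  rw [chF, dif_pos h1, Iso.chc' k]

theorem chF_deg (k : ℕ) : PowerSeries.coeff k (chF χ w F) ∈ Hev.deg Y.X k := by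
  rw [chF]
  split_ifs
  exacts [chc_deg _ k, zero_mem _]

theorem chF_rk (h : ∃ r, Fam χ w F r) (t : Y.T) :
    PowerSeries.coeff 0 (chF χ w F) = finrank ℂ (F t) := by
  obtain ⟨r, h⟩ := h
  rw [chF_eq h, h.rk, VB.chc, coeff_zero_chP]
  rfl

/-- families that are identified by matrices -/
theorem chF_iso (h' : ∃ r, Fam χ' w' F' r) (h : ∃ r, Fam χ w F r) (m : Mor Y' Y)
    {A : Y'.T → Matrix ι κ ℂ} (cA : Continuous A) (mem : ∀ t v, v ∈ F' t → A t *ᵥ v ∈ F (m.f t))
    (eqv : ∀ (g : Y'.G) t v, v ∈ F' t → (A (g • t) *ᵥ fun j => (χ' g : ℂ) ^ w' j * v j) =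
      fun i => (χ (m.ρ g) : ℂ) ^ w i * (A t *ᵥ v) i)
    (inj : ∀ t v, v ∈ F' t → A t *ᵥ v = 0 → v = 0)
    (surj : ∀ t v, v ∈ F (m.f t) → ∃ u ∈ F' t, A t *ᵥ u = v) :
    chF χ' w' F' = pS m.map (chF χ w F) := by
  obtain ⟨r', h'⟩ := h'
  obtain ⟨r, h⟩ := h
  have k : Iso m h'.vb h.vb fun t => (A t).mulVecLin :=
    ⟨Hom.of_continuous mem ((cA.comp continuous_fst).matrix_mulVec continuous_snd) fun g t v hv =>
      ((congrArg (A (g • t) *ᵥ ·) (am_smul χ' w' g v)).trans (eqv g t v hv)).trans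
        (am_smul χ w (m.ρ g) (A t *ᵥ v)).symm, inj, surj⟩
  rw [chF_eq h', chF_eq h, Iso.chc k]

theorem chF_fam (h : Fam χ w F r) (m : Mor Y' Y) (e : ∀ g, χ' g = χ (m.ρ g)) :
    Fam χ' w (fun t => F (m.f t)) r :=
  ⟨h.cl.preimage (m.cf.prodMap continuous_id), fun _ => h.rk _, fun g t v hv => by
    rw [m.eqv, e]
    exact h.iv _ _ v hv⟩

/-- **naturality** -/
theorem chF_pb (h : ∃ r, Fam χ w F r) (m : Mor Y' Y) (e : ∀ g, χ' g = χ (m.ρ g)) :
    chF χ' w (fun t => F (m.f t)) = pS m.map (chF χ w F) := by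
  classical
  refine chF_iso (h.imp fun _ k => chF_fam k m e) h m (A := fun _ => 1) continuous_const
    (fun t v hv => (one_mulVec v).symm ▸ hv) (fun g t v _ => ?_)
    (fun t v _ k => (one_mulVec v).symm.trans k) fun t v hv => ⟨v, hv, one_mulVec v⟩
  rw [one_mulVec, one_mulVec, e]

theorem fam_pj (h : Pj (am χ w) F) : Fam χ w F (⨆ t, finrank ℂ (F t)) :=
  ⟨h.cl, iSup_rk h.rk, fun g t v hv => am_smul χ w g v ▸ h.iv g t v hv⟩

theorem chF_pj (h : Pj (am χ w) F) : chF χ w F = h.vb.chc := chF_eq (fam_pj h)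

end chF

section fam

variable {T : Type} [TopologicalSpace T] {x : T → Fin 6 → ℂ}

theorem k0_ev {n : ℤ} {f : T → S6} (hf : ∀ t, V.Hg n (f t))
    (h : ∀ m, Continuous fun t => coeff m (f t)) (hx : Continuous x) :
    Continuous fun t => eval (x t) (f t) := Fa.continuous_eval hf ((continuous_hg hf).2 h) hx

theorem k0_der {n : ℤ} {f : T → S6} (hf : ∀ t, V.Hg n (f t))
    (h : ∀ m, Continuous fun t => coeff m (f t)) (hx : Continuous x) (k : Fin 6) :
    Continuous fun t => eval (x t) (pderiv k (f t)) :=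
  k0_ev (fun t => hg_pderiv (hf t) k) (fun m => by
    simp only [coeff_pderiv]
    exact (h _).mul continuous_const) hx

variable {W : T → S6} {p : ι → ℤ} {e : T → Matrix ι ι ℂ} {d : T → Matrix ι ι S6}

theorem k0_evM (h : PF W p e d) (hx : Continuous x) : Continuous fun t => evM (x t) (d t) :=
  continuous_matrix fun i j => k0_ev (fun t => (h.pf t).deg i j) (h.cd i j) hx

theorem k0_hoM (h : PF W p e d) (hx : Continuous x) (sm : ∀ t, Sm (W t)) (h0 : ∀ t, x t ≠ 0) :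
    Continuous fun t => hoM (W t) (d t) (x t) := by
  have h1 := k0_der h.hW h.cW hx
  exact ((continuous_finsetSum _ fun k _ => (Complex.continuous_conj.comp (h1 k)).mul (h1 k)).inv₀
    fun t => nrm_ne (sm t) (h0 t)).smul (continuous_finsetSum _ fun k _ =>
      (Complex.continuous_conj.comp (h1 k)).smul (continuous_matrix fun i j =>
        k0_der (fun t => (h.pf t).deg i j) (h.cd i j) hx k))

end fam

/-- **The bundle `V` of a family of factorizations** over a presented space. -/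
theorem fam_PF {Y : Ch.Sp} [PreconnectedSpace Y.T] {χ : Y.G →ₜ* ℂˣ} {x : Y.T → Fin 6 → ℂ}
    {W : Y.T → S6} {p : ι → ℤ} {e : Y.T → Matrix ι ι ℂ} {d : Y.T → Matrix ι ι S6} (h : PF W p e d)
    (cx : Continuous x) (ex : ∀ (g : Y.G) t, x (g • t) = (χ g : ℂ) • x t)
    (ie : ∀ (g : Y.G) t, e (g • t) = e t) (id : ∀ (g : Y.G) t, d (g • t) = d t)
    (sm : ∀ t, Sm (W t)) (mem : ∀ t, x t ∈ Pub.cone (W t)) (a : ℤ) :
    ∃ r, Fam χ (fun i => wt (p i))
      (fun t => Vf (fun i => 2 ∣ p i + a) (e t) (evM (x t) (d t))) r := by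
  refine ⟨_, fam_Vf (w' := fun i => wt (p i) + if 2 ∣ p i then 0 else 3) h.ce (k0_evM h cx)
    (fun g t i j _ => ?_) (fun g t i j _ => ?_) (iSup_rk (Fib.rank
      (fun t => pf_fib (h.pf t) (sm t) (mem t).1 (mem t).2) (k0_evM h cx)
        (k0_hoM h cx sm fun t => (mem t).1) a))⟩
  · rw [ie]
    by_cases k : p i = p j
    · simp only [k, mul_comm]
    · rw [(h.pf t).blk i j k, zero_mul, mul_zero]
  · beta_reduce
    rw [ex, id]
    refine hg_eval ((h.pf t).deg i j) (χ g).ne_zero _ fun k => ?_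
    split_ifs with h1
    · have := wt_even h1
      have := wt_odd (a := p j) (by omega)
      omega
    · have := wt_odd h1
      have := wt_even (a := p j) (by omega)
      omega

/-- a continuous map as a morphism of trivial presentations -/
def tmor {T T' : Type} [TopologicalSpace T] [TopologicalSpace T'] [Nice T] [Nice T'] (f : C(T', T)) :
    Mor (.triv T') (.triv T) :=
  ⟨MonoidHom.id PUnit, f, continuous_id, f.continuous, fun _ _ => rfl⟩

theorem tmor_map {T T' : Type} [TopologicalSpace T] [TopologicalSpace T'] [Nice T] [Nice T']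
    (f : C(T', T)) : (tmor f).map = f :=
  ContinuousMap.coe_injective ((tmor f).map_eq (φ := f) fun _ => rfl).symm

namespace Fm

variable {W : S6} {T T' : Type} [TopologicalSpace T] [Nice T] [PreconnectedSpace T]
  [TopologicalSpace T'] [Nice T'] (U : Fm W T)

theorem famE (u : ℤ) : ∃ r, Fam (Y := .triv T) 1 (fun _ => 0)
    (fun t => Vf (fun i => U.q i = u) (U.e t) 0) r :=
  ⟨_, fam_pj (EF.pj_sup (B := .triv T) ⟨U.pf, fun _ _ => rfl, fun _ _ => rfl, ‹_›⟩ (Mor.id _) 1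
    (· = u) (fun _ => 0) ‹_›)⟩

theorem famV (c : Cu W) : ∃ r, Fam (Y := Dn.prS (.triv T) c.Y) ((Dn.pr2 _ c.Y).chr c.χ)
    (fun i => wt (U.q i))
    (fun x => Vf (fun i => 2 ∣ U.q i + 0) (U.e x.1) (evM (c.x x.2) (U.D x.1))) r :=
  have := c.conn
  have : PreconnectedSpace (Dn.prS (.triv T) c.Y).T :=
    inferInstanceAs (PreconnectedSpace (T × c.Y.T))
  fam_PF (Y := Dn.prS (.triv T) c.Y) (x := fun x => c.x x.2) (W := fun _ => W)
    (e := fun x => U.e x.1) (d := fun x => U.D x.1) (U.pf.comp continuous_fst)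
    (c.x_cont.comp continuous_snd) (fun g t => c.x_smul g.2 t.2) (fun _ _ => rfl) (fun _ _ => rfl)
    (fun _ => c.sm) (fun t => c.x_mem t.2) 0

theorem chE_pb (f : C(T', T)) (u : ℤ) : (U.pb f).chE u = pS f (U.chE u) :=
  (chF_pb (U.famE u) (tmor f) fun _ => rfl).trans (by rw [tmor_map]; rfl)

theorem chV_pb (f : C(T', T)) (c : Cu W) :
    (U.pb f).chV c = pS (f.prodMap (.id (XF W))) (U.chV c) :=
  (chF_pb (U.famV c) (Dn.prM (tmor f) (Mor.id c.Y)) fun _ => rfl).trans (by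
    rw [Dn.prM_map, tmor_map, Dn.id_map]; rfl)

end Fm

end Vale.Agent.P287T.Psi
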