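import Vale.Agent.P287T.Psi.St
import Vale.Agent.P287T.Fa.Cx
import Vale.Agent.P287T.Df.Cx
import Vale.Agent.P287T.Oc.Main
import Vale.Agent.P287T.Cl.Mem

/-!
# The classifying map of a family of stable objects
-/

set_option linter.unusedSectionVars false
set_option linter.style.haveILetI false

noncomputable section

namespace Vale.Agent.P287T.Psi

open Set Module CategoryTheory P291Z P269 P287Q P287Q.Cub P287T.Cy P287T.Rr P287T.Top P287T.Cl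
  P287T.Au P287T.Gl P287T.Fa P287T.G3 P287T.Sw

variable {W : S6} {ι κ μ ν : Type} [Fintype ι] [Fintype κ] [Fintype μ] [Fintype ν]
  [DecidableEq ι] [DecidableEq κ] [DecidableEq μ] [DecidableEq ν] {p : ι → ℤ} {d : Matrix ι ι S6}
  {p' : κ → ℤ} {d' : Matrix κ κ S6}

theorem spl_he {e : Matrix ι ι ℂ} (hd : IsPF W p e d) {r : μ → ℤ} {a : Matrix μ ι ℂ}
    {b : Matrix ι μ ℂ} {r' : ν → ℤ} {a' : Matrix ν ι ℂ} {b' : Matrix ι ν ℂ} (k : Spl p e r a b)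
    (k' : Spl p e r' a' b') : HE r (cM a * d * cM b) r' (cM a' * d * cM b') := by
  refine HE.of_conj (g := cM a' * cM b) (g' := cM a * cM b') (Fa.MM_mul k'.ba.mm k.bb.mm (add_zero _))
    (Fa.MM_mul k.ba.mm k'.bb.mm (add_zero _)) ?_ ?_ ?_
  · rw [Matrix.mul_assoc, ← Matrix.mul_assoc (cM b), k.ba', k'.eb, k'.ab]
  · rw [Matrix.mul_assoc, ← Matrix.mul_assoc (cM b'), k'.ba', k.eb, k.ab]
  · rw [Matrix.mul_assoc, k.b_d hd, ← Matrix.mul_assoc _ (cM a'), k'.a_d hd, Matrix.mul_assoc]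

theorem le_iff_hh (j : ℤ) : ZZ p d p' d' j ≤ BB p d p' d' j ↔ finrank ℂ (HH p d p' d' j) = 0 := by
  have := finite_ZZ p d p' d' j
  refine ⟨fun h => finrank_zero_iff_forall_zero.2 fun x => ?_, Df.hq_zero⟩
  obtain ⟨z, rfl⟩ := Submodule.Quotient.mk_surjective _ x
  exact (Df.hq_mk_eq_zero z).2 (h z.2)

/-- between equivalent bricks every nonzero map is an equivalence -/
theorem he_inv (h : HE p d p' d') (h1 : finrank ℂ (HH p d p d 0) = 1) {g : Matrix κ ι S6}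
    (hg : g ∈ ZZ p d p' d' 0) (hg' : g ∉ BB p d p' d' 0) : ∃ g' ∈ ZZ p' d' p d 0,
      g' * g - 1 ∈ BB p d p d 0 ∧ g * g' - 1 ∈ BB p' d' p' d' 0 := by
  have := finite_ZZ p d p' d' 0
  have h2 := (h.hh_right p d 0).symm.trans h1
  obtain ⟨f, hf, f', hf', k1, k2⟩ := h
  obtain ⟨c, hc⟩ := Df.hq_span h2.le hg hg' hf
  refine ⟨c • f', Submodule.smul_mem _ c hf', ?_, ?_⟩
  · have := sub_mem k1 (zz_mul_bb hf' hc (add_zero _))
    rwa [Matrix.mul_sub, Matrix.mul_smul, ← Matrix.smul_mul, sub_sub_sub_cancel_left] at this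
  · have := sub_mem k2 (bb_mul_zz hc hf' (add_zero _))
    rwa [Matrix.sub_mul, Matrix.smul_mul, ← Matrix.mul_smul, sub_sub_sub_cancel_left] at this

namespace Fm

variable {T T' : Type} [TopologicalSpace T] [TopologicalSpace T'] {U U' : Fm W T} {t : T}

theorem spl (U : Fm W T) (t : T) : ∃ (n : ℕ) (r : Fin n → ℤ) (a : Matrix (Fin n) U.κ ℂ)
    (b : Matrix U.κ (Fin n) ℂ), Spl U.q (U.e t) r a b :=
  exists_spl (U.pf.pf t).blk (U.pf.pf t).ee

theorem At.he (h : U.At t p d) (e : HE p d p' d') : U.At t p' d' :=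
  fun n r a b k => (h n r a b k).trans e

theorem At.of_spl {r : μ → ℤ} {a : Matrix μ U.κ ℂ} {b : Matrix U.κ μ ℂ}
    (k : Spl U.q (U.e t) r a b) (h : HE r (cM a * U.D t * cM b) p d) : U.At t p d :=
  fun _ _ _ _ k' => (spl_he (U.pf.pf t) k' k).trans h

theorem At.spl (h : U.At t p d) {r : μ → ℤ} {a : Matrix μ U.κ ℂ} {b : Matrix U.κ μ ℂ}
    (k : Spl U.q (U.e t) r a b) : HE r (cM a * U.D t * cM b) p d :=
  let ⟨_, _, _, _, k'⟩ := U.spl t
  (spl_he (U.pf.pf t) k k').trans (h _ _ _ _ k')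

theorem At.uniq (h : U.At t p d) (h' : U.At t p' d') : HE p d p' d' :=
  let ⟨_, _, _, _, k⟩ := U.spl t
  (h.spl k).symm.trans (h'.spl k)

theorem exists_at (U : Fm W T) (t : T) : ∃ E : HM W, U.At t E.pz E.dz :=
  let ⟨_, _, _, _, k⟩ := U.spl t
  ⟨ofRaw (k.isMF (U.pf.pf t)), At.of_spl k (HE.refl _ _)⟩

theorem at_pb (f : C(T', T)) (s : T') : (U.pb f).At s p d ↔ U.At (f s) p d := Iff.rfl

theorem at_const (hW : P287Z.O.V.Hg 6 W) (hd : IsMF W p d) (t : T) :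
    (Fm.const hW hd T).At t p d :=
  have : HE p (cM 1 * d * cM 1) p d := by
    rw [cM_one, Matrix.one_mul, Matrix.mul_one]
    exact HE.refl _ _
  At.of_spl (U := Fm.const hW hd T) Spl.refl this

theorem At.hp (h : U.At t p d) (h' : U'.At t p' d') (j : ℤ) :
    finrank ℂ (HP U.q (U.e t) (U.D t) U'.q (U'.e t) (U'.D t) j) = finrank ℂ (HH p d p' d' j) := by
  obtain ⟨_, _, _, _, k⟩ := U.spl t
  obtain ⟨_, _, _, _, k'⟩ := U'.spl t
  obtain ⟨e⟩ := k.hp_equiv k' (U.pf.pf t) (U'.pf.pf t) (j := j)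
  rw [← e.finrank_eq, (h'.spl k').hh_right, (h.spl k).hh_left]

theorem At.le_iff (h : U.At t p d) (h' : U'.At t p' d') (j : ℤ) :
    ZP U.q (U.e t) (U.D t) U'.q (U'.e t) (U'.D t) j ≤
      BP U.q (U.e t) (U.D t) U'.q (U'.e t) (U'.D t) j ↔ ZZ p d p' d' j ≤ BB p d p' d' j := by
  obtain ⟨_, _, _, _, k⟩ := U.spl t
  obtain ⟨_, _, _, _, k'⟩ := U'.spl t
  rw [k.le_iff k' (U.pf.pf t) (U'.pf.pf t), le_iff_hh, le_iff_hh, (h'.spl k').hh_right,
    (h.spl k).hh_left]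

theorem At.or_iff (h : U.At t p d) (h' : U'.At t p' d') :
    U.Or U' t ↔ ∀ k : ℤ, ZZ p d p' d' (3 * k) ≤ BB p d p' d' (3 * k) :=
  forall_congr' fun _ => h.le_iff h' _

/-- nonzero maps between equivalent members which are bricks are equivalences -/
theorem At.inv (h : U.At t p d) (h' : U'.At t p d) (h1 : finrank ℂ (HH p d p d 0) = 1)
    {g : Matrix U'.κ U.κ S6} (hg : g ∈ ZP U.q (U.e t) (U.D t) U'.q (U'.e t) (U'.D t) 0)
    (hg' : g ∉ BP U.q (U.e t) (U.D t) U'.q (U'.e t) (U'.D t) 0) :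
    ∃ g' ∈ ZP U'.q (U'.e t) (U'.D t) U.q (U.e t) (U.D t) 0,
      g' * g - cM (U.e t) ∈ BP U.q (U.e t) (U.D t) U.q (U.e t) (U.D t) 0 ∧
        g * g' - cM (U'.e t) ∈ BP U'.q (U'.e t) (U'.D t) U'.q (U'.e t) (U'.D t) 0 := by
  obtain ⟨_, _, a, b, k⟩ := U.spl t
  obtain ⟨_, _, a', b', k'⟩ := U'.spl t
  have u := U.pf.pf t
  have u' := U'.pf.pf t
  have m := Fa.MM_mul (Fa.MM_mul k'.ba.mm hg.1.1 (zero_add _)) k.bb.mm (add_zero _)
  have e := k.up_dn k' hg.1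
  obtain ⟨f, h2, h3, h4⟩ := he_inv ((h.spl k).trans (h'.spl k').symm)
    (by rw [(h.spl k).hh_right, ← (h.spl k).hh_left, h1])
    ((k.up_ZP k' u u' m).1 (e.symm ▸ hg)) fun x => hg' (e ▸ (k.up_BP k' u u' m).2 x)
  refine ⟨_, (k'.up_ZP k u' u h2.1).2 h2, ?_, ?_⟩
  · have := (k.up_BP k u u (bb_le_zz (k.isMF u) (k.isMF u) 0 h3).1).2 h3
    rwa [Matrix.mul_sub, Matrix.sub_mul, Matrix.mul_one, k.ba', show cM b * (f * (cM a' * g * cM b)) *
      cM a = cM b * f * cM a' * g by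
        simp only [Matrix.mul_assoc, k.ba', MP.right hg.1 u.ee]] at this
  · have := (k'.up_BP k' u' u' (bb_le_zz (k'.isMF u') (k'.isMF u') 0 h4).1).2 h4
    rwa [Matrix.mul_sub, Matrix.sub_mul, Matrix.mul_one, k'.ba', show cM b' * (cM a' * g * cM b * f) *
      cM a' = g * (cM b * f * cM a') by
        simp only [← Matrix.mul_assoc, k'.ba', MP.left hg.1 u'.ee]] at this

end Fm

section

variable {c : Cu W} {φ : ℝ} {v : Cls W} {C : Cf W}

theorem orb_he {O : Set (Matrix ι ι S6)} (h : Orb W p O) {d d' : Matrix ι ι S6} (hd : d ∈ O)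
    (hd' : d' ∈ O) : HE p d p d' :=
  let ⟨_, hg, _, hg', h1, h2, h3⟩ := (h.conj d hd d').1 hd'
  HE.of_conj hg hg' h1 h2 h3

theorem orb_end {O : Set (Matrix ι ι S6)} (h : Orb W p O) {d : Matrix ι ι S6} (hd : d ∈ O) :
    finrank ℂ (HH p d p d 0) = 1 := by simpa using h.dim d hd 0

theorem O_eq (C : Cf W) {z z' : C.Z} (e : (Quo.mk _ z : SZ C.Z) = Quo.mk _ z') :
    C.O z'.1 = C.O z.1 := by
  have := N0_isAct (π₀ (Fin C.ν))
  obtain ⟨a, ha, h⟩ := Tq.QMA.mk_eq e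
  rw [h]
  exact C.smul _ z.2 (a ()) (Pi.isUnit_iff.1 ha ()).ne_zero

theorem ort_of_ne (C : Cf W) {z z' : C.Z} (e : (Quo.mk _ z : SZ C.Z) ≠ Quo.mk _ z') :
    Ort C.p (C.O z.1) (C.O z'.1) := C.ort _ z.2 _ z'.2 fun a h => e (by
  have a0 : a ≠ 0 := fun a0 => by
    obtain ⟨j, -, k⟩ := C.pv.sub z'.2 ()
    exact k (by rw [h, a0, zero_smul]; rfl)
  exact Quot.sound ⟨fun _ => a, Pi.isUnit_iff.2 fun _ => a0.isUnit, h⟩)

theorem qe_pm (hv : Node v) {E : HM W} (h : QE c φ v E) : Pm E := Oc.pm c (h.2.symm ▸ hv.prim)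

theorem qe_chi (hr : HRR) (hv : Node v) {E E' : HM W} (h : QE c φ v E) (h' : QE c φ v E') :
    P294.chi E E' = 0 := by
  have := Cl.chi_eq hr c E.isMF E'.isMF
  rw [show cl c E.isMF = v from h.2, show cl c E'.isMF = v from h'.2, hv.iso, neg_zero] at this
  rw [Sw.chi_eq]
  exact_mod_cast this

/-- **The family contains all stable objects of the class.** -/
theorem qe_iso (hr : HRR) (hv : Node v) (h : C.All (QQ c φ v)) (hs : Span (ob C)) {E : HM W}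
    (hE : QE c φ v E) : ∃ x : Mem C, Nonempty (E ≅ ob C x) := by
  by_contra! k
  have iz := Oc.intZ stMem c
  exact neW c iz (qe_pm hv hE) (hs E fun x j => (cy2 c).fr_zero.1 (orthW c iz hE.1 (qe_ob h x).1
    (qe_pm hv hE) (qe_pm hv (qe_ob h x)) (k x) (qe_chi hr hv hE (qe_ob h x)) j))

theorem cont_of_graph {X Y : Type} [TopologicalSpace X] [TopologicalSpace Y] [CompactSpace Y]
    {f : X → Y} (h : IsClosed {x : X × Y | f x.1 = x.2}) : Continuous f :=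
  continuous_iff_isClosed.2 fun K hK => by
    rw [show f ⁻¹' K = Prod.fst '' ({x : X × Y | f x.1 = x.2} ∩ Prod.snd ⁻¹' K) from
      Set.ext fun x => ⟨fun e => ⟨(x, f x), ⟨rfl, e⟩, rfl⟩, fun ⟨y, ⟨e, e'⟩, e''⟩ =>
        show f x ∈ K by rw [← e'', e]; exact e'⟩]
    exact isClosedMap_fst_of_compactSpace _ (h.inter (hK.preimage continuous_snd))

/-- the classifying map of a family all of whose members occur in `C` -/
theorem Gf.exists_map (G : Gf C) {T : Type} [TopologicalSpace T] (U : Fm W T)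
    (hU : ∀ t, ∃ z : C.Z, ∃ d ∈ C.O z.1, U.At t C.p d) : ∃ f : C(T, SZ C.Z),
      ∀ t (z : C.Z), f t = Quo.mk _ z → ∀ d ∈ C.O z.1, U.At t C.p d := by
  choose z d h1 h2 using hU
  have k : ∀ t (y : C.Z), (Quo.mk _ (z t) : SZ C.Z) = Quo.mk _ y → ∀ d ∈ C.O y.1, U.At t C.p d :=
    fun t y e d' hd' => (h2 t).he (orb_he (C.orb _ (z t).2) (h1 t) (O_eq C e ▸ hd'))
  have := C.pv.compact
  refine ⟨⟨fun t => Quo.mk _ (z t), cont_of_graph (isOpen_compl_iff.1 ?_)⟩, k⟩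
  have o := (U.pb (.fst : C(T × SZ C.Z, T))).pf.isOpen_le (G.U.pb .snd).pf 0
  refine (congrArg IsOpen (Set.ext (Prod.forall.2 fun t s => ?_))).mp o
  obtain ⟨y, rfl⟩ := Quot.mk_surjective s
  obtain ⟨e, he⟩ := (C.orb _ y.2).ne
  refine (Fm.At.le_iff (U := U.pb .fst) (U' := G.U.pb .snd) (t := (t, _)) (h2 t)
    (G.fib y e he) 0).trans ⟨fun h u => ?_, fun u => ort_of_ne C u _ (h1 t) _ he 0⟩
  rw [le_iff_hh, ← (orb_he (C.orb _ (z t).2) (h1 t) (O_eq C u ▸ he)).hh_right,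
    orb_end (C.orb _ (z t).2) (h1 t)] at h
  exact one_ne_zero h

/-- **The classifying map.** -/
theorem exists_map (hr : HRR) (hv : Node v) (h : C.All (QQ c φ v)) (hs : Span (ob C)) (G : Gf C)
    {T : Type} [TopologicalSpace T] (U : Fm W T)
    (hU : ∀ t, ∃ E, QE c φ v E ∧ U.At t E.pz E.dz) : ∃ f : C(T, SZ C.Z), ∀ t, ∃ d,
      finrank ℂ (HH C.p d C.p d 0) = 1 ∧ U.At t C.p d ∧ (G.U.pb f).At t C.p d := by
  obtain ⟨f, hf⟩ := G.exists_map U fun t => by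
    obtain ⟨E, h1, h2⟩ := hU t
    obtain ⟨x, h3⟩ := qe_iso hr hv h hs h1
    exact ⟨⟨_, x.2.1⟩, _, x.2.2, h2.he ((iso_iff _ _).1 h3)⟩
  refine ⟨f, fun t => ?_⟩
  obtain ⟨z, e⟩ := Quot.mk_surjective (f t)
  obtain ⟨d, hd⟩ := (C.orb _ z.2).ne
  exact ⟨d, orb_end (C.orb _ z.2) hd, hf t z e.symm d hd,
    (Fm.at_pb f t).2 (e ▸ G.fib z d hd)⟩

end

end Vale.Agent.P287T.Psi
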