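import Vale.Agent.P287T.Psi.St
import Vale.Agent.P287T.Rb.Defs

/-!
# Riemann-Roch for families over a plain space: the statement
-/

set_option linter.unusedVariables false

noncomputable section

namespace Vale.Agent.P287T.Psi

open Filter P291Z P269 P287Q P287Q.Cub P287T.Cy P287T.Rr P287T.Top P287T.Cl

/-- a family over a plain space is an invariant family for the trivial group -/
theorem Fm.eft {W : S6} {T : Type} [TopologicalSpace T] [Nice T] [h : PreconnectedSpace T]
    (U : Fm W T) : EF (.triv T) W U.q U.e U.D := ⟨U.pf, fun _ _ => rfl, fun _ _ => rfl, h⟩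

/-- **RH**: the character of the complex of maps is given by the Mukai pairing -/
def StRH : Prop := ∀ (W : S6) (c : Cu W) (T : Type) [TopologicalSpace T] [Nice T]
  [ConnectedSpace T] (U U' : Fm W T) (k : ℕ), ∀ᶠ K in atTop,
    (PowerSeries.coeff k (Rb.RH U.eft U'.eft K)).1 = rh (U.kap c) (U'.kap c) k

end Vale.Agent.P287T.Psi
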