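import Vale.Agent.P287T.Psi.St
import Vale.Agent.P287Q.Hb.All
import Vale.Agent.P287Q.Hb.HRg

/-!
# The lattice of a projective surface
-/

set_option linter.style.haveILetI false

namespace Vale.Agent.P287T.Psi

open Set Module P291Z P269 P269.Holo P287Q P287Q.Cub P287Q.Zc P287T.Gl

variable {ν : ℕ} {Z : Set (Fin ν → ℂ)}

theorem IZ_apply (a b : H (SZ Z)) : IZ Z a b = JZ Z (a * b) := rfl

/-- the classes of type `(p, q)` -/
noncomputable abbrev TZ (Z : Set (Fin ν → ℂ)) : ℤ → ℤ → Submodule ℂ (H (SZ Z)) :=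
  Hb.QT (scl (π₀ (Fin ν))) Z

theorem uni_of {A : Type} [AddCommGroup A] [Module ℂ A] {I : A →ₗ[ℂ] A →ₗ[ℂ] ℂ} {U : Submodule ℂ A}
    {L : Submodule ℤ A} (h : Zc.Uni I U L) [Module.Free ℤ L] [Module.Finite ℤ L]
    (hi : ∀ (ι : Type) (v : ι → L), LinearIndependent ℤ v → LinearIndependent ℂ fun i => (v i).1) :
    Uni I U L := by
  let b := finBasis ℤ L
  have e : Submodule.span ℤ (range fun i => (b i).1) = L := by
    have := congrArg (Submodule.map L.subtype) b.span_eq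
    rwa [Submodule.map_span, ← range_comp, Submodule.map_subtype_top] at this
  have le : ∀ x ∈ L, x ∈ U := fun x hx => h.span.le (Submodule.subset_span hx)
  refine ⟨⟨_, fun i => (b i).1, hi _ b b.linearIndependent, ?_, e⟩, h.symm,
    fun a ha b hb => ?_, fun a ha k => ?_⟩
  · rw [← Submodule.span_span_of_tower ℤ, e, h.span]
  · exact mem_ZZ.1 (h.int a ha b hb)
  · obtain ⟨z, hz, e⟩ := h.rep (I a) fun y hy => mem_ZZ.2 (k y hy)
    have := h.nondeg (z - a) (U.sub_mem (le z hz) ha) fun y hy => by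
      rw [map_sub, LinearMap.sub_apply, e y hy, sub_self]
    exact sub_eq_zero.1 this ▸ hz

variable (h : PV (π₀ (Fin ν)) Z 2)
include h

theorem pzZ : haveI := isAct_scl (π₀ (Fin ν)); PZ h.qm.ps :=
  haveI := isAct_scl (π₀ (Fin ν))
  pz_qm h.qm

theorem hgZ : haveI := isAct_scl (π₀ (Fin ν)); Hb.HG h.qm.ps (TZ Z) :=
  haveI := isAct_scl (π₀ (Fin ν))
  h.hg

/-- **The second cohomology is a unimodular lattice.** -/
theorem uniZ : Uni (IZ Z) (H.deg (SZ Z) 2) (Lk (SZ Z) 2) :=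
  haveI := ((pzZ h).lat 2).free
  haveI := ((pzZ h).lat 2).fin
  uni_of ((pzZ h).mid ⟨1, rfl⟩) ((pzZ h).lat 2).ind

theorem TZ_deg {p q : ℤ} {s : H (SZ Z)} (hs : s ∈ TZ Z p q) : H.IsDeg (p + q) s :=
  (hgZ h).deg p q s hs

theorem TZ_mul {p q p' q' : ℤ} {s s' : H (SZ Z)} (hs : s ∈ TZ Z p q) (hs' : s' ∈ TZ Z p' q') :
    s * s' ∈ TZ Z (p + p') (q + q') := (hgZ h).mul _ _ _ _ s hs s' hs'

theorem JZ_TZ {p q : ℤ} {s : H (SZ Z)} (hs : s ∈ TZ Z p q) (e : p ≠ 2 ∨ q ≠ 2) : JZ Z s = 0 :=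
  hg_J (hgZ h) hs e

theorem JZ_deg {k : ℤ} {s : H (SZ Z)} (hs : H.IsDeg k s) (e : k ≠ 4) : JZ Z s = 0 :=
  haveI := isAct_scl (π₀ (Fin ν))
  h.qm.ps.pd.deg k e s hs

theorem JZ_nd {s : H (SZ Z)} (hs : ∀ y, JZ Z (y * s) = 0) : s = 0 :=
  haveI := isAct_scl (π₀ (Fin ν))
  h.qm.ps.pd.nondeg s hs

theorem hZ_Lk : hZ Z ∈ Lk (SZ Z) 2 :=
  haveI := isAct_scl (π₀ (Fin ν))
  lcq_Lk h.qm (hm_crd ())

variable (hc : IsConnected Z)
include hc

omit h in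
theorem conZ (y : H (SZ Z)) (hy : H.IsDeg 0 y) : ∃ t : ℂ, y = t • 1 :=
  haveI := isAct_scl (π₀ (Fin ν))
  haveI := Mf.connected_quo (act := scl (π₀ (Fin ν))) hc
  Hb.con_of_conn y hy

theorem hZ_11 : hZ Z ∈ TZ Z 1 1 := by
  have := isAct_scl (π₀ (Fin ν))
  obtain ⟨_, _, e⟩ := h.emb'
  simpa using e.mem11 h.qm (conZ hc) hc.nonempty two_ne_zero

theorem hZ_pos : ∃ m : ℕ, 0 < m ∧ JZ Z (hZ Z * hZ Z) = m := by
  have := isAct_scl (π₀ (Fin ν))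
  obtain ⟨_, _, e⟩ := h.emb'
  have := e.J_pos h.qm (conZ hc) hc.nonempty
  simp only [Fintype.prod_unique, sq] at this
  exact this

/-- **An ample class.** -/
theorem ampZ : ∃ a ∈ Lk (SZ Z) 2, (∀ s ∈ SgZ Z, IZ Z s a = 0) ∧
    0 < (IZ Z a a).re := by
  obtain ⟨m, h1, h2⟩ := hZ_pos h hc
  refine ⟨hZ Z, hZ_Lk h, fun s hs => JZ_TZ h (TZ_mul h hs (hZ_11 h hc)) (by decide), ?_⟩
  rw [IZ_apply, h2, Complex.natCast_re]
  exact Nat.cast_pos.2 h1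

end Vale.Agent.P287T.Psi
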