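import Vale.Agent.P287T.Psi.Kc
import Vale.Agent.P287T.Psi.Kap0
import Vale.Agent.P287T.Psi.Srf
import Vale.Agent.P287T.Psi.Map
import Vale.Agent.P287T.Psi.Rh
import Vale.Agent.P287T.Rb.Rh

/-!
# The adjoint of the Mukai map is an isometry up to a factor
-/

set_option linter.unusedSectionVars false
set_option linter.style.haveILetI false

namespace Vale.Agent.P287T.Psi.AdB

open Set Filter Topology P291Z P269 P269.Ch P269.Grr P287Q P287Q.Cub P287T.Cy P287T.Rr P287T.Top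
  P287T.Cl P287T.Au P287T.Gl P287T.Dn

variable {S O : Type} [TopologicalSpace S] [TopologicalSpace O] [Nice S] [Nice O] {W : S6}
  {J : H S →ₗ[ℂ] ℂ}

theorem pJ (K : Kun S S) (a b : H S) {l : H S} (hl : H.IsDeg 2 l) (l' : H S) :
    J (fib S J (H.map .fst a * H.map .snd b * (H.map .fst l * H.map .snd l'))) =
      J (a * l) * J (b * l') := by
  rw [mul_assoc, ← mul_assoc (H.map .snd b), ← (hl.map _).commute even_two, mul_assoc, ← mul_assoc,
    ← map_mul, ← map_mul, K.fib_mul, map_smul, smul_eq_mul, mul_comm]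

theorem core (c : Cu W) (K : Kun S S) (hJ : ∀ k ≠ (4 : ℤ), ∀ b, H.IsDeg k b → J b = 0)
    (con : ∀ y : H S, H.IsDeg 0 y → ∃ t : ℂ, y = t • 1) {θ : ℕ → KV S W} (hθ : ∀ k, Dg k (θ k))
    {v : VV W} (h0 : θ 0 = cst S W v.1) {j : C(O, S × S)} (hj : IsOpenEmbedding j)
    (hc : ∀ p : S × S, p.1 ≠ p.2 → p ∈ range j)
    (h1 : H.map j (rh (fun i => pbK .fst (θ i)) (fun i => pbK .snd (θ i)) 2) = 0) (s : S)
    {x x' : VV W} {l l' : H S} (hl : H.IsDeg 2 l) (hl' : H.IsDeg 2 l')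
    (hx : ∀ y, JV W x y = J (l * psi (θ 1) y)) (hx' : ∀ y, JV W x' y = J (l' * psi (θ 1) y)) :
    JV W x x' = J (psi (θ 2) v) * J (l * l') := by
  have k := kunX c S
  have k2 := kunX c (S × S)
  obtain ⟨n, a, b, ha, e⟩ := (hθ 1).exists_sum
  have d : H.IsDeg 4 (psi (θ 2) v) := (hθ 2).psi c k v
  have e1 : rh (fun i => pbK (.fst : C(S × S, S)) (θ i)) (fun i => pbK .snd (θ i)) 2 =
      ∑ i, ∑ m, JV W (b i) (b m) • (H.map .fst (a i) * H.map .snd (a m)) +
        H.map .fst 1 * H.map .snd (psi (θ 2) v) + H.map .fst (psi (θ 2) v) * H.map .snd 1 := by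
    rw [rh_two, ((hθ 2).pbK _).symm, h0, pbK_cst, pbK_cst, map_one, map_one, one_mul, mul_one,
      ← psi_pbK k k2, ← psi_pbK k k2, psi_apply, psi_apply, ← sub_eq_add_neg, ← sub_eq_add_neg, e,
      pbK_sum, pbK_sum, muT_sum_left]
    refine congrArg (· - _ - _) (Finset.sum_congr rfl fun i _ => ?_)
    rw [muT_sum_right]
    refine Finset.sum_congr rfl fun m _ => ?_
    rw [pbK_smK, pbK_smK, pbK_cst, pbK_cst, muT_smK k2, muT_smK_right k2 ((ha m).map _) even_two,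
      muT_cst_cst k2, ← mul_assoc, ← Algebra.commutes, Algebra.smul_def, JV_apply]
  have e2 : ∀ {l : H S}, H.IsDeg 2 l → ∀ y,
      J (l * psi (θ 1) y) = -∑ i, JV W y (b i) * J (a i * l) := fun {l} hl y => by
    rw [e, psi_sum, Finset.mul_sum, map_sum, ← Finset.sum_neg_distrib]
    exact Finset.sum_congr rfl fun i _ => by
      rw [psi_smK_cst k, mul_neg, map_neg, mul_smul_comm, map_smul, hl.commute even_two, JV_apply,
        smul_eq_mul]
  have e3 : ∀ (a b : H S), H.map (slc S s) (H.map .fst a * H.map .snd b) =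
      H.map (.const S s) a * b := fun a b => by
    rw [map_mul, H.map_map, H.map_map, H.map_id (fun _ => rfl) b]
    rfl
  rw [e1] at h1
  have := diag_mul K hJ con hj hc (add_mem (s := H.deg _ 4) (add_mem (sum_mem fun i _ =>
    sum_mem fun m _ => Submodule.smul_mem _ _ (((ha i).map _).mul ((ha m).map _)))
      ((H.isDeg_one.map _).mul (d.map _))) ((d.map _).mul (H.isDeg_one.map _))) h1 s even_two hl hl'
  simp only [add_mul, Finset.sum_mul, smul_mul_assoc, map_add, map_sum, map_smul, H.map_smulC, e3,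
    pJ K _ _ hl] at this
  simp only [hJ 6 (by decide) _ (d.mul hl), hJ 6 (by decide) _ (d.mul hl'),
    fun i => H.map_const_eq_zero (X := S) s two_ne_zero (ha i),
    H.map_const_eq_zero (X := S) s four_ne_zero d, map_one, zero_mul, mul_zero, add_zero, zero_add,
    smul_zero, Finset.sum_const_zero, map_zero, one_mul] at this
  rw [← this, hx, e2 hl, ← Finset.sum_neg_distrib]
  refine Finset.sum_congr rfl fun i _ => ?_
  rw [hx', e2 hl', neg_mul, neg_neg, Finset.sum_mul]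
  exact Finset.sum_congr rfl fun m _ => by rw [smul_eq_mul]; ring

theorem adj (hR : StRH) (hD : StDg) (hN : StNat) (hA : StAt) : StAdj := by
  intro W c C G v hv x x' l hl l' hl' hx hx'
  obtain ⟨⟨⟨s, d₀⟩, hs, h₀⟩⟩ := mem_ne C
  haveI := nice C
  haveI := isAct_scl (π₀ (Fin C.ν))
  haveI : ConnectedSpace C.Z := isConnected_iff_connectedSpace.1 C.cn
  haveI : ConnectedSpace (SZ C.Z) := Quot.mk_surjective.connectedSpace continuous_quot_mk
  have mf := (C.orb s hs).mf _ h₀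
  have o : IsOpen {p : SZ C.Z × SZ C.Z | p.1 ≠ p.2} := isOpen_ne_fun continuous_fst continuous_snd
  haveI := Nice.of_isLocallyClosed o.isLocallyClosed
  let j : C({p : SZ C.Z × SZ C.Z | p.1 ≠ p.2}, SZ C.Z × SZ C.Z) := ⟨_, continuous_subtype_val⟩
  refine core c (qm_kun C.pv.qm _) (fun _ e _ h => JZ_deg C.pv h e) (conZ C.cn) (θ := G.θ c)
    (fun k => hD W c _ G.U k) (((hA W c _ _ _ _ mf).1 G.U _ (G.fib ⟨s, hs⟩ _ h₀)).trans ?_)
    (j := j) o.isOpenEmbedding_subtypeVal (fun p h => ⟨⟨p, h⟩, rfl⟩) ?_ (Quo.mk _ ⟨s, hs⟩) hl hl'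
    hx hx'
  · rw [← hv ⟨(s, d₀), hs, h₀⟩]
    exact congrArg _ (vc_val (P4_LT c (stMem c mf).1)).symm
  obtain ⟨K, h1, h2⟩ := ((Rb.ev_K G.U.q G.U.q).and (hR W c _ (G.U.pb .fst) (G.U.pb .snd) 2)).exists
  have h3 := Rb.RH_acyc (G.U.pb .fst).eft (G.U.pb .snd).eft c.sm (tmor j) h1 fun t => by
    obtain ⟨⟨u, u'⟩, h⟩ := t
    obtain ⟨z, rfl⟩ := Quot.mk_surjective u
    obtain ⟨z', rfl⟩ := Quot.mk_surjective u'
    obtain ⟨d, hd⟩ := (C.orb _ z.2).ne
    obtain ⟨d', hd'⟩ := (C.orb _ z'.2).ne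
    exact (Fm.At.or_iff (U := G.U.pb .fst) (U' := G.U.pb .snd) (t := (_, _)) (G.fib z d hd)
      (G.fib z' d' hd')).2 (ort_of_ne C h _ hd _ hd')
  rw [tmor_map] at h3
  rw [funext (hN W c _ _ G.U .fst), funext (hN W c _ _ G.U .snd)] at h2
  exact (congrArg (H.map j) h2).symm.trans
    (congrArg (fun A => (PowerSeries.coeff 2 A).1) h3)

end Vale.Agent.P287T.Psi.AdB
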