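import Vale.Agent.P287T.Psi.Kv
import Vale.Agent.P287T.Fa.Cone

/-!
# Maps between equivalent simple members
-/

set_option linter.unusedSectionVars false

namespace Vale.Agent.P287T.Psi.CmA

open Module P287Z.O P287Z.O.L P287Z.T P287T.Cy P287T.Fa

variable {ι κ : Type} [Fintype ι] [Fintype κ] [DecidableEq ι] [DecidableEq κ] {W : S6}

theorem hq_one {V : Type} [AddCommGroup V] [Module ℂ V] {Z B : Submodule ℂ V}
    (h1 : finrank ℂ (HQ Z B) = 1) {φ f : V} (hφ : φ ∈ Z) (hn : φ ∉ B) (hf : f ∈ Z) :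
    ∃ a : ℂ, a • φ - f ∈ B := by
  obtain ⟨a, ha⟩ := (finrank_eq_one_iff_of_nonzero' (K := ℂ)
    (Submodule.Quotient.mk ⟨φ, hφ⟩ : HQ Z B)
    fun u => hn ((Submodule.Quotient.mk_eq_zero (B.submoduleOf Z)).1 u :)).1 h1
    (Submodule.Quotient.mk ⟨f, hf⟩)
  exact ⟨a, ((Submodule.Quotient.eq (B.submoduleOf Z)).1
    ((Submodule.Quotient.mk_smul _ _ _).trans ha) :)⟩

theorem inv_of {p : ι → ℤ} {d : Matrix ι ι S6} {q : κ → ℤ} {e : Matrix κ κ S6} (h : HE p d q e)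
    (h1 : finrank ℂ (HH p d q e 0) = 1) {φ : Matrix κ ι S6} (hφ : φ ∈ ZZ p d q e 0)
    (hn : φ ∉ BB p d q e 0) :
    ∃ ψ ∈ ZZ q e p d 0, ψ * φ - 1 ∈ BB p d p d 0 ∧ φ * ψ - 1 ∈ BB q e q e 0 := by
  obtain ⟨f, hf, g, hg, k1, k2⟩ := h
  obtain ⟨a, hb⟩ := hq_one h1 hφ hn hf
  refine ⟨a • g, Submodule.smul_mem _ _ hg, ?_, ?_⟩
  · rw [show a • g * φ - 1 = g * (a • φ - f) + (g * f - 1) by
      rw [Matrix.mul_sub, Matrix.mul_smul, Matrix.smul_mul, sub_add_sub_cancel]]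
    exact add_mem (zz_mul_bb hg hb (add_zero _)) k1
  · rw [show φ * a • g - 1 = (a • φ - f) * g + (f * g - 1) by
      rw [Matrix.sub_mul, Matrix.mul_smul, Matrix.smul_mul, sub_add_sub_cancel]]
    exact add_mem (bb_mul_zz hb hg (add_zero _)) k2

/-- the hypotheses of the comparison theorem -/
theorem h12 {T : Type} [TopologicalSpace T] (U U' : Fm W T) {t : T} {p : ι → ℤ}
    {d : Matrix ι ι S6} (h1 : finrank ℂ (HH p d p d 0) = 1) (k : U.At t p d) (k' : U'.At t p d) :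
    finrank ℂ (HP U.q (U.e t) (U.D t) U'.q (U'.e t) (U'.D t) 0) = 1 ∧
      ∀ φ ∈ ZP U.q (U.e t) (U.D t) U'.q (U'.e t) (U'.D t) 0,
        φ ∉ BP U.q (U.e t) (U.D t) U'.q (U'.e t) (U'.D t) 0 →
          EqP U.q (U.e t) (U.D t) U'.q (U'.e t) (U'.D t) φ := by
  have u := U.pf.pf t
  have u' := U'.pf.pf t
  obtain ⟨n, r, a, b, S⟩ := exists_spl u.blk u.ee
  obtain ⟨n', r', a', b', S'⟩ := exists_spl u'.blk u'.ee
  have e := k n r a b S
  have e' := k' n' r' a' b' S'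
  have h2 := (e'.hh_right _ _ 0).trans ((e.hh_left p d 0).symm.trans h1)
  obtain ⟨E⟩ := S.hp_equiv (j := 0) S' u u'
  refine ⟨E.finrank_eq.symm.trans h2, fun φ hφ hn => ?_⟩
  have m := Fa.MM_mul (Fa.MM_mul S'.ba.mm hφ.1.1 (zero_add _)) S.bb.mm (add_zero _)
  have ud := S.up_dn S' hφ.1
  obtain ⟨ψ, s1, s2, s3⟩ := inv_of (e.trans e'.symm) h2
    ((S.up_ZP S' u u' m).1 (ud.symm ▸ hφ)) fun x => hn (ud ▸ (S.up_BP S' u u' m).2 x)
  have m1 := sub_mem (Fa.MM_mul s1.1 m (add_zero _)) (Fa.MM_one (p := r))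
  have m2 := sub_mem (Fa.MM_mul m s1.1 (add_zero _)) (Fa.MM_one (p := r'))
  refine ⟨_, (S'.up_ZP S u' u s1.1).2 s1, ?_, ?_⟩
  · have := (S.up_BP S u u m1).2 s2
    rwa [Matrix.mul_sub, Matrix.sub_mul, Matrix.mul_one, S.ba', ← Matrix.mul_assoc,
      Matrix.mul_assoc _ _ (cM a), Matrix.mul_assoc _ (cM b), S.ba', Matrix.mul_assoc (cM a'),
      MP.right hφ.1 u.ee, ← Matrix.mul_assoc] at this
  · have := (S'.up_BP S' u' u' m2).2 s3
    rwa [Matrix.mul_sub, Matrix.sub_mul, Matrix.mul_one, S'.ba', ← Matrix.mul_assoc,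
      ← Matrix.mul_assoc, ← Matrix.mul_assoc, S'.ba', MP.left hφ.1 u'.ee, Matrix.mul_assoc φ,
      Matrix.mul_assoc φ] at this

end Vale.Agent.P287T.Psi.CmA
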