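import Vale.Agent.P287T.Psi.Kv
import Vale.Agent.P287T.Rr.Pt
import Vale.Agent.P287T.Cl.Lat1

/-!
# The dictionary between the Riemann-Roch formula and the Mukai pairing: the computations
-/

set_option linter.unusedSectionVars false

noncomputable section

namespace Vale.Agent.P287T.Psi

open Set Function Matrix Module P291Z P269 P269.Ch P269.Mono P287Q P287Q.Cub P287Q.Zc P287T.Cy
  P287T.Rr P287T.Top P287T.Cl P287T.Fa P287T.Dn PowerSeries

variable {W : S6} {T : Type} [TopologicalSpace T]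

theorem dic_J (c : Cu W) {k : ℤ} (hk : k ≠ 8) {x : H (XF W)} (hx : H.IsDeg k x) : JF W x = 0 :=
  c.per.ps.pd.deg k hk x hx

theorem dic_pw (c : Cu W) (j : ℕ) : H.IsDeg (2 * j) (hyp W ^ j) := isDeg_pow c.per.cubH.lf.deg j

theorem dic_pr4 (b : H (XF W)) : pr4 W b = pr W (H.comp 4 b) := by
  rw [pr, div_eq_inv_mul]
  rfl

theorem dic_amb (c : Cu W) {b : H (XF W)} (hb : b ∈ amb (hyp W)) :
    ∑ m ∈ Finset.range 5, ((3 : ℂ)⁻¹ * JF W (b * hyp W ^ (4 - m))) • hyp W ^ m = b := by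
  induction hb using Submodule.span_induction with
  | mem x hx =>
    obtain ⟨j, rfl⟩ := hx
    by_cases hj : j < 5
    · rw [Finset.sum_eq_single_of_mem j (Finset.mem_range.2 hj) fun m hm e => by
        rw [← pow_add, dic_J c (by have := Finset.mem_range.1 hm; omega) (dic_pw c _), mul_zero,
          zero_smul], ← pow_add, show j + (4 - j) = 4 by omega]
      exact (congrArg (fun z : ℂ => ((3 : ℂ)⁻¹ * z) • hyp W ^ j) c.per.cubH.deg).trans
        (by rw [inv_mul_cancel₀ three_ne_zero, one_smul])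
    · have : hyp W ^ j = 0 := c.per.cubH.lf.pow_eq_zero (show (4 : ℤ) < j by omega)
      simp only [this, zero_mul, map_zero, mul_zero, zero_smul, Finset.sum_const_zero]
  | zero => simp only [zero_mul, map_zero, mul_zero, zero_smul, Finset.sum_const_zero]
  | add x y _ _ hx hy =>
    simp only [add_mul, map_add, mul_add, add_smul, Finset.sum_add_distrib, hx, hy]
  | smul a x _ hx =>
    simp only [smul_mul_assoc, map_smul, smul_eq_mul, mul_left_comm _ a, mul_smul a,
      ← Finset.smul_sum, hx]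

/-- the two descriptions of the primitive part -/
theorem dic_prim (c : Cu W) (b : H (XF W)) :
    b - ∑ m ∈ Finset.range 5, ((3 : ℂ)⁻¹ * JF W (b * hyp W ^ (4 - m))) • hyp W ^ m = pr4 W b := by
  refine H.induction_deg (P := fun b => b - ∑ m ∈ Finset.range 5,
    ((3 : ℂ)⁻¹ * JF W (b * hyp W ^ (4 - m))) • hyp W ^ m = pr4 W b) b ?_ (fun x y hx hy => ?_)
    fun j => ?_
  · simp only [zero_mul, map_zero, mul_zero, zero_smul, Finset.sum_const_zero, sub_zero]
  · simp only [add_mul, map_add, mul_add, add_smul, Finset.sum_add_distrib, ← hx, ← hy]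
    abel
  have h := H.isDeg_comp j b
  rw [dic_pr4]
  by_cases e : j = 4
  · subst e
    rw [h.comp_eq, Finset.sum_eq_single_of_mem 2 (by decide) fun m hm e => by
      rw [dic_J c (by have := Finset.mem_range.1 hm; omega) (h.mul (dic_pw c _)), mul_zero,
        zero_smul], pr, div_eq_inv_mul]
  · rw [dic_amb c (c.per.cubH.lf.amb j e _ h), sub_self, h.comp_ne (Ne.symm e), pr_zero]

variable (K : Kun T (XF W))
include K

theorem dic_prK (a : H T) (b : H (XF W)) :
    prK T W (H.map .fst a * H.map .snd b) = H.map .fst a * H.map .snd (pr4 W b) := by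
  rw [prK, dif_pos K, ← kmap_tmul, LinearMap.comp_apply, LinearMap.comp_apply,
    LinearEquiv.coe_coe, LinearEquiv.ofBijective_symm_apply_apply, LinearMap.lTensor_tmul,
    kmap_tmul]

/-- the primitive part in families -/
theorem dic_primK (c : Cu W) (y : H (T × XF W)) :
    y - ∑ m ∈ Finset.range 5, (3 : ℂ)⁻¹ • (H.map .fst (fib T (JF W)
      (y * H.map .snd (hyp W) ^ (4 - m))) * H.map .snd (hyp W) ^ m) = prK T W y := by
  obtain ⟨y, rfl⟩ := K.2 y
  induction y with
  | zero => simp only [zero_mul, map_zero, smul_zero, Finset.sum_const_zero, sub_zero]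
  | add a b ha hb =>
    simp only [add_mul, map_add, smul_add, Finset.sum_add_distrib, ← ha, ← hb]
    abel
  | tmul a b =>
    rw [kmap_tmul, dic_prK K, ← dic_prim c, map_sub, mul_sub, map_sum, Finset.mul_sum]
    refine congrArg _ (Finset.sum_congr rfl fun m _ => ?_)
    rw [← map_pow, ← map_pow, mul_assoc, ← map_mul, K.fib_mul, H.map_smulC, H.map_smulC,
      smul_mul_assoc, mul_smul_comm, mul_smul]

theorem dic_low {n : ℤ} (hn : n < 4) {y : H (T × XF W)} (hy : H.IsDeg n y) : prK T W y = 0 := by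
  rw [← hy.comp_eq]
  refine K.ext (f := (prK T W ∘ₗ H.comp n).toAddMonoidHom) (g := 0) (fun u v => ?_) y
  show prK T W (H.comp n _) = 0
  refine H.induction_deg (P := fun v => prK T W (H.comp n (H.map .fst u * H.map .snd v)) = 0) v
    (by simp only [map_zero, mul_zero]) (fun a b ha hb => by
      simp only [map_add, mul_add, ha, hb, add_zero]) fun j => ?_
  rw [show n = (n - j) + j by ring, H.comp_mul_right ((H.isDeg_comp j v).map _), H.comp_map,
    dic_prK K]
  by_cases e : j = 4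
  · rw [(H.isDeg_comp _ u).eq_zero (by omega), map_zero, zero_mul]
  · rw [dic_pr4, (H.isDeg_comp j v).comp_ne (Ne.symm e), pr_zero, map_zero, mul_zero]

omit K in
theorem dic_sg {R : Type} [Ring R] [Algebra ℂ R] (i : ℕ) (x : R) :
    (-1 : R) ^ i * x = (-1 : ℂ) ^ i • x := by rw [Algebra.smul_def, map_pow, map_neg, map_one]

omit K in
theorem dic_shift {M : Type} [AddCommMonoid M] (f : ℕ → ℕ → M) (h : ∀ i < 2, ∀ j, f i j = 0)
    (h' : ∀ j < 2, ∀ i, f i j = 0) (k : ℕ) :
    ∑ x ∈ Finset.HasAntidiagonal.antidiagonal (k + 4), f x.1 x.2 =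
      ∑ i ∈ Finset.range (k + 1), f (i + 2) (k - i + 2) := by
  rw [Finset.Nat.sum_antidiagonal_succ,
    Finset.Nat.sum_antidiagonal_succ (f := fun x => f (x.1 + 1) x.2), Finset.Nat.sum_antidiagonal_succ', Finset.Nat.sum_antidiagonal_succ',
    h 0 (by decide), h 1 (by decide), h' 0 (by decide), h' 1 (by decide), zero_add, zero_add,
    zero_add, zero_add, Finset.Nat.sum_antidiagonal_eq_sum_range_succ_mk]

/-- the part that comes from the cubic -/
theorem dic_n {n n' V V' : (Hev (T × XF W))⟦X⟧} (hn : ∀ j, (coeff j n).1 = prK T W (coeff j V).1)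
    (hn' : ∀ j, (coeff j n').1 = prK T W (coeff j V').1) (dV : ∀ j : ℕ, coeff j V ∈ Hev.deg _ j)
    (dV' : ∀ j : ℕ, coeff j V' ∈ Hev.deg _ j) (k : ℕ) :
    fib T (JF W) (coeff (k + 4) (du n * n')).1 = ∑ i ∈ Finset.range (k + 1), (-1 : ℂ) ^ i •
      fib T (JF W) (prK T W (coeff (i + 2) V).1 * prK T W (coeff (k - i + 2) V').1) := by
  rw [coeff_mul, AddSubmonoidClass.coe_finsetSum, map_sum]
  refine (Finset.sum_congr rfl fun x _ => ?_).trans ((dic_shift (fun i j => (-1 : ℂ) ^ i •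
    fib T (JF W) (prK T W (coeff i V).1 * prK T W (coeff j V').1)) (fun i hi j => ?_)
    (fun j hj i => ?_) k).trans (Finset.sum_congr rfl fun i _ => by
      rw [pow_add, neg_one_sq, mul_one]))
  · rw [coeff_du, ← hn, ← hn', ← map_smul, mul_assoc, dic_sg]
    rfl
  · rw [dic_low K (by omega) (Hev.mem_deg.1 (dV i)), zero_mul, map_zero, smul_zero]
  · rw [dic_low K (by omega) (Hev.mem_deg.1 (dV' j)), mul_zero, map_zero, smul_zero]

omit K

theorem dic_al (u v : ℤ) : ∑ j, al (ζ ^ u / (1 - om) ^ 3) j * al (ζ ^ v / (1 - om) ^ 3) j =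
    (81 : ℂ)⁻¹ * (ζ⁻¹ ^ u * ζ ^ v + ζ ^ u * ζ⁻¹ ^ v) := by
  have h := Complex.add_conj (starRingEnd ℂ (ζ ^ u) * ζ ^ v)
  refine (al_dot _ _).trans ?_
  rw [re_div, zeta_inv, ← map_zpow₀, ← map_zpow₀]
  rw [map_mul, Complex.conj_conj] at h
  rw [h]
  push_cast
  ring

theorem dic_co {R : Type} [CommRing R] [Algebra ℂ R] (s : Finset ℤ) (E : ℤ → R⟦X⟧) (z : ℤ → ℂ)
    (i : ℕ) : coeff i (∑ u ∈ s, E u * algebraMap ℂ _ (z u)) = ∑ u ∈ s, z u • coeff i (E u) := by
  rw [map_sum]
  exact Finset.sum_congr rfl fun u _ => by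
    rw [mul_comm, ← Algebra.smul_def]
    rfl

/-- the part that comes from the generators -/
theorem dic_a {R : Type} [CommRing R] [Algebra ℂ R] (s s' : Finset ℤ) (E E' : ℤ → R⟦X⟧) (k : ℕ) :
    coeff k ((81 : ℂ)⁻¹ • (du (∑ u ∈ s, E u * algebraMap ℂ _ (ζ⁻¹ ^ u)) *
      ∑ v ∈ s', E' v * algebraMap ℂ _ (ζ ^ v) + du (∑ u ∈ s, E u * algebraMap ℂ _ (ζ ^ u)) *
        ∑ v ∈ s', E' v * algebraMap ℂ _ (ζ⁻¹ ^ v))) = ∑ i ∈ Finset.range (k + 1), (-1 : ℂ) ^ i •
      ∑ j, (∑ u ∈ s, al (ζ ^ u / (1 - om) ^ 3) j • coeff i (E u)) *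
        ∑ v ∈ s', al (ζ ^ v / (1 - om) ^ 3) j • coeff (k - i) (E' v) := by
  rw [show ∀ x : R⟦X⟧, coeff k ((81 : ℂ)⁻¹ • x) = (81 : ℂ)⁻¹ • coeff k x from fun _ => rfl,
    map_add, coeff_mul, coeff_mul, ← Finset.sum_add_distrib, Finset.smul_sum,
    Finset.Nat.sum_antidiagonal_eq_sum_range_succ_mk]
  refine Finset.sum_congr rfl fun i _ => ?_
  rw [coeff_du, coeff_du, mul_assoc, mul_assoc, ← mul_add, dic_sg, smul_comm]
  refine congrArg _ ?_
  simp only [dic_co, Finset.sum_mul_sum, smul_mul_smul_comm]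
  rw [Finset.sum_comm (γ := Fin 3), ← Finset.sum_add_distrib, Finset.smul_sum]
  refine Finset.sum_congr rfl fun u _ => ?_
  rw [Finset.sum_comm (γ := Fin 3), ← Finset.sum_add_distrib, Finset.smul_sum]
  refine Finset.sum_congr rfl fun v _ => ?_
  rw [← Finset.sum_smul, dic_al, ← add_smul, mul_smul]

end Vale.Agent.P287T.Psi
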