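import Vale.Agent.P287T.Psi.St
import Vale.Agent.P287T.Psi.Kap0
import Vale.Agent.P287T.Cl.Lat1

/-!
# The class of a family: degrees and naturality
-/

set_option linter.style.haveILetI false

noncomputable section

namespace Vale.Agent.P287T.Psi

open Set Function P291Z P269 P269.Ch P287Q P287Q.Cub P287Q.Zc P287T.Cy P287T.Rr P287T.Top
  P287T.Cl P287T.Dn

variable {W : S6} {T T' : Type} [TopologicalSpace T] [TopologicalSpace T']

theorem kp_kun (c : Cu W) (T : Type) [TopologicalSpace T] [Nice T] : Kun T (XF W) :=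
  haveI := isAct
  haveI := c.qm.fp
  haveI := c.qm.cpt
  haveI := c.qm.pd.fin
  haveI : Nice (XF W) := inferInstanceAs (Nice c.Y.X)
  kun T _

theorem kp_mul (K : Kun T (XF W)) (a : H T) (b : H (XF W)) :
    prK T W (H.map .fst a * H.map .snd b) = H.map .fst a * H.map .snd (pr W (H.comp 4 b)) := by
  rw [prK, dif_pos K, ← kmap_tmul, LinearMap.comp_apply, LinearMap.comp_apply,
    LinearEquiv.coe_coe, LinearEquiv.ofBijective_symm_apply_apply, LinearMap.lTensor_tmul,
    kmap_tmul, pr, div_eq_inv_mul]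
  rfl

theorem kp_map (K : Kun T (XF W)) (K' : Kun T' (XF W)) (f : C(T', T)) (y : H (T × XF W)) :
    prK T' W (H.map (f.prodMap (.id _)) y) = H.map (f.prodMap (.id _)) (prK T W y) :=
  K.ext (f := (prK T' W).toAddMonoidHom.comp (H.map _).toAddMonoidHom)
    (g := (H.map _).toAddMonoidHom.comp (prK T W).toAddMonoidHom) (fun u v => by
      show prK T' W (H.map _ _) = H.map _ (prK T W _)
      rw [map_pm, kp_mul K', kp_mul K, map_pm, H.map_id fun _ => rfl, H.map_id fun _ => rfl]) y

theorem kp_span (c : Cu W) (K : Kun T (XF W)) (k : ℤ) (y : H (T × XF W)) :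
    prK T W (H.comp (k + 4) y) ∈ Submodule.span ℂ {z | ∃ a b, H.IsDeg k a ∧ H.IsDeg 4 b ∧
      hyp W * b = 0 ∧ z = H.map .fst a * H.map .snd b} := by
  obtain ⟨y, rfl⟩ := K.2 y
  induction y with
  | zero => rw [map_zero, map_zero, map_zero]; exact zero_mem _
  | add a b ha hb => rw [map_add, map_add, map_add]; exact add_mem ha hb
  | tmul a b =>
    rw [kmap_tmul]
    induction b using H.induction_deg with
    | h0 => rw [map_zero, mul_zero, map_zero, map_zero]; exact zero_mem _
    | hadd b b' hb hb' => rw [map_add, mul_add, map_add, map_add]; exact add_mem hb hb'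
    | h q =>
      have hb := H.isDeg_comp q b
      rw [show k + 4 = k + 4 - q + q by ring, H.comp_mul_right (hb.map _), H.comp_map, kp_mul K]
      by_cases e : q = 4
      · subst e
        rw [add_sub_cancel_right]
        exact Submodule.subset_span ⟨_, _, H.isDeg_comp _ _, pr_deg c (H.isDeg_comp _ _),
          pr_prim c (H.isDeg_comp _ _), rfl⟩
      · rw [hb.comp_ne (Ne.symm e), pr_zero, map_zero, mul_zero]
        exact zero_mem _

theorem Fm.chE_deg [Nice T] (U : Fm W T) (u : ℤ) (k : ℕ) :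
    H.IsDeg (2 * k) (PowerSeries.coeff k (U.chE u)).1 := chF_deg (Y := .triv T) k

theorem Fm.chV_deg [Nice T] (U : Fm W T) (c : Cu W) (k : ℕ) :
    H.IsDeg (2 * k) (PowerSeries.coeff k (U.chV c)).1 := chF_deg (Y := Dn.prS (.triv T) c.Y) k

/-- **DG** -/
theorem stDg : StDg := fun W c T _ _ U k => by
  refine ⟨fun j => Submodule.sum_mem (H.deg T _) fun u _ => Submodule.smul_mem _ _ (U.chE_deg u k),
    ?_, ?_⟩
  · simp only [Fm.kap, ← Finset.sum_add_distrib, ← add_smul, al_sum, zero_smul,
      Finset.sum_const_zero]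
  · have h := U.chV_deg c (k + 2)
    rw [show 2 * ((k + 2 : ℕ) : ℤ) = 2 * k + 4 by omega] at h
    have := kp_span c (kp_kun c T) (2 * k) (PowerSeries.coeff (k + 2) (U.chV c)).1
    rwa [H.IsDeg.comp_eq h] at this

/-- **NAT** -/
theorem stNat : StNat := fun W c T T' _ _ _ _ _ _ U f k => by
  refine Prod.ext (funext fun j => ?_) ?_
  · refine Eq.trans (Finset.sum_congr rfl fun u _ => ?_) (map_sum (H.map f) _ _).symm
    rw [U.chE_pb, PowerSeries.coeff_map]
    exact (map_smul (H.mapA f) _ _).symm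
  · refine Eq.trans ?_ (kp_map (kp_kun c T) (kp_kun c T') f _)
    rw [Fm.kap, U.chV_pb, PowerSeries.coeff_map]
    rfl

end Vale.Agent.P287T.Psi
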