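import Vale.Agent.P287T.Rr.Fib
import Vale.Agent.P269.Grr.HG

/-!
# Classes that vanish off a closed subspace; integration along the factors of a product
-/

set_option linter.unusedSectionVars false

namespace Vale.Agent.P287T.Psi

open Set Function Topology TensorProduct P291Z P269 P269.Grr P287T.Dn

section cup

variable {X Y U : Type} [TopologicalSpace X] [TopologicalSpace Y] [TopologicalSpace U] [Nice X]
  [Nice Y] [Nice U] {i : C(Y, X)} {j : C(U, X)} {κ : H X}

/-- A class that vanishes off `Y` times a class that vanishes on `Y` is zero. -/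
theorem cup_zero (hi : IsClosedEmbedding i) (hj : IsOpenEmbedding j) (hc : (range i)ᶜ ⊆ range j)
    (h1 : H.map j κ = 0) {c : H X} (h2 : H.map i c = 0) : κ * c = 0 := by
  obtain ⟨O, hO, hiO, h3⟩ := exists_nhds_zero hi h2
  have : Nice O := Nice.of_isLocallyClosed hO.isLocallyClosed
  obtain ⟨a, ha, rfl⟩ := hcls_surj κ
  obtain ⟨b, hb, rfl⟩ := hcls_surj c
  obtain ⟨a', a1, a2, a3⟩ := HG.exists_rep hj ha h1
  obtain ⟨b', b1, b2, b3⟩ := HG.exists_rep
    (j := (⟨Subtype.val, continuous_subtype_val⟩ : C(O, X))) hO.isOpenEmbedding_subtypeVal hb h3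
  rw [← a3, ← b3, ← hcls_mul a1 b1, ← hcls_zero]
  refine hcls_eq_of_null cocycle_zero fun x hx => ?_
  rw [sub_zero] at hx
  obtain ⟨k1, k2⟩ := supp_mul a' b' hx
  exact b2 k2 ⟨⟨x, hiO (not_not.1 fun k => a2 k1 (hc k))⟩, rfl⟩

theorem cup_congr (hi : IsClosedEmbedding i) (hj : IsOpenEmbedding j) (hc : (range i)ᶜ ⊆ range j)
    (h1 : H.map j κ = 0) {c c' : H X} (h2 : H.map i c = H.map i c') : κ * c = κ * c' :=
  sub_eq_zero.1 (by
    rw [← mul_sub]
    exact cup_zero hi hj hc h1 (by rw [map_sub, h2, sub_self]))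

/-- On a class that vanishes off the diagonal the two projections act in the same way. -/
theorem cup_diag {j : C(U, Y × Y)} (hj : IsOpenEmbedding j) (hc : ∀ p : Y × Y, p.1 ≠ p.2 → p ∈ range j)
    {κ : H (Y × Y)} (h1 : H.map j κ = 0) (a : H Y) : κ * H.map .fst a = κ * H.map .snd a := by
  refine cup_congr (i := (ContinuousMap.id Y).prodMk (.id Y)) ?_ hj
    (fun p k => hc p fun e => k ⟨p.1, Prod.ext rfl e⟩) h1 ?_
  · exact (Function.LeftInverse.isClosedEmbedding (f := Prod.fst) (fun _ => rfl) continuous_fst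
      (continuous_id.prodMk continuous_id))
  · rw [H.map_map, H.map_map]
    rfl

end cup

section fib

variable {T F : Type} [TopologicalSpace T] [TopologicalSpace F] {J : H F →ₗ[ℂ] ℂ} {n : ℤ}

theorem fib_comp (K : Kun T F) (hJ : ∀ k ≠ n, ∀ b, H.IsDeg k b → J b = 0) (k : ℤ)
    (y : H (T × F)) : H.comp k (fib T J y) = fib T J (H.comp (k + n) y) :=
  K.ext (f := (H.comp k ∘ₗ fib T J).toAddMonoidHom)
    (g := (fib T J ∘ₗ H.comp (k + n)).toAddMonoidHom) (fun a b => by
      show H.comp k (fib T J _) = fib T J (H.comp _ _)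
      induction b using H.induction_deg with
      | h0 => simp
      | hadd b c hb hc => simp only [map_add, mul_add, hb, hc]
      | h q =>
        have hb := H.isDeg_comp q b
        rw [show k + n = k + n - q + q by ring, H.comp_mul_right (hb.map _), H.comp_map, K.fib_mul,
          K.fib_mul, map_smul]
        by_cases e : q = n
        · rw [e, add_sub_cancel_right]
        · rw [hJ q e _ hb, zero_smul, zero_smul]) y

/-- Integration along the fibre lowers the degree. -/
theorem fib_deg (K : Kun T F) (hJ : ∀ k ≠ n, ∀ b, H.IsDeg k b → J b = 0) {k : ℤ} {y : H (T × F)}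
    (hy : H.IsDeg (k + n) y) : H.IsDeg k (fib T J y) := by
  have e : fib T J y = H.comp k (fib T J y) := by rw [fib_comp K hJ, hy.comp_eq]
  rw [e]
  exact H.isDeg_comp _ _

/-- the slice over a point of the base -/
abbrev slc (F : Type) [TopologicalSpace F] (t : T) : C(F, T × F) :=
  (ContinuousMap.const F t).prodMk (.id F)

theorem fib_const (K : Kun T F) {T' : Type} [TopologicalSpace T'] (K' : Kun T' F) (t : T)
    (y : H (T × F)) :
    H.map (.const T' t) (fib T J y) = algebraMap ℂ _ (J (H.map (slc F t) y)) := by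
  rw [← K.fib_map K', ← K'.fib_snd, H.map_map]
  rfl

open Classical in
variable (F) in
/-- integration along the first factor -/
noncomputable def fib1 (I : H T →ₗ[ℂ] ℂ) : H (T × F) →ₗ[ℂ] H F :=
  if h : Kun T F then (TensorProduct.lid ℂ (H F)).toLinearMap ∘ₗ I.rTensor (H F) ∘ₗ
    (LinearEquiv.ofBijective _ h).symm.toLinearMap else 0

theorem fib1_mul (K : Kun T F) (I : H T →ₗ[ℂ] ℂ) (a : H T) (b : H F) :
    fib1 F I (H.map .fst a * H.map .snd b) = I a • b := by
  rw [fib1, dif_pos K, ← kmap_tmul, LinearMap.comp_apply, LinearMap.comp_apply,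
    LinearEquiv.coe_coe, LinearEquiv.coe_coe, LinearEquiv.ofBijective_symm_apply_apply,
    LinearMap.rTensor_tmul, TensorProduct.lid_tmul]

/-- Fubini -/
theorem fib_fib1 (K : Kun T F) (I : H T →ₗ[ℂ] ℂ) {c : H F} (hc : ∀ z, c * z = z * c)
    (hc' : ∀ z : H (T × F), H.map .snd c * z = z * H.map .snd c) (y : H (T × F)) :
    I (fib T J (H.map .snd c * y)) = J (c * fib1 F I y) :=
  K.ext (f := (I ∘ₗ fib T J ∘ₗ LinearMap.mulLeft ℂ _).toAddMonoidHom)
    (g := (J ∘ₗ LinearMap.mulLeft ℂ c ∘ₗ fib1 F I).toAddMonoidHom) (fun a b => by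
      show I (fib T J (_ * _)) = J (c * fib1 F I _)
      rw [hc', mul_assoc, ← map_mul, K.fib_mul, fib1_mul K, map_smul, mul_smul_comm, map_smul, hc,
        smul_eq_mul, smul_eq_mul, mul_comm]) y

end fib

section diag

variable {S U : Type} [TopologicalSpace S] [TopologicalSpace U] [Nice S] [Nice U]
  {J : H S →ₗ[ℂ] ℂ} {n : ℤ} {j : C(U, S × S)} {κ : H (S × S)}

/-- **A class of middle degree that vanishes off the diagonal acts as a multiple of the diagonal.** -/
theorem diag_mul (K : Kun S S) (hJ : ∀ k ≠ n, ∀ b, H.IsDeg k b → J b = 0)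
    (con : ∀ y : H S, H.IsDeg 0 y → ∃ t : ℂ, y = t • 1) (hj : IsOpenEmbedding j)
    (hc : ∀ p : S × S, p.1 ≠ p.2 → p ∈ range j) (hκ : H.IsDeg n κ) (h1 : H.map j κ = 0) (s : S)
    {p : ℤ} (hp : Even p) {l l' : H S} (hl : H.IsDeg p l) (hl' : H.IsDeg p l') :
    J (fib S J (κ * (H.map .fst l * H.map .snd l'))) = J (H.map (slc S s) κ) * J (l * l') := by
  obtain ⟨t, e⟩ := con _ (fib_deg K hJ (k := 0) (by rwa [zero_add]))
  have e' := fib_const (J := J) K K s κ
  rw [e, H.map_smulC, map_one, ← e, Algebra.algebraMap_eq_smul_one] at e'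
  rw [(hl.map _).commute hp, ← mul_assoc, ← cup_diag hj hc h1, mul_assoc, ← map_mul,
    ← (((hl'.mul hl).map _).commute (hp.add hp)), K.fib_fst, e', mul_smul_comm, mul_one, map_smul,
    hl.commute hp, smul_eq_mul]

end diag

end Vale.Agent.P287T.Psi
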