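import Vale.Agent.P287T.Psi.Kv
import Vale.Agent.P287T.Psi.Cup
import Vale.Agent.P287T.Cl.Lat1
import Vale.Agent.P287T.Rr.DivT

/-!
# The calculus of Mukai vectors with coefficients in the cohomology of a base
-/

set_option linter.unusedSectionVars false
set_option linter.style.haveILetI false

noncomputable section

namespace Vale.Agent.P287T.Psi

open Set Function Module P291Z P269 P287Q P287Q.Cub P287Q.Zc P287T.Cy P287T.Rr P287T.Top P287T.Cl
  P287T.Dn

variable {T T' T'' : Type} [TopologicalSpace T] [TopologicalSpace T'] [TopologicalSpace T'']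
  {F F' : S6}

theorem kunX (c : Cu F) (T : Type) [TopologicalSpace T] [Nice T] : Kun T (XF F) :=
  haveI := isAct
  qm_kun c.qm T

theorem JF_deg (c : Cu F) : ∀ k ≠ (8 : ℤ), ∀ b, H.IsDeg k b → JF F b = 0 := c.per.ps.pd.deg

theorem hyp_deg (c : Cu F) : H.IsDeg 2 (hyp F) := c.per.cubH.lf.deg

/-! ## The primitive projection -/

theorem pr4_eq (b : H (XF F)) : pr4 F b = pr F (H.comp 4 b) := by
  rw [pr, div_eq_inv_mul]
  rfl

theorem pr4_deg (c : Cu F) (b : H (XF F)) : H.IsDeg 4 (pr4 F b) :=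
  pr4_eq b ▸ pr_deg c (H.isDeg_comp 4 b)

theorem pr4_prim (c : Cu F) (b : H (XF F)) : hyp F * pr4 F b = 0 :=
  pr4_eq b ▸ pr_prim c (H.isDeg_comp 4 b)

theorem pr4_of_deg {b : H (XF F)} (hb : H.IsDeg 4 b) : pr4 F b = pr F b := by
  rw [pr4_eq, hb.comp_eq]

theorem pr4_of_prim (c : Cu F) {b : H (XF F)} (hb : H.IsDeg 4 b) (h : hyp F * b = 0) :
    pr4 F b = b := by rw [pr4_of_deg hb, pr_of_prim c hb h]

theorem pr4_ne {k : ℤ} {b : H (XF F)} (hb : H.IsDeg k b) (h : k ≠ 4) : pr4 F b = 0 := by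
  rw [pr4_eq, hb.comp_ne h.symm, pr_zero]

theorem pr4_pr4 (c : Cu F) (b : H (XF F)) : pr4 F (pr4 F b) = pr4 F b :=
  pr4_of_prim c (pr4_deg c b) (pr4_prim c b)

theorem hpow_deg (c : Cu F) (n : ℕ) : H.IsDeg (2 * n) (hyp F ^ n) := by
  induction n with
  | zero => rw [pow_zero]; exact H.isDeg_one
  | succ n ih =>
    rw [pow_succ, show 2 * ((n + 1 : ℕ) : ℤ) = 2 * n + 2 by push_cast; ring]
    exact ih.mul (hyp_deg c)

theorem pr4_hpow (c : Cu F) (n : ℕ) : pr4 F (hyp F ^ n) = 0 := by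
  by_cases e : n = 2
  · rw [e, pr4_of_deg (h2_deg c), pr, J_h4 c, div_self three_ne_zero, one_smul, sub_self]
  · exact pr4_ne (hpow_deg c n) (by omega)

theorem comp4_mul {y : H (XF F)} (hy : H.IsDeg 4 y) (c : Cu F) (b : H (XF F)) :
    JF F (y * H.comp 4 b) = JF F (y * b) := by
  induction b using Coh.PA0.induction with
  | h0 => rw [map_zero]
  | hadd a b ha hb => rw [map_add, mul_add, mul_add, map_add, map_add, ha, hb]
  | h k x hx =>
    by_cases e : k = 4
    · subst e
      rw [hx.comp_eq]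
    · rw [hx.comp_ne (Ne.symm e), mul_zero, map_zero, JF_deg c _ (by omega) _ (hy.mul hx)]

theorem J_pr4 (c : Cu F) {y : H (XF F)} (hy : H.IsDeg 4 y) (h : hyp F * y = 0) (b : H (XF F)) :
    JF F (y * pr4 F b) = JF F (y * b) := by
  rw [pr4_eq, pr, mul_sub, mul_smul_comm, map_sub, map_smul, (prim_iff c hy).1 h, smul_zero,
    sub_zero, comp4_mul hy c]

/-- `pr4` is self-adjoint. -/
theorem J_pr4_symm (c : Cu F) (a b : H (XF F)) : JF F (pr4 F a * b) = JF F (a * pr4 F b) := by
  rw [← J_pr4 c (pr4_deg c a) (pr4_prim c a), J_symm c (pr4_deg c b) a,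
    ← J_pr4 c (pr4_deg c b) (pr4_prim c b), J_symm c (pr4_deg c b)]

/-- `h b` has no primitive part. -/
theorem pr4_hmul (c : Cu F) (b : H (XF F)) : pr4 F (hyp F * b) = 0 := by
  refine c.per.ps.pd.nondeg _ fun y => ?_
  show JF F _ = 0
  rw [← J_pr4_symm c, ← mul_assoc, ← (hyp_deg c).commute even_two, pr4_prim c, zero_mul, map_zero]

theorem pr4_map {φ : C(XF F, XF F')} (h1 : H.map φ (hyp F') = hyp F)
    (h2 : ∀ y, JF F (H.map φ y) = JF F' y) (b : H (XF F')) :
    pr4 F (H.map φ b) = H.map φ (pr4 F' b) := by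
  rw [pr4_eq, pr4_eq, H.comp_map, pr, pr, map_sub, H.map_smulC, map_pow, h1, ← h2,
    map_mul (H.map φ), map_pow (H.map φ), h1]

theorem prK_mul (K : Kun T (XF F)) (a : H T) (b : H (XF F)) :
    prK T F (H.map .fst a * H.map .snd b) = H.map .fst a * H.map .snd (pr4 F b) := by
  rw [prK, dif_pos K, ← kmap_tmul, LinearMap.comp_apply, LinearMap.comp_apply,
    LinearEquiv.coe_coe, LinearEquiv.ofBijective_symm_apply_apply, LinearMap.lTensor_tmul, kmap_tmul]

theorem prK_snd (K : Kun T (XF F)) (b : H (XF F)) :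
    prK T F (H.map .snd b) = H.map .snd (pr4 F b) := by
  have := prK_mul K 1 b
  rwa [map_one, one_mul, one_mul] at this

theorem prK_fst (K : Kun T (XF F)) (a : H T) (y : H (T × XF F)) :
    prK T F (H.map .fst a * y) = H.map .fst a * prK T F y :=
  K.ext (f := (prK T F).toAddMonoidHom.comp (AddMonoidHom.mulLeft _))
    (g := (AddMonoidHom.mulLeft _).comp (prK T F).toAddMonoidHom) (fun u v => by
      show prK T F (_ * (_ * _)) = _ * prK T F _
      rw [← mul_assoc, ← map_mul, prK_mul K, prK_mul K, map_mul, mul_assoc]) y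

theorem prK_map (K : Kun T (XF F)) (K' : Kun T' (XF F)) (f : C(T', T)) (y : H (T × XF F)) :
    prK T' F (H.map (f.prodMap (.id _)) y) = H.map (f.prodMap (.id _)) (prK T F y) :=
  K.ext (f := (prK T' F).toAddMonoidHom.comp (H.map _).toAddMonoidHom)
    (g := (H.map _).toAddMonoidHom.comp (prK T F).toAddMonoidHom) (fun u v => by
      show prK T' F (H.map _ _) = H.map _ (prK T F _)
      rw [map_pm, prK_mul K', prK_mul K, map_pm, H.map_id (h := v) fun _ => rfl,
        H.map_id (h := pr4 F v) fun _ => rfl]) y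

theorem prK_xm (K : Kun T (XF F)) (K' : Kun T (XF F')) {φ : C(XF F, XF F')}
    (h1 : H.map φ (hyp F') = hyp F) (h2 : ∀ y, JF F (H.map φ y) = JF F' y) (y : H (T × XF F')) :
    prK T F (H.map (xm T φ) y) = H.map (xm T φ) (prK T F' y) :=
  K'.ext (f := (prK T F).toAddMonoidHom.comp (H.map _).toAddMonoidHom)
    (g := (H.map _).toAddMonoidHom.comp (prK T F').toAddMonoidHom) (fun u v => by
      show prK T F (H.map _ _) = H.map _ (prK T F' _)
      rw [map_pm, prK_mul K, prK_mul K', map_pm, pr4_map h1 h2]) y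

theorem prK_prK (c : Cu F) (K : Kun T (XF F)) (y : H (T × XF F)) :
    prK T F (prK T F y) = prK T F y :=
  K.ext (f := (prK T F ∘ₗ prK T F).toAddMonoidHom) (g := (prK T F).toAddMonoidHom) (fun u v => by
    show prK T F (prK T F _) = prK T F _
    rw [prK_mul K, prK_mul K, pr4_pr4 c]) y

theorem snd_comm {b : H (XF F)} {k : ℤ} (hb : H.IsDeg k b) (hk : Even k) (a : H T)
    (v : H (XF F)) : H.map .snd b * (H.map (.fst : C(T × XF F, T)) a * H.map .snd v) =
      H.map .fst a * H.map .snd (b * v) := by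
  rw [← mul_assoc, (hb.map _).commute hk, mul_assoc, map_mul]

theorem prK_hmul (c : Cu F) (K : Kun T (XF F)) (y : H (T × XF F)) :
    prK T F (H.map .snd (hyp F) * y) = 0 :=
  K.ext (f := (prK T F).toAddMonoidHom.comp (AddMonoidHom.mulLeft _)) (g := 0) (fun u v => by
    show prK T F (_ * _) = 0
    rw [snd_comm (hyp_deg c) even_two, prK_mul K, pr4_hmul c, map_zero, mul_zero]) y

theorem hmul_prK (c : Cu F) (K : Kun T (XF F)) (y : H (T × XF F)) :
    H.map .snd (hyp F) * prK T F y = 0 :=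
  K.ext (f := (AddMonoidHom.mulLeft _).comp (prK T F).toAddMonoidHom) (g := 0) (fun u v => by
    show _ * prK T F _ = 0
    rw [prK_mul K, snd_comm (hyp_deg c) even_two, pr4_prim c, map_zero, mul_zero]) y

theorem fib_prK (c : Cu F) (K : Kun T (XF F)) {y : H (XF F)} (hy : H.IsDeg 4 y)
    (h : hyp F * y = 0) (z : H (T × XF F)) :
    Dn.fib T (JF F) (H.map .snd y * prK T F z) = Dn.fib T (JF F) (H.map .snd y * z) :=
  K.ext (f := (Dn.fib T (JF F) ∘ₗ LinearMap.mulLeft ℂ _ ∘ₗ prK T F).toAddMonoidHom)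
    (g := (Dn.fib T (JF F) ∘ₗ LinearMap.mulLeft ℂ _).toAddMonoidHom) (fun u v => by
      show Dn.fib T (JF F) (_ * prK T F _) = Dn.fib T (JF F) (_ * _)
      rw [prK_mul K, snd_comm hy (by decide), snd_comm hy (by decide), K.fib_mul, K.fib_mul,
        J_pr4 c hy h]) z

/-- one of the two projections is enough -/
theorem fib_prK_prK (c : Cu F) (K : Kun T (XF F)) (y z : H (T × XF F)) :
    Dn.fib T (JF F) (prK T F y * prK T F z) = Dn.fib T (JF F) (prK T F y * z) :=
  K.ext (f := (Dn.fib T (JF F) ∘ₗ LinearMap.mulRight ℂ _ ∘ₗ prK T F).toAddMonoidHom)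
    (g := (Dn.fib T (JF F) ∘ₗ LinearMap.mulRight ℂ _ ∘ₗ prK T F).toAddMonoidHom) (fun u v => by
      show Dn.fib T (JF F) (prK T F _ * _) = Dn.fib T (JF F) (prK T F _ * _)
      rw [prK_mul K, mul_assoc, mul_assoc, K.fib_fst, K.fib_fst,
        fib_prK c K (pr4_deg c v) (pr4_prim c v)]) y

/-- the span that occurs in `Dg` -/
abbrev SpK (T : Type) [TopologicalSpace T] (F : S6) (k : ℕ) : Submodule ℂ (H (T × XF F)) :=
  Submodule.span ℂ {z | ∃ a b, H.IsDeg (2 * k) a ∧ H.IsDeg 4 b ∧ hyp F * b = 0 ∧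
    z = H.map .fst a * H.map .snd b}

theorem prK_comp (c : Cu F) (K : Kun T (XF F)) (k : ℕ) (y : H (T × XF F)) :
    prK T F (H.comp (2 * k + 4) y) ∈ SpK T F k := by
  obtain ⟨y, rfl⟩ := K.2 y
  induction y with
  | zero => rw [map_zero, map_zero, map_zero]; exact zero_mem _
  | add a b ha hb => rw [map_add, map_add, map_add]; exact add_mem ha hb
  | tmul a b =>
    rw [kmap_tmul]
    induction b using Coh.PA0.induction with
    | h0 => rw [map_zero, mul_zero, map_zero, map_zero]; exact zero_mem _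
    | hadd u v hu hv => rw [map_add, mul_add, map_add, map_add]; exact add_mem hu hv
    | h j b hb =>
      rw [show 2 * (k : ℤ) + 4 = 2 * k + 4 - j + j by ring, H.comp_mul_right (hb.map _), H.comp_map,
        prK_mul K]
      by_cases e : j = 4
      · rw [e, add_sub_cancel_right]
        exact Submodule.subset_span ⟨_, _, H.isDeg_comp _ _, pr4_deg c b, pr4_prim c b, rfl⟩
      · rw [pr4_ne hb e, map_zero, mul_zero]; exact zero_mem _

theorem prK_mem (c : Cu F) (K : Kun T (XF F)) {k : ℕ} {y : H (T × XF F)}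
    (hy : H.IsDeg (2 * k + 4) y) : prK T F y ∈ SpK T F k := hy.comp_eq ▸ prK_comp c K k y

theorem SpK.deg {k : ℕ} {y : H (T × XF F)} (h : y ∈ SpK T F k) : H.IsDeg (2 * k + 4) y :=
  Submodule.span_le (p := H.deg _ (2 * k + 4)).2
    (by rintro _ ⟨a, b, ha, hb, -, rfl⟩; exact (ha.map _).mul (hb.map _)) h

theorem SpK.prK (c : Cu F) (K : Kun T (XF F)) {k : ℕ} {y : H (T × XF F)} (h : y ∈ SpK T F k) :
    prK T F y = y :=
  LinearMap.eqOn_span' (f := Psi.prK T F) (g := .id)
    (by rintro _ ⟨a, b, -, hb, h, rfl⟩; rw [prK_mul K, pr4_of_prim c hb h]; rfl) h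

/-! ## The operations -/

theorem cst_add (x y : MV F) : cst T F (x + y) = cst T F x + cst T F y :=
  Prod.ext (funext fun _ => map_add _ _ _) (map_add _ _ _)

theorem cst_smul (t : ℂ) (x : MV F) : cst T F (t • x) = t • cst T F x :=
  Prod.ext (funext fun j => by
    show algebraMap ℂ (H T) (t * x.1 j) = t • algebraMap ℂ (H T) (x.1 j)
    rw [map_mul, Algebra.smul_def]) (H.map_smulC _ _ _)

variable (T F) in
/-- `cst` as a linear map -/
def cstL : MV F →ₗ[ℂ] KV T F := ⟨⟨cst T F, cst_add⟩, cst_smul⟩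

theorem cst_zero : cst T F 0 = 0 := map_zero (cstL T F)

theorem cst_sub (x y : MV F) : cst T F (x - y) = cst T F x - cst T F y := map_sub (cstL T F) x y

theorem cst_neg (x : MV F) : cst T F (-x) = -cst T F x := map_neg (cstL T F) x

/-- `pbK` as a linear map -/
def pbL (F : S6) (f : C(T', T)) : KV T F →ₗ[ℂ] KV T' F :=
  ⟨⟨pbK f, fun _ _ => Prod.ext (funext fun _ => map_add _ _ _) (map_add _ _ _)⟩,
    fun _ _ => Prod.ext (funext fun _ => H.map_smulC _ _ _) (H.map_smulC _ _ _)⟩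

/-- `trK` as a linear map -/
def trL (T : Type) [TopologicalSpace T] (φ : C(XF F, XF F')) : KV T F' →ₗ[ℂ] KV T F :=
  ⟨⟨trK φ, fun _ _ => Prod.ext rfl (map_add _ _ _)⟩, fun _ _ => Prod.ext rfl (H.map_smulC _ _ _)⟩

/-- `smK` as a bilinear map -/
def smL (T : Type) [TopologicalSpace T] (F : S6) : H T →ₗ[ℂ] KV T F →ₗ[ℂ] KV T F :=
  LinearMap.mk₂ ℂ smK
    (fun _ _ _ => Prod.ext (funext fun _ => add_mul _ _ _) (by
      show _ * _ = _ * _ + _ * _; rw [map_add, add_mul]))
    (fun _ _ _ => Prod.ext (funext fun _ => smul_mul_assoc _ _ _) (by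
      show _ * _ = _ • (_ * _); rw [H.map_smulC, smul_mul_assoc]))
    (fun _ _ _ => Prod.ext (funext fun _ => mul_add _ _ _) (mul_add _ _ _))
    fun t a x => Prod.ext (funext fun j => mul_smul_comm t a (x.1 j)) (mul_smul_comm t _ x.2)

/-- `muT` as a bilinear map -/
def muL (T : Type) [TopologicalSpace T] (F : S6) : KV T F →ₗ[ℂ] KV T F →ₗ[ℂ] H T :=
  LinearMap.mk₂ ℂ muT
    (fun _ _ _ => by
      simp only [muT, Prod.fst_add, Prod.snd_add, Pi.add_apply, add_mul, map_add,
        Finset.sum_add_distrib]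
      abel)
    (fun _ _ _ => by
      simp only [muT, Prod.smul_fst, Prod.smul_snd, Pi.smul_apply, smul_mul_assoc, map_smul,
        smul_sub, Finset.smul_sum])
    (fun _ _ _ => by
      simp only [muT, Prod.fst_add, Prod.snd_add, Pi.add_apply, mul_add, map_add,
        Finset.sum_add_distrib]
      abel)
    fun _ _ _ => by
      simp only [muT, Prod.smul_fst, Prod.smul_snd, Pi.smul_apply, mul_smul_comm, map_smul,
        smul_sub, Finset.smul_sum]

section lin

variable (x x' y y' : KV T F) (t : ℂ) (a a' : H T) (f : C(T', T)) (φ : C(XF F', XF F))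
  {ι : Type*} (s : Finset ι)

theorem muT_add_left : muT (x + x') y = muT x y + muT x' y := (muL T F).map_add₂ x x' y
theorem muT_add_right : muT x (y + y') = muT x y + muT x y' := (muL T F x).map_add y y'
theorem muT_sub_left : muT (x - x') y = muT x y - muT x' y := (muL T F).map_sub₂ x x' y
theorem muT_sub_right : muT x (y - y') = muT x y - muT x y' := map_sub (muL T F x) y y'
theorem muT_neg_left : muT (-x) y = -muT x y := (muL T F).map_neg₂ x y
theorem muT_neg_right : muT x (-y) = -muT x y := map_neg (muL T F x) y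
theorem muT_smul_left : muT (t • x) y = t • muT x y := (muL T F).map_smul₂ t x y
theorem muT_smul_right : muT x (t • y) = t • muT x y := (muL T F x).map_smul t y
theorem muT_zero_left : muT 0 y = 0 := (muL T F).map_zero₂ y
theorem muT_zero_right : muT x 0 = 0 := map_zero (muL T F x)
theorem muT_sum_left (z : ι → KV T F) : muT (∑ i ∈ s, z i) y = ∑ i ∈ s, muT (z i) y :=
  (muL T F).map_sum₂ s z y
theorem muT_sum_right (z : ι → KV T F) : muT x (∑ i ∈ s, z i) = ∑ i ∈ s, muT x (z i) :=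
  map_sum (muL T F x) z s
theorem pbK_add : pbK f (x + y) = pbK f x + pbK f y := map_add (pbL F f) x y
theorem pbK_sub : pbK f (x - y) = pbK f x - pbK f y := map_sub (pbL F f) x y
theorem pbK_smul : pbK f (t • x) = t • pbK f x := map_smul (pbL F f) t x
theorem pbK_zero : pbK f (0 : KV T F) = 0 := map_zero (pbL F f)
theorem pbK_sum (z : ι → KV T F) : pbK f (∑ i ∈ s, z i) = ∑ i ∈ s, pbK f (z i) :=
  map_sum (pbL F f) z s
theorem trK_add : trK φ (x + y) = trK φ x + trK φ y := map_add (trL T φ) x y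
theorem trK_sub : trK φ (x - y) = trK φ x - trK φ y := map_sub (trL T φ) x y
theorem trK_smul : trK φ (t • x) = t • trK φ x := map_smul (trL T φ) t x
theorem trK_zero : trK φ (0 : KV T F) = 0 := map_zero (trL T φ)
theorem trK_sum (z : ι → KV T F) : trK φ (∑ i ∈ s, z i) = ∑ i ∈ s, trK φ (z i) :=
  map_sum (trL T φ) z s
theorem smK_add : smK a (x + y) = smK a x + smK a y := map_add (smL T F a) x y
theorem add_smK : smK (a + a') x = smK a x + smK a' x := (smL T F).map_add₂ a a' x
theorem smul_smK : smK (t • a) x = t • smK a x := (smL T F).map_smul₂ t a x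
theorem smK_smul : smK a (t • x) = t • smK a x := map_smul (smL T F a) t x
theorem smK_zero : smK a (0 : KV T F) = 0 := map_zero (smL T F a)
theorem zero_smK : smK 0 x = 0 := (smL T F).map_zero₂ x

theorem one_smK : smK 1 x = x :=
  Prod.ext (funext fun _ => one_mul _) (by show _ * _ = _; rw [map_one, one_mul])

theorem mul_smK : smK (a * a') x = smK a (smK a' x) :=
  Prod.ext (funext fun _ => mul_assoc _ _ _) (by show _ * _ = _ * (_ * _); rw [map_mul, mul_assoc])

theorem pbK_cst (v : MV F) : pbK f (cst T F v) = cst T' F v :=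
  Prod.ext (funext fun _ => (H.mapA f).commutes _) (H.map_map _ _ _)

theorem pbK_comp (g : C(T'', T')) : pbK g (pbK f x) = pbK (f.comp g) x :=
  Prod.ext (funext fun _ => H.map_map _ _ _) (H.map_map _ _ _)

theorem pbK_id {f : C(T, T)} (hf : ∀ t, f t = t) : pbK f x = x :=
  Prod.ext (funext fun _ => H.map_id hf _) (H.map_id (fun p => Prod.ext (hf p.1) rfl) _)

theorem pbK_smK : pbK f (smK a x) = smK (H.map f a) (pbK f x) :=
  Prod.ext (funext fun _ => map_mul _ _ _) (by
    show H.map _ (_ * _) = _ * _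
    rw [map_mul, H.map_map, H.map_map]
    rfl)

theorem pbK_trK : pbK f (trK φ x) = trK φ (pbK f x) :=
  Prod.ext rfl ((H.map_map _ _ _).trans (H.map_map (xm T' φ) (f.prodMap (.id _)) x.2).symm)

theorem trK_cst (v : MV F) : trK φ (cst T F v) = cst T F' (v.1, H.map φ v.2) :=
  Prod.ext rfl ((H.map_map _ _ _).trans (H.map_map (.snd : C(T × XF F', XF F')) φ v.2).symm)

theorem trK_mv (v : Cls F) : trK φ (cst T F (mv F v)) = cst T F' (mv F' (tr φ v)) := trK_cst φ _

theorem trK_smK : trK φ (smK a x) = smK a (trK φ x) :=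
  Prod.ext rfl (by
    show H.map _ (_ * _) = _ * _
    rw [map_mul, H.map_map]
    rfl)

theorem trK_comp {F'' : S6} (φ' : C(XF F'', XF F')) : trK φ' (trK φ x) = trK (φ.comp φ') x :=
  Prod.ext rfl (H.map_map _ _ _)

end lin

/-! ## The pairing -/

theorem muT_pbK (K : Kun T (XF F)) (K' : Kun T' (XF F)) (f : C(T', T)) (x y : KV T F) :
    H.map f (muT x y) = muT (pbK f x) (pbK f y) := by
  simp only [muT, pbK, map_sub, map_sum, map_mul, ← K.fib_map K']

theorem muT_cst_cst (K : Kun T (XF F)) (v w : MV F) :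
    muT (cst T F v) (cst T F w) = algebraMap ℂ _ (mu F v w) := by
  simp only [muT, cst, mu_apply, ← map_mul, K.fib_snd, map_sub, dotProduct, map_sum]

theorem muT_smK (K : Kun T (XF F)) (a : H T) (x y : KV T F) : muT (smK a x) y = a * muT x y := by
  simp only [muT, smK, mul_assoc, K.fib_fst, mul_sub, Finset.mul_sum]

theorem muT_smK_right (K : Kun T (XF F)) {a : H T} {k : ℤ} (ha : H.IsDeg k a) (hk : Even k)
    (x y : KV T F) : muT x (smK a y) = a * muT x y := by
  rw [← muT_smK K]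
  simp only [muT, smK, ← mul_assoc, ← ha.commute hk (x.1 _), ← (ha.map _).commute hk x.2]

theorem muT_cst_smK (K : Kun T (XF F)) {v : MV F} (hv : H.IsDeg 4 v.2) (a : H T) (y : KV T F) :
    muT (cst T F v) (smK a y) = a * muT (cst T F v) y := by
  rw [← muT_smK K]
  simp only [muT, smK, cst, ← mul_assoc, Algebra.commutes, (hv.map _).commute (by decide)
    (H.map .fst a)]

theorem muT_trK (K : Kun T (XF F)) (K' : Kun T (XF F')) {φ : C(XF F, XF F')}
    (h : ∀ y, JF F (H.map φ y) = JF F' y) (x y : KV T F') : muT (trK φ x) (trK φ y) = muT x y := by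
  simp only [muT, trK, ← map_mul, K'.lift1 K h]

theorem rh_pb (K : Kun T (XF F)) (K' : Kun T' (XF F)) (f : C(T', T)) (x y : ℕ → KV T F) (k : ℕ) :
    H.map f (rh x y k) = rh (fun i => pbK f (x i)) (fun i => pbK f (y i)) k := by
  simp only [rh, map_neg, map_sum, H.map_smulC, muT_pbK K K']

theorem rh_zero (x y : ℕ → KV T F) : rh x y 0 = -muT (x 0) (y 0) := by simp [rh]

theorem rh_one (x y : ℕ → KV T F) : rh x y 1 = muT (x 1) (y 0) - muT (x 0) (y 1) := by
  simp [rh, Finset.sum_range_succ, sub_eq_add_neg]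

theorem rh_two (x y : ℕ → KV T F) :
    rh x y 2 = muT (x 1) (y 1) - muT (x 0) (y 2) - muT (x 2) (y 0) := by
  simp [rh, Finset.sum_range_succ]
  abel

/-- the first argument is concentrated in degree zero -/
theorem rh_const {x : ℕ → KV T F} (h : ∀ k, x (k + 1) = 0) (y : ℕ → KV T F) (k : ℕ) :
    rh x y k = -muT (x 0) (y k) := by
  simp [rh, Finset.sum_range_succ', h, muT_zero_left]

theorem psi_apply (θ : KV T F) (y : VV F) : psi θ y = -muT (cst T F y.1) θ := rfl

theorem psi_add (θ θ' : KV T F) (y : VV F) : psi (θ + θ') y = psi θ y + psi θ' y := by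
  rw [psi_apply, muT_add_right, neg_add]; rfl

theorem psi_sub (θ θ' : KV T F) (y : VV F) : psi (θ - θ') y = psi θ y - psi θ' y := by
  rw [psi_apply, muT_sub_right, neg_sub']; rfl

theorem psi_sum {ι : Type*} (s : Finset ι) (θ : ι → KV T F) (y : VV F) :
    psi (∑ i ∈ s, θ i) y = ∑ i ∈ s, psi (θ i) y := by
  rw [psi_apply, muT_sum_right, ← Finset.sum_neg_distrib]; rfl

theorem psi_pbK (K : Kun T (XF F)) (K' : Kun T' (XF F)) (f : C(T', T)) (θ : KV T F) (y : VV F) :
    psi (pbK f θ) y = H.map f (psi θ y) := by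
  rw [psi_apply, psi_apply, map_neg, muT_pbK K K', pbK_cst]

theorem psi_smK (K : Kun T (XF F)) (a : H T) (θ : KV T F) (y : VV F) :
    psi (smK a θ) y = a * psi θ y := by
  rw [psi_apply, psi_apply, muT_cst_smK K y.2.2.1, mul_neg]

theorem psi_cst (K : Kun T (XF F)) (v : MV F) (y : VV F) :
    psi (cst T F v) y = -algebraMap ℂ _ (mu F y.1 v) := by rw [psi_apply, muT_cst_cst K]

theorem psi_smK_cst (K : Kun T (XF F)) (a : H T) (v : MV F) (y : VV F) :
    psi (smK a (cst T F v)) y = -(mu F y.1 v • a) := by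
  rw [psi_smK K, psi_cst K, mul_neg, ← Algebra.commutes, Algebra.smul_def]

theorem psi_trK (K : Kun T (XF F)) (K' : Kun T (XF F')) {φ : C(XF F, XF F')}
    (h : ∀ y, JF F (H.map φ y) = JF F' y) (θ : KV T F') {y : VV F} {y' : VV F'}
    (e : y.1 = (y'.1.1, H.map φ y'.1.2)) : psi (trK φ θ) y = psi θ y' := by
  rw [psi_apply, psi_apply, e, ← trK_cst, muT_trK K K' h]

/-! ## Degrees -/

variable (T F) in
/-- the vectors of degree `2 k` -/
def DgS (k : ℕ) : Submodule ℂ (KV T F) where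
  carrier := {x | Dg k x}
  zero_mem' := ⟨fun _ => zero_mem (H.deg _ _), by simp, zero_mem _⟩
  add_mem' {x y} h h' := ⟨fun j => add_mem (s := H.deg _ _) (h.a j) (h'.a j), by
    simp only [Prod.fst_add, Pi.add_apply]
    rw [add_add_add_comm (x.1 0), add_add_add_comm _ _ (x.1 2), h.s, h'.s, add_zero],
    add_mem h.n h'.n⟩
  smul_mem' t x h := ⟨fun j => (H.deg _ _).smul_mem t (h.a j), by
    simp only [Prod.smul_fst, Pi.smul_apply, ← smul_add, h.s, smul_zero],
    Submodule.smul_mem _ t h.n⟩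

namespace Dg

variable {k l : ℕ} {x y : KV T F}

theorem add (h : Dg k x) (h' : Dg k y) : Dg k (x + y) := add_mem (s := DgS T F k) h h'

theorem sub (h : Dg k x) (h' : Dg k y) : Dg k (x - y) := sub_mem (H := DgS T F k) h h'

theorem smul (h : Dg k x) (t : ℂ) : Dg k (t • x) := (DgS T F k).smul_mem t h

theorem deg2 (h : Dg k x) : H.IsDeg (2 * k + 4) x.2 := SpK.deg h.n

theorem prK (h : Dg k x) (c : Cu F) (K : Kun T (XF F)) : prK T F x.2 = x.2 := SpK.prK c K h.n

theorem cst (v : VV F) : Dg 0 (cst T F v.1) :=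
  ⟨fun j => by
    show H.IsDeg _ (algebraMap ℂ (H T) _)
    rw [Algebra.algebraMap_eq_smul_one]
    exact (H.deg _ _).smul_mem _ H.isDeg_one, by
    simp only [Psi.cst, ← map_add, v.2.1, map_zero],
    Submodule.subset_span ⟨1, v.1.2, H.isDeg_one, v.2.2.1, v.2.2.2, by rw [map_one, one_mul]; rfl⟩⟩

theorem pbK (h : Dg k x) (f : C(T', T)) : Dg k (pbK f x) :=
  ⟨fun j => (h.a j).map f, by simp only [Psi.pbK, ← map_add, h.s, map_zero],
    Submodule.span_le (p := (SpK T' F k).comap (Coh.pl _)).2 (by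
      rintro _ ⟨a, b, ha, hb, h, rfl⟩
      exact Submodule.subset_span ⟨_, b, ha.map f, hb, h, (map_pm _ _ _ _).trans (by
        rw [H.map_id (h := b) fun _ => rfl])⟩) h.n⟩

theorem trK (h : Dg k x) {φ : C(XF F', XF F)} (h1 : H.map φ (hyp F) = hyp F') : Dg k (trK φ x) :=
  ⟨h.a, h.s, Submodule.span_le (p := (SpK T F' k).comap (Coh.pl _)).2 (by
    rintro _ ⟨a, b, ha, hb, h, rfl⟩
    exact Submodule.subset_span ⟨a, _, ha, hb.map φ, by rw [← h1, ← map_mul, h, map_zero],
      (map_pm _ _ _ _).trans (by rw [H.map_id (h := a) fun _ => rfl])⟩) h.n⟩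

theorem smK (h : Dg l x) {a : H T} (ha : H.IsDeg (2 * k) a) : Dg (k + l) (smK a x) := by
  have e : 2 * ((k + l : ℕ) : ℤ) = 2 * k + 2 * l := by push_cast; ring
  refine ⟨fun j => e ▸ ha.mul (h.a j), by simp only [Psi.smK, ← mul_add, h.s, mul_zero],
    Submodule.span_le (p := (SpK T F (k + l)).comap (LinearMap.mulLeft ℂ _)).2 ?_ h.n⟩
  rintro _ ⟨u, b, hu, hb, h, rfl⟩
  exact Submodule.subset_span ⟨a * u, b, e ▸ ha.mul hu, hb, h, by
    rw [map_mul (H.map _), mul_assoc]; rfl⟩

theorem symm (h : Dg k x) (y : KV T F) : muT x y = muT y x := by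
  simp only [muT, fun j => (h.a j).commute (even_two_mul _),
    h.deg2.commute ((even_two_mul _).add (by decide))]

theorem deg (c : Cu F) (K : Kun T (XF F)) (h : Dg k x) (h' : Dg l y) :
    H.IsDeg (2 * (k + l)) (muT x y) :=
  sub_mem (H := H.deg _ _) (sum_mem fun j _ => mul_add (2 : ℤ) k l ▸ (h.a j).mul (h'.a j))
    (fib_deg K (JF_deg c) (by
      rw [show 2 * ((k : ℤ) + l) + 8 = 2 * k + 4 + (2 * l + 4) by ring]
      exact h.deg2.mul h'.deg2))

theorem psi (c : Cu F) (K : Kun T (XF F)) (h : Dg k x) (y : VV F) : H.IsDeg (2 * k) (psi x y) := by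
  have := (Dg.cst y).deg c K h
  rw [Nat.cast_zero, zero_add] at this
  exact neg_mem (s := H.deg _ _) this

/-- **A vector of degree `2 k` is a sum of pure vectors.** -/
theorem induction {P : KV T F → Prop} (h : Dg k x) (h0 : P 0)
    (hadd : ∀ x y, P x → P y → P (x + y))
    (h1 : ∀ a, H.IsDeg (2 * k) a → ∀ b : VV F, P (Psi.smK a (Psi.cst T F b.1))) : P x := by
  have e : x = Psi.smK (x.1 0) (Psi.cst T F (![1, 0, -1], 0)) +
      Psi.smK (x.1 1) (Psi.cst T F (![0, 1, -1], 0)) + (0, x.2) := by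
    refine Prod.ext (funext fun j => ?_) (by simp [Psi.smK, Psi.cst])
    fin_cases j <;> simp [Psi.smK, Psi.cst]
    exact eq_neg_of_add_eq_zero_right h.s |>.trans (neg_add _ _)
  rw [e]
  refine hadd _ _ (hadd _ _ (h1 _ (h.a 0) ⟨(_, 0), by simp, zero_mem (H.deg _ 4), mul_zero _⟩)
    (h1 _ (h.a 1) ⟨(_, 0), by simp, zero_mem (H.deg _ 4), mul_zero _⟩)) ?_
  have key : ∀ z ∈ SpK T F k, ∀ t : ℂ, P (0, t • z) := fun z hz => by
    induction hz using Submodule.span_induction with
    | zero => intro t; rw [smul_zero]; exact h0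
    | add a b _ _ ha hb =>
      intro t
      have := hadd _ _ (ha t) (hb t)
      rwa [Prod.mk_add_mk, add_zero, ← smul_add] at this
    | smul s a _ ha => intro t; rw [smul_smul]; exact ha _
    | mem z hz =>
      obtain ⟨a, b, ha, hb, h, rfl⟩ := hz
      intro t
      have := h1 _ ((H.deg _ _).smul_mem t ha) ⟨(0, b), by simp, hb, h⟩
      rwa [show Psi.smK (t • a) (Psi.cst T F (0, b)) = (0, t • (H.map .fst a * H.map .snd b)) from
        Prod.ext (funext fun j => by simp [Psi.smK, Psi.cst]) (by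
          show H.map _ _ * _ = _
          rw [H.map_smulC, smul_mul_assoc]; rfl)] at this
  exact one_smul ℂ x.2 ▸ key _ h.n 1

theorem exists_sum (h : Dg k x) : ∃ (n : ℕ) (a : Fin n → H T) (b : Fin n → VV F),
    (∀ i, H.IsDeg (2 * k) (a i)) ∧ x = ∑ i, Psi.smK (a i) (Psi.cst T F (b i).1) := by
  refine h.induction (P := fun x => ∃ (n : ℕ) (a : Fin n → H T) (b : Fin n → VV F),
    (∀ i, H.IsDeg (2 * k) (a i)) ∧ x = ∑ i, Psi.smK (a i) (Psi.cst T F (b i).1))
    ⟨0, Fin.elim0, Fin.elim0, fun i => i.elim0, rfl⟩ ?_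
    fun a ha b => ⟨1, fun _ => a, fun _ => b, fun _ => ha, by rw [Fin.sum_univ_one]⟩
  rintro _ _ ⟨n, a, b, h, rfl⟩ ⟨m, a', b', h', rfl⟩
  refine ⟨n + m, Fin.append a a', Fin.append b b', fun i => ?_, ?_⟩
  · induction i using Fin.addCases with
    | left i => rw [Fin.append_left]; exact h i
    | right i => rw [Fin.append_right]; exact h' i
  · simp only [Fin.sum_univ_add, Fin.append_left, Fin.append_right]

/-- In degree zero over a connected base a vector is constant. -/
theorem exists_cst (h : Dg 0 x) (con : ∀ a : H T, H.IsDeg 0 a → ∃ t : ℂ, a = t • 1) :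
    ∃ v : VV F, x = Psi.cst T F v.1 := by
  refine h.induction (P := fun x => ∃ v : VV F, x = Psi.cst T F v.1) ⟨0, cst_zero.symm⟩ ?_
    fun a ha b => ?_
  · rintro _ _ ⟨v, rfl⟩ ⟨w, rfl⟩
    exact ⟨v + w, (cst_add _ _).symm⟩
  · obtain ⟨t, rfl⟩ := con a ha
    exact ⟨t • b, by rw [smul_smK, one_smK]; exact (cst_smul _ _).symm⟩

end Dg

end Vale.Agent.P287T.Psi
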