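import Vale.Agent.P287T.Psi.Flat
import Vale.Agent.P287T.Psi.Dic0
import Vale.Agent.P287T.Psi.Kc
import Vale.Agent.P287T.Psi.Kap
import Vale.Agent.P287T.Psi.Rh
import Vale.Agent.P287T.Fa.Cls
import Vale.Agent.P287T.Cl.Ad2

/-!
# Families with the same simple members differ by a line bundle
-/

set_option linter.unusedSectionVars false

namespace Vale.Agent.P287T.Psi.CmB

open Set Function Module P291Z P269 P269.Ch P269.Grr P287Q P287Q.Cub P287T.Cy P287T.Rr
  P287T.Top P287T.Cl P287T.Fa PowerSeries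

theorem ch_chF {Y : Ch.Sp} {ι : Type} [Fintype ι] {χ : Y.G →ₜ* ℂˣ} {w : ι → ℤ}
    {F : Y.T → Submodule ℂ (ι → ℂ)} (h : ∃ r, Fam χ w F r) :
    Rb.ch (ac fun g i => (χ g : ℂ) ^ w i * 1) F = chF χ w F :=
  let ⟨_, h⟩ := h
  (isB_fam h).2.trans (chF_eq h).symm

theorem ch_one {Y : Ch.Sp} {ι : Type} [Fintype ι] {F : Y.T → Submodule ℂ (ι → ℂ)}
    (h : ∃ r, Fam (Y := Y) 1 (fun _ => 0) F r) :
    Rb.ch (ac fun _ _ => 1) F = chF (Y := Y) 1 (fun _ => 0) F := by
  rw [← ch_chF h]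
  simp only [zpow_zero, mul_one]

theorem ex_three {R : Type} [CommRing R] [Algebra ℂ R] (x : R) (A : R⟦X⟧) :
    coeff 3 (ex x * A) = coeff 3 A + x * coeff 2 A + x * ((2⁻¹ : ℂ) • x) * coeff 1 A +
      x * ((6⁻¹ : ℂ) • x ^ 2) * coeff 0 A := by
  simp only [coeff_mul, coeff_ex, Finset.Nat.antidiagonal_succ, Finset.sum_cons,
    Finset.Nat.antidiagonal_zero, Finset.map_cons, Finset.map_singleton, Finset.sum_singleton,
    Function.Embedding.prodMap, Function.Embedding.coeFn_mk, Prod.map,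
    Function.Embedding.refl_apply, Nat.factorial, mul_smul_comm, ← sq, ← pow_succ']
  norm_num [add_assoc]

theorem al_z (n : ℤ) (j : Fin 3) :
    al (ζ ^ (n + 3) / (1 - om) ^ 3) j = -al (ζ ^ n / (1 - om) ^ 3) j := by
  have h : ζ ^ (3 : ℤ) = -1 := by
    rw [ζ_eq, show (3 : ℤ) = (3 : ℕ) from rfl, zpow_natCast, Odd.neg_pow (by decide), om_cube]
  rw [zpow_add₀ ζ_ne, h, mul_neg, mul_one, neg_div]
  exact congrFun (map_neg (AddMonoidHom.mk' al al_add) _) j

variable {W : S6} {T : Type} [TopologicalSpace T]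

theorem prK_evP (c : Cu W) (K : Dn.Kun T (XF W)) {ξ : Hev (T × XF W)}
    (h : ξ.1 = H.map .snd (hyp W)) (P : Polynomial (Hev T)) : prK T W (evP .fst ξ P).1 = 0 := by
  induction P using Polynomial.induction_on' with
  | add P Q h h' => rw [map_add, Subalgebra.coe_add, map_add, h, h', add_zero]
  | monomial j a =>
    rw [evP_monomial, Subalgebra.coe_mul, Subalgebra.coe_pow, h, ← map_pow, Hev.coe_map,
      prK_mul K, pr4_hpow c, map_zero, mul_zero]

theorem prK_three (K : Dn.Kun T (XF W)) (l : Hev T) {A A' : (Hev (T × XF W))⟦X⟧}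
    (d : ∀ k : ℕ, H.IsDeg (2 * k) (coeff k A).1)
    (h : prK T W (coeff 3 (A' - ex (Hev.map .fst l) * A)).1 = 0) :
    prK T W (coeff 3 A').1 = prK T W (coeff 3 A).1 + H.map .fst l.1 * prK T W (coeff 2 A).1 := by
  have k : ∀ (a : Hev T) (j : ℕ), j < 2 → prK T W (Hev.map .fst a * coeff j A).1 = 0 :=
    fun a j hj => (prK_fst K a.1 _).trans (by rw [dic_low K (by omega) (d j), mul_zero])
  rw [map_sub, ex_three, ← map_pow, ← map_smul, ← map_smul, ← map_mul, ← map_mul,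
    AddSubgroupClass.coe_sub, map_sub, sub_eq_zero, Subalgebra.coe_add, Subalgebra.coe_add,
    Subalgebra.coe_add, map_add, map_add, map_add, k _ 1 one_lt_two, k _ 0 two_pos, add_zero,
    add_zero] at h
  exact h.trans (congrArg _ (prK_fst K l.1 _))

theorem crd (c : Cu W) (B : Ch.Sp) (hB : PreconnectedSpace B.T) :
    Crd (X := Dn.prS B c.Y) W ((Dn.pr2 B c.Y).chr c.χ) fun t => c.x t.2 :=
  have := c.conn
  ⟨c.sm, inferInstanceAs (PreconnectedSpace (B.T × c.Y.T)), c.x_cont.comp continuous_snd,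
    fun g t => c.x_smul g.2 t.2, fun t => (c.x_mem t.2).1, fun t => (c.x_mem t.2).2, by
      simpa using Hdg.eval_smul_of_hom c.hom 0 0⟩

theorem inj {B Y : Ch.Sp} (y : Y.T) : Injective (H.map (Dn.pr1 B Y).map) := by
  rw [Dn.pr1_map]
  refine LeftInverse.injective (g := H.map (ContinuousMap.prodMk (.id _) (.const _ (Y.π y))))
    fun a => ?_
  rw [H.map_map]
  exact H.map_id (fun _ => rfl) a

theorem fstH {s s' : Finset ℤ} {E E' : ℤ → (Hev T)⟦X⟧} {z : ℤ → ℂ} {l : Hev T}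
    (h : ∑ n ∈ s', z n • E' n = ex l * ∑ n ∈ s, z n • E n) :
    ∑ n ∈ s', z n • (coeff 1 (E' n)).1 =
      ∑ n ∈ s, z n • (coeff 1 (E n)).1 + l.1 * ∑ n ∈ s, z n • (coeff 0 (E n)).1 := by
  have := congrArg (fun A => (coeff 1 A).1) h
  simpa only [ex_mul_one, map_sum, coeff_smul, Subalgebra.coe_add, Subalgebra.coe_mul,
    AddSubmonoidClass.coe_finsetSum, Subalgebra.coe_smul] using this

/-- **CMP** -/
theorem cmp : StCmpK := fun W c T _ _ _ U U' ι _ _ p h => by
  have K := kunX c T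
  obtain ⟨l, h1, h2, h3⟩ := (crd c (.triv T) ‹_›).cmp U.eft (Dn.pr1 (.triv T) c.Y) U'.eft
    (inj c.pt) (fun t => let ⟨_, a, b, b'⟩ := h t; (b.hp b' 0).trans a)
    fun t _ u v => let ⟨_, a, b, b'⟩ := h t; b.inv b' a u v
  refine ⟨l.1, h1, Prod.ext (funext fun j => ?_) ?_⟩
  · have := h2 (fun n => al (ζ ^ n / (1 - om) ^ 3) j) fun n => al_z n j
    simp only [fun n => ch_one (Y := .triv T) (U.famE n),
      fun n => ch_one (Y := .triv T) (U'.famE n)] at this
    exact fstH this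
  · obtain ⟨P, hP⟩ := mem_PB.1 h3 3
    have e := ch_chF (U.famV c)
    have e' := ch_chF (U'.famV c)
    refine prK_three K l (U.chV_deg c) ?_
    refine Eq.trans ?_ (prK_evP c K (ξ := c1 ((Dn.pr2 (.triv T) c.Y).chr c.χ)) ?_ P)
    · rw [Dn.pr1_map] at hP
      refine congrArg (fun a : Hev (T × XF W) => prK T W a.1) (Eq.trans ?_ hP.symm)
      exact congrArg (coeff 3) (congrArg₂ _ e'.symm (congrArg _ e.symm))
    · rw [Dn.c1_pr2]
      exact congrArg (H.map _) c.h_val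

end Vale.Agent.P287T.Psi.CmB
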