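import Vale.Agent.P287T.Psi.Fl0
import Vale.Agent.P287T.Psi.Map

/-!
# The classifying map, in the form used by the deformation step
-/

noncomputable section

namespace Vale.Agent.P287T.Psi

open Set Module CategoryTheory P291Z P269 P287Q P287Q.Cub P287T.Cy P287T.Rr P287T.Top P287T.Cl
  P287T.Au P287T.Gl P287T.Fa P287T.G3 P287T.Sw

theorem qe_iso' {W : S6} {c : Cu W} {φ : ℝ} {v : Cls W} {C : Cf W} (hr : HRR) (h1 : PrimA v.1)
    (h2 : mk v v = 0) (h : C.All (QQ c φ v)) (hs : Span (ob C)) {E : HM W} (hE : QE c φ v E) :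
    ∃ x : Mem C, Nonempty (E ≅ ob C x) := by
  by_contra! k
  have iz := Oc.intZ stMem c
  have pm : ∀ {E : HM W}, QE c φ v E → Pm E := fun h => Oc.pm c (h.2.symm ▸ h1)
  refine neW c iz (pm hE) (hs E fun x j => (cy2 c).fr_zero.1 (orthW c iz hE.1 (qe_ob h x).1
    (pm hE) (pm (qe_ob h x)) (k x) ?_ j))
  have := Cl.chi_eq hr c E.isMF (ob C x).isMF
  rw [show cl c E.isMF = v from hE.2, show cl c (ob C x).isMF = v from (qe_ob h x).2, h2,
    neg_zero] at this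
  rw [Sw.chi_eq]
  exact_mod_cast this

theorem stCmap (hr : HRR) : StCmap := fun W c φ v h1 h2 C h hs G T _ U hU => by
  obtain ⟨f, hf⟩ := G.exists_map U fun t => by
    obtain ⟨n, r, a, b, k⟩ := U.spl t
    obtain ⟨x, h3⟩ := qe_iso' hr h1 h2 h hs (hU t n r a b k)
    exact ⟨⟨_, x.2.1⟩, _, x.2.2, Fm.At.of_spl k ((iso_iff _ _).1 h3)⟩
  refine ⟨f, fun t => ?_⟩
  obtain ⟨z, e⟩ := Quot.mk_surjective (f t)
  obtain ⟨d, hd⟩ := (C.orb _ z.2).ne
  obtain ⟨n, r, a, b, k⟩ := U.spl t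
  have h3 := (hf t z e.symm d hd).spl k
  refine ⟨n, r, _, k.isMF (U.pf.pf t), ?_, Fm.At.of_spl k (HE.refl _ _),
    Fm.At.he ((Fm.at_pb f t).2 (e ▸ G.fib z d hd)) h3.symm⟩
  rw [h3.hh_right, ← h3.hh_left, orb_end (C.orb _ z.2) hd]

end Vale.Agent.P287T.Psi
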