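import Vale.Agent.P287T.Psi.Col0
import Vale.Agent.P287T.Psi.Rh
import Vale.Agent.P287T.Rb.Rh
import Vale.Agent.P287T.Psi.Map

/-!
# The Mukai map on the classes of line bundles
-/

set_option linter.unusedSectionVars false
set_option linter.style.haveILetI false

noncomputable section

namespace Vale.Agent.P287T.Psi

open Set Filter CategoryTheory Module P291Z P269 P269.Ch P269.Grr P287Q P287Q.Cub P287T.Cy P287T.Rr
  P287T.Top P287T.Cl P287T.Au P287T.Gl P287T.Fa P287T.G3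

variable {W : S6} {T : Type} [TopologicalSpace T]

theorem col_rh {x y : ℕ → KV T W} {v : VV W} (h0 : x 0 = cst T W v.1) (h1 : x 1 = 0) :
    rh x y 1 = psi (y 1) v := by
  have : muT (0 : KV T W) (y 0) = 0 := by simp [muT]
  rw [rh, Finset.sum_range_succ, Finset.sum_range_one, h0, h1, pow_zero, one_smul, Nat.sub_self,
    this, smul_zero, add_zero]
  rfl

variable [Nice T] [ConnectedSpace T]

/-- the line bundle of the maps from `L` to the members -/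
theorem col_line (hr : StRH) (ha : StAt) (c : Cu W) (U : Fm W T) (L : HM W)
    (h : ∀ t, ∃ Y : HM W, U.At t Y.pz Y.dz ∧ (∀ k : ℤ, k ≠ 0 → ∀ g : L ⟶ Y⟦k⟧, g = 0) ∧
      finrank ℂ (L ⟶ Y) = 1) :
    ∃ (E : VB (.triv T)) (qt : _) (s : _), Rb.Qt (Rb.tv (.triv T) _)
      (fun t => ZP L.pz 1 L.dz U.q (U.e t) (U.D t) 0)
      (fun t => BP L.pz 1 L.dz U.q (U.e t) (U.D t) 0) E qt s ∧ E.r = 1 ∧
      E.eu.1 = psi (U.kap c 1) (vc (clE c L)) := by
  obtain ⟨t₀⟩ : Nonempty T := inferInstance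
  have hW := (U.pf.hW t₀)
  choose Y h1 h2 h3 using h
  let V : Fm W T := Fm.const hW L.isMF T
  obtain ⟨E, qt, s, k1, k2, k3⟩ := Rb.RH_H0 V.eft U.eft c.sm (Mor.id _)
    (fun t k hk => (h1 t).le L (h2 t k hk)) fun t => ((h1 t).rank L).trans (h3 t)
  refine ⟨E, qt, s, k1, k2 t₀, ?_⟩
  obtain ⟨K, k4, k5⟩ := ((Rb.ev_K V.q U.q).and (hr W c T V U 1)).exists
  have k6 := (pS_id _).symm.trans (k3 K k4)
  obtain ⟨a0, a1⟩ := ha W c T _ _ _ L.isMF
  rw [k6, chc_line E (k2 t₀), coeff_ex, Nat.factorial_one, Nat.cast_one, inv_one, one_smul,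
    pow_one] at k5
  exact k5.trans (col_rh ((a0 V t₀ (Fm.at_const hW L.isMF t₀)).trans
    (congrArg _ (vc_val (P4_LT c (stMem c L.isMF).1)).symm)) (a1 hW 0))

/-- **COL** -/
theorem stCol (hr : StRH) (ha : StAt) : StCol := by
  intro W c C G L' L I J _ _ a n f l h' h k _ hl
  haveI := nice C
  haveI := Subtype.connectedSpace C.cn
  haveI : ConnectedSpace (SZ C.Z) := Tq.mk_surj.connectedSpace Tq.continuous_mk
  have hx : ∀ t : SZ C.Z, ∃ x : Mem C, t = Quo.mk _ ⟨x.1.1, x.2.1⟩ := fun t => by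
    obtain ⟨z, rfl⟩ := Tq.mk_surj t
    obtain ⟨d, hd⟩ := (C.orb _ z.2).ne
    exact ⟨⟨(z.1, d), z.2, hd⟩, rfl⟩
  choose x hx using hx
  have h1 : ∀ t, G.U.At t (ob C (x t)).pz (ob C (x t)).dz := fun t => by
    have := G.fib ⟨_, (x t).2.1⟩ _ (x t).2.2
    rwa [← hx t] at this
  obtain ⟨E, qt, s, k1, k2, k3⟩ := col_line hr ha c G.U L fun t => ⟨_, h1 t, h.van _, h.one _⟩
  obtain ⟨E', qt', s', k1', k2', k3'⟩ := col_line hr ha c G.U L' fun t =>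
    ⟨_, h1 t, h'.van _, h'.one _⟩
  choose b hb e using fun j => exists_mkR (a j)
  obtain rfl : a = fun j => mkR (b j) (hb j) := funext e
  have m : ∀ {b}, b ∈ ZZ L'.pz L'.dz L.pz L.dz 0 → ∀ t,
      (∀ g ∈ ZP L.pz 1 L.dz G.U.q (G.U.e t) (G.U.D t) 0,
        g * b ∈ ZP L'.pz 1 L'.dz G.U.q (G.U.e t) (G.U.D t) 0) ∧
      ∀ g ∈ BP L.pz 1 L.dz G.U.q (G.U.e t) (G.U.D t) 0,
        g * b ∈ BP L'.pz 1 L'.dz G.U.q (G.U.e t) (G.U.D t) 0 := fun {b} hb t => by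
    have : ∀ g ∈ MP L.pz 1 G.U.q (G.U.e t) 0, g * b ∈ MP L'.pz 1 G.U.q (G.U.e t) 0 := fun g hg =>
      ⟨Cy.MM_mul hg.1 hb.1 (add_zero _), by
        rw [cM_one, Matrix.mul_one, ← Matrix.mul_assoc, MP.l (G.U.pf.pf t).ee hg]⟩
    exact ⟨fun g hg => ⟨this g hg.1, zz_mul hg.2 hb (add_zero _)⟩,
      fun g hg => ⟨this g hg.1, bb_mul_zz hg.2 hb (add_zero _)⟩⟩
  have := hl (.triv (SZ C.Z)) (.id _) E E'
    (fun j t => qt' t ∘ₗ (Rb.mulB _ _ _).flip (b j) ∘ₗ s t) k2 k2'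
    (fun j => k1.hom k1' (Rb.HM.const fun t => (m (hb j) t).1)) fun t =>
      ⟨⟨_, (x t).2.1⟩, hx t, fun u => ?_⟩
  · exact (congrArg₂ (· - ·) k3' k3).symm.trans (this.trans (H.map_id (fun _ => rfl) l))
  have h4 : ∑ j, u j • b j ∈ ZZ L'.pz L'.dz L.pz L.dz 0 :=
    Submodule.sum_mem _ fun j _ => Submodule.smul_mem _ _ (hb j)
  refine Iff.trans (forall₂_congr fun w _ => ?_) ((k1.zero_iff k1'
    (φ := (Rb.mulB _ _ _).flip (∑ j, u j • b j)) (m h4 t).1 (m h4 t).2).trans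
    (((h1 t).kil h4).trans ?_))
  · simp only [map_sum, map_smul, LinearMap.sum_apply, LinearMap.smul_apply, LinearMap.comp_apply]
  · rw [← col_sum hb, k (x t) u, funext_iff]
    rfl

end Vale.Agent.P287T.Psi
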