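import Vale.Agent.P287T.Psi.St

/-!
# Maps from a fixed factorization to the members of a family
-/

set_option linter.unusedSectionVars false

noncomputable section

namespace Vale.Agent.P287T.Psi

open CategoryTheory Module P287T.Cy P287T.Fa P287T.G3
open P287Z.T (HQ hq_subsingleton)

variable {ι ι' κ μ : Type} [Fintype ι] [Fintype ι'] [Fintype κ] [Fintype μ] {W : S6}
  {p : ι → ℤ} {d : Matrix ι ι S6} {p' : ι' → ℤ} {d' : Matrix ι' ι' S6} {q : κ → ℤ}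
  {e : Matrix κ κ S6} {r : μ → ℤ} {c : Matrix μ μ S6} {a : Matrix ι ι' S6}

/-- the map `a` kills the classes of the maps to `(q, e)` -/
def ColK (p' : ι' → ℤ) (d' : Matrix ι' ι' S6) (p : ι → ℤ) (d : Matrix ι ι S6) (q : κ → ℤ)
    (e : Matrix κ κ S6) (a : Matrix ι ι' S6) : Prop :=
  ∀ φ ∈ ZZ p d q e 0, φ * a ∈ BB p' d' q e 0

theorem ColK.he [DecidableEq κ] [DecidableEq μ] (h : HE q e r c) (ha : a ∈ ZZ p' d' p d 0)
    (k : ColK p' d' p d q e a) : ColK p' d' p d r c a := fun φ hφ => by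
  obtain ⟨f, hf, g, hg, -, h2⟩ := h
  have h3 : φ * a = f * (g * φ * a) - (f * g - 1) * (φ * a) := by
    rw [Matrix.sub_mul, Matrix.one_mul, Matrix.mul_assoc g, Matrix.mul_assoc f, sub_sub_cancel]
  rw [h3]
  exact sub_mem (zz_mul_bb hf (k _ (zz_mul hg hφ (add_zero _))) (add_zero _))
    (bb_mul_zz h2 (zz_mul hφ ha (add_zero _)) (add_zero _))

theorem colK_mkR {L' L Y : HM W} {a : Matrix L.ι L'.ι S6} (ha : a ∈ ZZ L'.pz L'.dz L.pz L.dz 0) :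
    (∀ g : L ⟶ Y, mkR a ha ≫ g = 0) ↔ ColK L'.pz L'.dz L.pz L.dz Y.pz Y.dz a := by
  refine ⟨fun h φ hφ => (mkR_eq_zero (ZZ0_mul hφ ha)).1 (h (mkR φ hφ)), fun h g => ?_⟩
  obtain ⟨φ, hφ, rfl⟩ := exists_mkR g
  exact (mkR_eq_zero (ZZ0_mul hφ ha)).2 (h φ hφ)

theorem col_sum {L' L : HM W} {J : Type} [Fintype J] {a : J → Matrix L.ι L'.ι S6}
    (ha : ∀ j, a j ∈ ZZ L'.pz L'.dz L.pz L.dz 0) (u : J → ℂ)
    (h : ∑ j, u j • a j ∈ ZZ L'.pz L'.dz L.pz L.dz 0) :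
    ∑ j, u j • mkR (a j) (ha j) = mkR _ h := by
  have := map_sum (zz0 L' L) (fun j => u j • ⟨a j, ha j⟩) Finset.univ
  simp only [map_smul] at this
  exact this.symm.trans (mkR_congr (Subtype.prop _) _ (Submodule.coe_sum _ _ _))

theorem col_le {U : Type} [AddCommGroup U] [Module ℂ U] {Z B : Submodule ℂ U}
    (h : Subsingleton (HQ Z B)) : Z ≤ B := fun z hz =>
  (Submodule.Quotient.subsingleton_iff.1 h).ge (Submodule.mem_top (x := (⟨z, hz⟩ : Z)))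

variable [DecidableEq ι] [DecidableEq ι'] [DecidableEq μ] {f : Matrix κ κ ℂ} {u : Matrix μ κ ℂ}
  {v : Matrix κ μ ℂ} {s : μ → ℤ}

theorem colK_iff (h : Spl q f s u v) (hd : IsMF W p d) (hd' : IsMF W p' d') (he : IsPF W q f e)
    (ha : a ∈ ZZ p' d' p d 0) : (∀ φ ∈ ZP p 1 d q f e 0, φ * a ∈ BP p' 1 d' q f e 0) ↔
      ColK p' d' p d s (cM u * e * cM v) a := by
  have z : ∀ {g}, g ∈ MM p s 0 →
      (cM v * g ∈ ZP p 1 d q f e 0 ↔ g ∈ ZZ p d s (cM u * e * cM v) 0) := fun hg => by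
    simpa only [cM_one, one_mul, mul_one, Matrix.mul_one] using
      Spl.refl.up_ZP h (IsMF.isPF hd) he hg
  have b : ∀ {g}, g ∈ MM p' s 0 →
      (cM v * g ∈ BP p' 1 d' q f e 0 ↔ g ∈ BB p' d' s (cM u * e * cM v) 0) := fun hg => by
    simpa only [cM_one, one_mul, mul_one, Matrix.mul_one] using
      Spl.refl.up_BP h (IsMF.isPF hd') he hg
  refine ⟨fun k φ hφ => (b (Cy.MM_mul hφ.1 ha.1 (add_zero _))).1
    (Matrix.mul_assoc _ φ a ▸ k _ ((z hφ.1).2 hφ)), fun k φ hφ => ?_⟩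
  have e1 : cM v * (cM u * φ) = φ := by
    simpa only [cM_one, Matrix.mul_one] using Spl.refl.up_dn h hφ.1
  have m := Cy.MM_mul h.ba.mm hφ.1.1 (add_zero _)
  rw [← e1, Matrix.mul_assoc]
  exact (b (Cy.MM_mul m ha.1 (add_zero _))).2 (k _ ((z m).1 (e1.symm ▸ hφ)))

theorem col_rank (h : Spl q f s u v) (hd : IsMF W p d) (he : IsPF W q f e) (j : ℤ) :
    finrank ℂ (HP p 1 d q f e j) = finrank ℂ (HH p d s (cM u * e * cM v) j) := by
  obtain ⟨E⟩ := Spl.refl.hp_equiv (j := j) h (IsMF.isPF hd) he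
  rw [← E.finrank_eq, cM_one, one_mul, mul_one]

theorem col_zp (h : Spl q f s u v) (hd : IsMF W p d) (he : IsPF W q f e) {j : ℤ}
    (k : finrank ℂ (HH p d s (cM u * e * cM v) j) = 0) : ZP p 1 d q f e j ≤ BP p 1 d q f e j := by
  have := finite_HH p d s (cM u * e * cM v) j
  have h1 := col_le (finrank_zero_iff.1 k)
  refine (Spl.refl.le_iff h (IsMF.isPF hd) he).2 ?_
  rwa [cM_one, one_mul, mul_one]

variable {T : Type} [TopologicalSpace T] {U : Fm W T} {t : T} {Y : HM W} (h : U.At t Y.pz Y.dz)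
include h

theorem Fm.At.rank (L : HM W) :
    finrank ℂ (HP L.pz 1 L.dz U.q (U.e t) (U.D t) 0) = finrank ℂ (L ⟶ Y) := by
  have hp := U.pf.pf t
  obtain ⟨n, r, u, v, k⟩ := exists_spl hp.blk hp.ee
  rw [col_rank k L.isMF hp, (h n r u v k).hh_right, finrank_hom]

theorem Fm.At.le (L : HM W) {j : ℤ} (k0 : ∀ g : L ⟶ Y⟦j⟧, g = 0) :
    ZP L.pz 1 L.dz U.q (U.e t) (U.D t) (3 * j) ≤ BP L.pz 1 L.dz U.q (U.e t) (U.D t) (3 * j) := by
  have hp := U.pf.pf t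
  obtain ⟨n, r, u, v, k⟩ := exists_spl hp.blk hp.ee
  have := hq_subsingleton ((hom_sh_zero_iff L Y j).1 k0)
  exact col_zp k L.isMF hp (((h n r u v k).hh_right _ _ _).trans finrank_zero_of_subsingleton)

theorem Fm.At.kil {L' L : HM W} {a : Matrix L.ι L'.ι S6} (ha : a ∈ ZZ L'.pz L'.dz L.pz L.dz 0) :
    (∀ φ ∈ ZP L.pz 1 L.dz U.q (U.e t) (U.D t) 0, φ * a ∈ BP L'.pz 1 L'.dz U.q (U.e t) (U.D t) 0) ↔
      ∀ g : L ⟶ Y, mkR a ha ≫ g = 0 := by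
  have hp := U.pf.pf t
  obtain ⟨n, r, u, v, k⟩ := exists_spl hp.blk hp.ee
  rw [colK_iff k L.isMF L'.isMF hp ha, colK_mkR]
  exact ⟨ColK.he (h n r u v k) ha, ColK.he (h n r u v k).symm ha⟩

end Vale.Agent.P287T.Psi
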