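import Vale.Agent.P287T.Psi.Fl0
import Vale.Agent.P287T.Psi.Map
import Vale.Agent.P287T.Fa.Kur
import Vale.Agent.P287T.Df.Kur

/-!
# A family of stable objects deforms along the Noether-Lefschetz locus
-/

set_option linter.unusedSectionVars false

noncomputable section

namespace Vale.Agent.P287T.Psi

open Set Function Filter Topology Metric Module MvPolynomial CategoryTheory P291Z P269 P287Q
  P287Q.Cub P287T.Cy P287T.Rr P287T.Top P287T.Cl P287T.Fa P287T.Df P287T.G3 P287T.Sw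

section raw

variable {ι κ μ : Type} [Fintype ι] [Fintype κ] [Fintype μ]

theorem coeff_sand (a : Matrix κ ι ℂ) (d : Matrix ι ι S6) (b : Matrix ι μ ℂ) (i : κ) (j : μ)
    (m : Fin 6 →₀ ℕ) : coeff m ((cM a * d * cM b) i j) = (a * d.map (coeff m) * b) i j := by
  simp only [Matrix.mul_apply, cM, Matrix.map_apply, coeff_sum, mul_comm _ (C _), coeff_C_mul]
  exact Finset.sum_congr rfl fun _ _ => mul_comm _ _

end raw

theorem qe_of_iso {W : S6} {c : Cu W} {φ : ℝ} {v : Cls W} {E E' : HM W} (h : QE c φ v E)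
    (e : E ≅ E') : QE c φ v E' :=
  ⟨⟨((sgW c).ts φ).isoU e h.1.1, (sgW c).isoVc e h.1.2⟩, (clE_iso c e).symm.trans h.2⟩

variable {F : S6} {h : Per.Sm F} {r : ℝ} {Φ : T3 → Per.V → Per.V} {σ : T3 → H (XF F)}
  {η : T3 → T3 →ₗ[ℂ] H (XF F)} (k : Per.PM h p3 r Φ σ η) {T B : Type} [TopologicalSpace T]
  [TopologicalSpace B] [CompactSpace T] {b₀ : B} {s : B → T3} (hs : ∀ b, s b ∈ ball (0 : T3) r)
  (cs : Continuous s) {φ : ℝ} {v : Cls F}
include hs cs

/-- **stability and the class are open conditions on a family over a compact base** -/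
theorem all_open {κ : Type} [Fintype κ] [DecidableEq κ] {q : κ → ℤ} {e : T → Matrix κ κ ℂ}
    {D : T × B → Matrix κ κ S6} (hD : PF (fun x : T × B => F + p3 (s x.2)) q (fun x => e x.1) D)
    (c₀ : Cu (F + p3 (s b₀))) {v₀ : Cls (F + p3 (s b₀))} (tv : tr (k.tr _ (hs b₀)).φ v₀ = v)
    (hU : (slF (w := fun b => F + p3 (s b)) hD b₀).All (QE c₀ φ v₀)) :
    ∀ᶠ b in 𝓝 b₀, ∀ (c : Cu (F + p3 (s b))) (v' : Cls (F + p3 (s b))),
      tr (k.tr _ (hs b)).φ v' = v → (slF (w := fun b => F + p3 (s b)) hD b).All (QE c φ v') := by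
  have key := (isCompact_univ (X := T)).eventually_forall_of_forall_eventually (x₀ := b₀)
    (P := fun b t => ∀ (c : Cu (F + p3 (s b))) (v' : Cls (F + p3 (s b))),
      tr (k.tr _ (hs b)).φ v' = v → ∀ (n : ℕ) (r : Fin n → ℤ) a a' (j : Spl q (e t) r a a'),
        QE c φ v' (ofRaw (j.isMF (hD.pf (t, b))))) fun t₀ _ => by
    have hE := hD.comp (f := Prod.swap) continuous_swap
    obtain ⟨n, r, a₀, a₀', j₀⟩ := exists_spl (hD.pf (t₀, b₀)).blk (hD.pf (t₀, b₀)).ee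
    obtain ⟨a, a', h1, h2, h3, h4⟩ := Spl.loc (T := B × T) (t₀ := (b₀, t₀)) hE.ce
      (fun x => (hE.pf x).blk) (fun x => (hE.pf x).ee) j₀
    have h0 := hU t₀ n r a₀ a₀' j₀
    let E : HM (F + p3 (s b₀)) := ofRaw (j₀.isMF (hD.pf (t₀, b₀)))
    let d : B × T → MM E.pz E.pz 3 := fun x => prj r r 3 (cM (a x) * D x.swap * cM (a' x))
    have hd : Tendsto d (𝓝 (b₀, t₀)) (𝓝 (dM E)) := by
      refine Df.tendsto_MM.2 fun i l m => Tendsto.congr' (h4.mono fun x hx =>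
        congrArg (coeff m <| · i l) (prj_of_mem (hx.2.isMF (hE.pf x)).deg).symm) ?_
      have h5 : ContinuousAt (fun x : B × T => a x * (D x.swap).map (coeff m) * a' x) (b₀, t₀) :=
        ca_mul (ca_mul h4.self_of_nhds.1
          (continuous_matrix fun i l => hE.cd i l m).continuousAt) h3.continuousAt
      have h6 := continuousAt_pi.1 (continuousAt_pi.1 h5 i) l
      simp only [ContinuousAt, h1, h2] at h6
      exact (coeff_sand a₀ (D (t₀, b₀)) a₀' i l m).symm ▸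
        h6.congr fun x => (coeff_sand (a x) (D x.swap) (a' x) i l m).symm
    have ht : Tendsto (fun x : B × T => s x.1) (𝓝 (b₀, t₀)) (𝓝 (s b₀)) :=
      (cs.comp continuous_fst).tendsto _
    filter_upwards [h4, Oc.flat_cl k (hs b₀) ht c₀ E hd,
      Oc.open_raw Oc.opO (W := fun x : B × T => F + p3 (s x.1)) c₀
        (fun m => (Oc.an_coeff F p3 m _).continuousAt.tendsto.comp ht) hd h0.1]
      with x e1 e2 e3 c v' hv n' r' u u' j
    have e4 : IsMF (F + p3 (s x.1)) r (d x).1 :=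
      (prj_of_mem (e1.2.isMF (hE.pf x)).deg).symm ▸ e1.2.isMF (hE.pf x)
    obtain ⟨i⟩ := (iso_iff (ofRaw e4) (ofRaw (j.isMF (hD.pf (x.2, x.1))))).2 (by
      have := spl_he (hE.pf x) e1.2 j
      rwa [← prj_of_mem (e1.2.isMF (hE.pf x)).deg] at this)
    refine qe_of_iso ⟨e3 c e4, (stTr h.cu c (k.tr _ (hs x.1))).1.1 ?_⟩ i
    rw [hv, ← tv]
    exact (e2 (hs x.1) c e4).trans (congrArg _ h0.2)
  exact key.mono fun b hb c v' hv t => hb t trivial c v' hv

/-- **deformation** -/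
theorem dfm [T2Space T] (hv : Node v) (hσ : ∀ b, JF F (v.2 * σ (s b)) = 0)
    (c₀ : Cu (F + p3 (s b₀))) {v₀ : Cls (F + p3 (s b₀))} (tv : tr (k.tr _ (hs b₀)).φ v₀ = v)
    (U : Fm (F + p3 (s b₀)) T) (hU : U.All (QE c₀ φ v₀)) :
    ∃ O ∈ 𝓝 b₀, ∃ D : T × O → Matrix U.κ U.κ S6,
      PF (fun x : T × O => F + p3 (s x.2)) U.q (fun x => U.e x.1) D ∧
        ∀ t u, D (t, ⟨b₀, u⟩) = U.D t := by
  have h2 : ∀ t n r a a' (j : Spl U.q (U.e t) r a a'), finrank ℂ
      (HH (ι := Fin n) r (cM a * U.D t * cM a') r (cM a * U.D t * cM a') 6) = 1 :=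
    fun t n r a a' j => by
      have hE := hU t n r a a' j
      exact (hd_eq _ _ 2).symm.trans ((Oc.intZ stMem c₀).latD.dims (cy2 c₀) (stabW c₀) hE.1
        (Oc.pm c₀ (by rw [hE.2]; exact (congrArg Prod.fst tv ▸ hv.prim :)))).2.2.2.1
  refine PF.deform (w := fun b => F + p3 (s b)) (n := 1) U.pf
    (fun b => (Oc.wP h p3_hom (s b)).2)
    (fun m => continuous_iff_continuousAt.2 fun b =>
      (Oc.an_coeff F p3 m _).continuousAt.comp cs.continuousAt) (fun t => ?_) fun t => ?_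
  · obtain ⟨n, r, a, a', j⟩ := exists_spl (U.pf.pf t).blk (U.pf.pf t).ee
    obtain ⟨i⟩ := j.hp_equiv j (U.pf.pf t) (U.pf.pf t) (j := 6)
    exact i.finrank_eq.symm.trans (h2 t n r a a' j)
  · obtain ⟨n, r, a, a', j⟩ := exists_spl (U.pf.pf t).blk (U.pf.pf t).ee
    exact ⟨n, r, a, a', j, lift_of_kur kur (w := Oc.wP h p3_hom) (j.isMF (U.pf.pf t))
      (h2 t n r a a' j).le (Oc.conf k (Oc.tyH stMem) p3_hom p3_onto (hs b₀) c₀
        (j.isMF (U.pf.pf t)) (congrArg Prod.snd ((congrArg _ (hU t n r a a' j).2).trans tv))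
        (Oc.J_ne hv)) cs.continuousAt rfl hσ⟩

end Vale.Agent.P287T.Psi
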