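import Vale.Agent.P287T.Psi.Dic0
import Vale.Agent.P287T.Psi.Rh
import Vale.Agent.P287T.Psi.Kap0
import Vale.Agent.P287T.Rr.Amb
import Vale.Agent.P287T.Rr.Geo0
import Vale.Agent.P287T.Rb.Nd

/-!
# The dictionary between the Riemann-Roch formula and the Mukai pairing
-/

set_option linter.unusedSectionVars false

noncomputable section

namespace Vale.Agent.P287T.Psi

open Set Function Matrix Module P291Z P269 P269.Ch P269.Grr P287Q P287Q.Cub P287T.Cy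
  P287T.Rr P287T.Top P287T.Cl P287T.Fa P287T.Dn PowerSeries

variable {W : S6} {T : Type} [TopologicalSpace T] [Nice T] [cn : PreconnectedSpace T] (c : Cu W)

theorem dic_chE (U : Fm W T) (u : ℤ) : U.chE u = (U.eft.Vn u).chc :=
  chF_pj (U.eft.pj_sup (Mor.id _) 1 (· = u) (fun _ => 0) cn)

theorem dic_chV (U : Fm W T) (h : PjV (ambB c (.triv T) cn) U.q U.e U.D) : U.chV c = h.vb.chc :=
  chF_pj h

theorem dic_pB (B : Ch.Sp) (cn : PreconnectedSpace B.T) (y : Hev (ambB c B cn).X.X) :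
    ((ambB c B cn).prim y).1 = y.1 - ∑ m ∈ Finset.range 5, (3 : ℂ)⁻¹ • (H.map .fst
      (Dn.fib B.X c.J (y.1 * H.map .snd c.h.1 ^ (4 - m))) *
        H.map (.snd : C(B.X × c.Y.X, c.Y.X)) c.h.1 ^ m) := by
  rw [Amb.prim, Amb.hX, amb_hX]
  refine congrArg (y.1 - ·) ((AddSubmonoidClass.coe_finsetSum _ _).trans
    (Finset.sum_congr rfl fun m _ => ?_))
  rw [Amb.pb, amb_pb]
  rfl

theorem dic_pS (y : Hev (T × XF W)) : ((ambB c (.triv T) cn).prim y).1 = prK T W y.1 := by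
  refine (dic_pB c (.triv T) cn y).trans (Eq.trans ?_ (dic_primK (c.kun T) c y.1))
  rw [← c.h_val]
  rfl

theorem dic_pS' (V : (Hev (T × XF W))⟦X⟧) (j : ℕ) :
    (coeff j ((ambB c (.triv T) cn).primS V)).1 = prK T W (coeff j V).1 :=
  (congrArg Subtype.val (coeff_mk j _)).trans (dic_pS c _)

theorem dic_fS (n : (Hev (T × XF W))⟦X⟧) (j : ℕ) :
    (coeff j ((ambB c (.triv T) cn).fS n)).1 = Dn.fib T (JF W) (coeff (j + 4) n).1 :=
  congrArg Subtype.val (coeff_mk j _)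

theorem dic_Zc (U : Fm W T) (z : ℂ) : U.eft.Zc z =
    ∑ u ∈ Finset.univ.image U.q, U.chE u * algebraMap ℂ (Hev T)⟦X⟧ (z ^ u) :=
  Finset.sum_congr rfl fun u _ => congrArg (· * _) (dic_chE U u).symm

omit [Nice T] cn in
theorem dic_a' (s s' : Finset ℤ) (E E' : ℤ → (Hev T)⟦X⟧) (k : ℕ) :
    (coeff k ((81 : ℂ)⁻¹ • (du (∑ u ∈ s, E u * algebraMap ℂ _ (ζ⁻¹ ^ u)) *
      ∑ v ∈ s', E' v * algebraMap ℂ _ (ζ ^ v) + du (∑ u ∈ s, E u * algebraMap ℂ _ (ζ ^ u)) *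
        ∑ v ∈ s', E' v * algebraMap ℂ _ (ζ⁻¹ ^ v)))).1 = ∑ i ∈ Finset.range (k + 1), (-1 : ℂ) ^ i •
      ∑ j, (∑ u ∈ s, al (ζ ^ u / (1 - om) ^ 3) j • (coeff i (E u)).1) *
        ∑ v ∈ s', al (ζ ^ v / (1 - om) ^ 3) j • (coeff (k - i) (E' v)).1 := by
  rw [dic_a]
  simp only [AddSubmonoidClass.coe_finsetSum, Subalgebra.coe_smul, Subalgebra.coe_mul]

theorem dic_RR (h : StRR) (U U' : Fm W T) : ∀ᶠ K in Filter.atTop, Rb.RH U.eft U'.eft K =
    (ambB c (.triv T) cn).fS (du ((ambB c (.triv T) cn).primS (U.chV c)) *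
      (ambB c (.triv T) cn).primS (U'.chV c)) - (81 : ℂ)⁻¹ •
      (du (U.eft.Zc ζ⁻¹) * U'.eft.Zc ζ + du (U.eft.Zc ζ) * U'.eft.Zc ζ⁻¹) := by
  rw [dic_chV c U (U.eft.pjV _), dic_chV c U' (U'.eft.pjV _)]
  exact h (ambB c (.triv T) cn) U.eft U'.eft _ _ (Rb.nd _ U.eft U'.eft)

/-- **the dictionary** -/
theorem stRH (h : StRR) : StRH := fun W c T _ _ _ U U' k => by
  filter_upwards [dic_RR c h U U'] with K hK
  have dg : ∀ (U : Fm W T) (j : ℕ), coeff j (U.chV c) ∈ Hev.deg (T × XF W) j := fun U =>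
    chF_deg (Y := Dn.prS (.triv T) c.Y)
  have h1 := dic_n (c.kun T) (dic_pS' c (U.chV c)) (dic_pS' c (U'.chV c)) (dg U) (dg U') k
  have h2 := dic_a' (Finset.univ.image U.q) (Finset.univ.image U'.q) U.chE U'.chE k
  rw [← dic_Zc, ← dic_Zc, ← dic_Zc, ← dic_Zc] at h2
  rw [hK]
  simp only [rh, muT, smul_sub, Finset.sum_sub_distrib, neg_sub]
  exact congrArg₂ (· - ·) ((dic_fS c _ k).trans h1) h2

end Vale.Agent.P287T.Psi
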