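import Vale.Agent.P287T.Psi.Srf
import Vale.Agent.P287T.Per.Fil

/-!
# The Mukai map preserves the Hodge filtration: the Kuenneth step
-/

namespace Vale.Agent.P287T.Psi

open Set Function P291Z P269 P269.Mono P269.Coh P287Q P287Q.Hb P287Q.Cub P287T.Cy P287T.Rr
  P287T.Top P287T.Cl P287T.Gl P287T.Dn

theorem tc_dec {Y : PS} {T : ℤ → ℤ → Submodule ℂ (H Y.X)} {h y : H Y.X} (c : CubH Y T h)
    (hy : H.IsDeg 4 y) (k : ∀ σ ∈ T 3 1, Y.J (y * σ) = 0) : y ∈ T 2 2 ⊔ T 3 1 := by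
  have hn := c.n
  obtain ⟨σ, hσ, h0, -⟩ := c.exists_gen
  have h1 : Y.J (σ * cj σ) ≠ 0 := fun e => h0 (c.hg.nondeg' hσ fun z hz =>
    c.hg.J_mul_eq_zero hz ((Per.fil_t22 c hσ h0 (c.hg.deg 3 1 σ hσ)).2
      ⟨c.hg.J_mul_eq_zero hσ hσ (by omega), e⟩) (by omega))
  rw [← sub_add_cancel y ((Y.J (y * cj σ) / Y.J (σ * cj σ)) • σ)]
  refine Submodule.add_mem_sup ((Per.fil_t22 c hσ h0 ((H.deg _ 4).sub_mem hy
    ((H.deg _ 4).smul_mem _ (c.hg.deg 3 1 σ hσ)))).2 ⟨?_, ?_⟩) (Submodule.smul_mem _ _ hσ)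
  · rw [sub_mul, smul_mul_assoc, map_sub, map_smul, k σ hσ, c.hg.J_mul_eq_zero hσ hσ (by omega),
      smul_zero, sub_zero]
  · rw [sub_mul, smul_mul_assoc, map_sub, map_smul, smul_eq_mul, div_mul_cancel₀ _ h1, sub_self]

variable {W : S6}

theorem tc_pr4 (c : Cu W) {n : H (XF W)} (hn : H.IsDeg 4 n) (h0 : hyp W * n = 0) (b : H (XF W)) :
    JF W (n * pr4 W b) = JF W (n * b) := by
  have h1 : n * hyp W ^ 2 = 0 := by rw [hn.commute (by decide), sq, mul_assoc, h0, mul_zero]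
  have h2 : JF W (n * H.comp 4 b) = JF W (n * b) := by
    induction b using H.induction_deg with
    | h0 => rw [map_zero]
    | hadd a b ha hb => rw [map_add, mul_add, mul_add, map_add, map_add, ha, hb]
    | h k =>
      by_cases e : k = 4
      · rw [e, (H.isDeg_comp 4 _).comp_eq]
      · rw [(H.isDeg_comp k _).comp_ne (Ne.symm e), mul_zero, map_zero]
        exact (c.per.ps.pd.deg (4 + k) (by have := c.per.cubH.n; omega) _
          (hn.mul (H.isDeg_comp k _))).symm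
  rw [pr4, LinearMap.sub_apply, LinearMap.smulRight_apply, mul_sub, mul_smul_comm, h1, smul_zero,
    sub_zero, h2]

theorem tc_zero {T F : Type} [TopologicalSpace T] [TopologicalSpace F] (K : ¬Kun T F)
    (J : H F →ₗ[ℂ] ℂ) : fib T J = 0 := dif_neg K

theorem tc_fib (c : Cu W) {T : Type} [TopologicalSpace T] {n : H (XF W)} (hn : H.IsDeg 4 n)
    (h0 : hyp W * n = 0) (z : H (T × XF W)) :
    fib T (JF W) (H.map .snd n * prK T W z) = fib T (JF W) (H.map .snd n * z) := by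
  by_cases K : Kun T (XF W)
  · have e : ∀ a b, fib T (JF W) (H.map .snd n * (H.map .fst a * H.map .snd b)) =
        JF W (n * b) • a := fun a b => by
      rw [← mul_assoc, (hn.map _).commute (by decide), mul_assoc, ← map_mul, K.fib_mul]
    refine K.ext (f := (fib T (JF W) ∘ₗ LinearMap.mulLeft ℂ _ ∘ₗ prK T W).toAddMonoidHom)
      (g := (fib T (JF W) ∘ₗ LinearMap.mulLeft ℂ _).toAddMonoidHom) (fun a b => ?_) z
    show fib T (JF W) (_ * prK T W _) = fib T (JF W) (_ * _)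
    rw [e, prK, dif_pos K, ← kmap_tmul, LinearMap.comp_apply, LinearMap.comp_apply,
      LinearEquiv.coe_coe, LinearEquiv.ofBijective_symm_apply_apply, LinearMap.lTensor_tmul,
      kmap_tmul, e, tc_pr4 c hn h0]
  · rw [tc_zero K, LinearMap.zero_apply, LinearMap.zero_apply]

variable {ν : ℕ} {Z : Set (Fin ν → ℂ)}

/-- Hodge types on the product of the surface and the cubic fourfold. -/
structure PT (Z : Set (Fin ν → ℂ)) (W : S6) (P : ℤ → ℤ → Submodule ℂ (H (SZ Z × XF W))) :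
    Prop where
  mul : ∀ p q p' q', ∀ a ∈ P p q, ∀ b ∈ P p' q', a * b ∈ P (p + p') (q + q')
  out : ∀ p q, 6 < p → ∀ a ∈ P p q, a = 0
  fst : ∀ p q, ∀ s ∈ TZ Z p q, H.map .fst s ∈ P p q
  snd : ∀ p q, ∀ n ∈ Per.TT W p q, H.map .snd n ∈ P p q

variable {P : ℤ → ℤ → Submodule ℂ (H (SZ Z × XF W))}

theorem PT.zero (hP : PT Z W P) {s : H (SZ Z)} (hs : s ∈ TZ Z 2 0) {n : H (XF W)}
    (hn : n ∈ Per.TT W 2 2 ⊔ Per.TT W 3 1) {z : H (SZ Z × XF W)} (hz : z ∈ P 3 3) :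
    H.map .fst s * (H.map .snd n * z) = 0 := by
  obtain ⟨a, ha, b, hb, rfl⟩ := Submodule.mem_sup.1 hn
  rw [map_add, add_mul, mul_add,
    hP.out _ _ (by omega) _ (hP.mul _ _ _ _ _ (hP.fst _ _ s hs) _
      (hP.mul _ _ _ _ _ (hP.snd _ _ a ha) _ hz)),
    hP.out _ _ (by omega) _ (hP.mul _ _ _ _ _ (hP.fst _ _ s hs) _
      (hP.mul _ _ _ _ _ (hP.snd _ _ b hb) _ hz)), add_zero]

/-- A vector with components of type `(1, 1)` and `(3, 3)` preserves the Hodge filtration. -/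
theorem PT.typ (hP : PT Z W P) (hZ : PV (π₀ (Fin ν)) Z 2) (c : Cu W) {a : Fin 3 → H (SZ Z)}
    (ha : ∀ j, a j ∈ TZ Z 1 1) {z : H (SZ Z × XF W)} (hz : z ∈ P 3 3) {s : H (SZ Z)}
    (hs : s ∈ SgZ Z) (y : VV W) (hy : ∀ σ ∈ Per.TT W 3 1, JF W (y.1.2 * σ) = 0) :
    IZ Z s (psi (a, prK (SZ Z) W z) y) = 0 := by
  have h1 : ∀ j, IZ Z s (algebraMap ℂ _ (y.1.1 j) * a j) = 0 := fun j => by
    rw [← Algebra.smul_def, map_smul, IZ_apply, JZ_TZ hZ (TZ_mul hZ hs (ha j)) (by omega), smul_zero]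
  have h2 : IZ Z s (fib (SZ Z) (JF W) (H.map .snd y.1.2 * prK (SZ Z) W z)) = 0 := by
    rw [tc_fib c y.2.2.1 y.2.2.2, IZ_apply]
    by_cases K : Kun (SZ Z) (XF W)
    · rw [← K.fib_fst, hP.zero hs (tc_dec c.per.cubH y.2.2.1 hy) hz, map_zero, map_zero]
    · rw [tc_zero K, LinearMap.zero_apply, mul_zero, map_zero]
  show IZ Z s (-(∑ j, _ - _)) = 0
  rw [map_neg, map_sub, map_sum, neg_eq_zero, sub_eq_zero]
  exact (Finset.sum_eq_zero fun j _ => h1 j).trans h2.symm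

/-- **The Kuenneth step.** -/
theorem typ_of [Nice (SZ Z)] (hZ : PV (π₀ (Fin ν)) Z 2) (c : Cu W) (U : Fm W (SZ Z))
    (hP : PT Z W P) (hE : ∀ u, (PowerSeries.coeff 1 (U.chE u)).1 ∈ TZ Z 1 1)
    (hV : (PowerSeries.coeff 3 (U.chV c)).1 ∈ P 3 3) :
    ∀ s ∈ SgZ Z, ∀ y : VV W, (∀ σ ∈ Per.TT W 3 1, JF W (y.1.2 * σ) = 0) →
      IZ Z s (psi (U.kap c 1) y) = 0 := fun _ hs y hy =>
  hP.typ hZ c (fun _ => sum_mem fun u _ => Submodule.smul_mem _ _ (hE u)) hV hs y hy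

end Vale.Agent.P287T.Psi
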