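import Vale.Agent.P287T.Psi.Typ1
import Vale.Agent.P287T.Psi.TyC
import Vale.Agent.P287T.Gb.Fin
import Vale.Agent.P287Q.Cub.Pv

/-!
# The Mukai map of a holomorphic family preserves the Hodge filtration
-/

set_option linter.unusedSectionVars false
set_option linter.style.haveILetI false

noncomputable section

namespace Vale.Agent.P287T.Psi

open Set Function Topology Matrix MvPolynomial Module P291Z P269 P269.Holo P269.Tq P269.Ch
  P269.Grr P287Q P287Q.Cub P287Q.Hb P287T.Cy P287T.Fa P287T.Rr P287T.Cl P287T.Gb P287T.Gl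
  P287T.Au P287Z.O P287Z.O.L

variable {W : S6} {ι κ μ : Type} [Fintype ι] [Fintype κ] [Fintype μ]

/-- the morphism to a product -/
def prL {B Y Y' : Ch.Sp} (m : Mor Y' B) (n : Mor Y' Y) : Mor Y' (Dn.prS B Y) :=
  ⟨m.ρ.prod n.ρ, fun t => (m.f t, n.f t), m.cρ.prodMk n.cρ, m.cf.prodMk n.cf,
    fun g t => Prod.ext (m.eqv g t) (n.eqv g t)⟩

theorem ex_PF (hs : Sm W) {q : κ → ℤ} {e : Matrix κ κ ℂ} {D : Matrix κ κ S6} (h : IsPF W q e D)
    {x : Fin 6 → ℂ} (hx : x ≠ 0) {v : κ → ℂ} (h1 : e *ᵥ v = v) (h2 : evM x D *ᵥ v = 0) :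
    ∃ u, v = evM x D *ᵥ u := by
  classical
  obtain ⟨k, hk⟩ := not_forall.1 (mt (hs x) hx)
  have a5 := congrArg (fun g : Matrix κ κ S6 => evM x (g.map (pderiv k)) *ᵥ v) h.sq
  have a6 : (W • cM e).map (pderiv k) = pderiv k W • cM e := Matrix.ext fun i j => by
    simp [cM, mul_comm]
  simp only [der_mul, a6, evM_smul, evM_cM, smul_mulVec, h1] at a5
  rw [evM, Matrix.map_add _ (map_add _), Matrix.map_mul, Matrix.map_mul, add_mulVec,
    ← mulVec_mulVec, ← mulVec_mulVec] at a5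
  refine ⟨(eval x (pderiv k W))⁻¹ • (evM x (D.map (pderiv k)) *ᵥ v), ?_⟩
  rw [mulVec_smul]
  exact (eq_inv_smul_iff₀ hk).2 (a5.symm.trans
    ((congrArg _ ((congrArg _ h2).trans (mulVec_zero _))).trans (add_zero _)))

theorem pe_vec [DecidableEq κ] {q : κ → ℤ} {a : ℤ} {v : κ → ℂ} :
    pe q a *ᵥ v = v ↔ ∀ i, ¬2 ∣ q i + a → v i = 0 :=
  ⟨fun h i hi => by rw [← h, pe, mulVec_diagonal, if_neg hi, zero_mul], fun h => funext fun i => by
    rw [pe, mulVec_diagonal]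
    split_ifs with hi
    · exact one_mul _
    · rw [h i hi, mul_zero]⟩

theorem vf_iff [DecidableEq κ] (hs : Sm W) {q : κ → ℤ} {e : Matrix κ κ ℂ} {D : Matrix κ κ S6}
    (h : IsPF W q e D) {x : Fin 6 → ℂ} (hx : x ∈ Pub.cone W) {v : κ → ℂ} :
    v ∈ Vf (fun i => 2 ∣ q i + 0) e (evM x D) ↔ ∃ u, evM x (D * cM (pe q 1)) *ᵥ u = v := by
  have e1 : evM x (D * cM (pe q 1)) = pe q 0 * evM x D := by
    rw [← pe_comm h.deg (b := 0) (by decide), evM_mul, evM_cM]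
  refine ⟨fun hv => ?_, ?_⟩
  · obtain ⟨u, hu⟩ := ex_PF hs h hx.1 hv.2.1 hv.2.2
    exact ⟨u, by rw [e1, ← mulVec_mulVec, ← hu, pe_vec.2 hv.1]⟩
  · rintro ⟨u, rfl⟩
    refine ⟨pe_vec.1 (by rw [e1, mulVec_mulVec, ← Matrix.mul_assoc, pe_pe]), ?_, ?_⟩
    · rw [mulVec_mulVec, ← evM_cM x e, ← evM_mul, ← Matrix.mul_assoc, h.ed]
    · rw [mulVec_mulVec, ← evM_mul, ← Matrix.mul_assoc, h.sq, Matrix.smul_mul, evM_smul, hx.2,
        zero_smul, zero_mulVec]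

/-- the value of the part of charge `n` -/
def evT (n : ℤ) (x : Fin 6 → ℂ) (f : S6) : ℂ :=
  ∑ k ∈ (fin_deg n).toFinset, coeff k f * ∏ l, x l ^ k l

theorem evT_eq {n : ℤ} {f : S6} (h : V.Hg n f) (x : Fin 6 → ℂ) : evT n x f = eval x f := by
  rw [eval_eq']
  exact (Finset.sum_subset (fun k hk => (fin_deg n).mem_toFinset.2 (hg_iff.1 h k hk))
    fun k _ hk => mul_eq_zero_of_left (notMem_support_iff.1 hk) _).symm

variable {ν n : ℕ} {Z : Set (Fin ν → ℂ)} [Nice (SZ Z)] {U : Fm W (SZ Z)} [DecidableEq ι]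
  [DecidableEq μ] {p : ι → ℤ} {q : μ → ℤ} {m : ι → ℕ} {φ : (Fin ν → ℂ) → Matrix ι μ S6}
  {B : Z → Matrix ι U.κ ℂ}

/-- **The bundle on the product.** -/
theorem chV_pq (hZ : PV (π₀ (Fin ν)) Z n) (c : Cu W) (h : U.HolD p q m φ B) (k : ℕ) :
    (PowerSeries.coeff k (U.chV c)).1 ∈ PQ (π₀ _) (π₀ _) Z (Pub.cone W) k k := by
  by_cases f : ∃ r, Fam (Y := Dn.prS (.triv (SZ Z)) c.Y) ((Dn.pr2 _ c.Y).chr c.χ)
    (fun i => wt (U.q i)) (fun x => Vf (fun i => 2 ∣ U.q i + 0) (U.e x.1)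
      (evM (c.x x.2) (U.D x.1))) r
  swap
  · rw [show U.chV c = 0 from dif_neg f, map_zero]
    exact zero_mem _
  haveI := isAct_scl (π₀ (Fin ν))
  haveI := isAct_scl (π₀ (Fin 6))
  haveI := isAct_scl (Sum.map (π₀ (Fin ν)) (π₀ (Fin 6)))
  have hP := pr_pv hZ (pv c.hom c.sm)
  haveI := hZ.fp
  haveI := c.qm.fp
  haveI := hP.fp
  let M : Mor (spY (Sum.map (π₀ (Fin ν)) (π₀ (Fin 6))) (prC Z (Pub.cone W)))
      (Dn.prS (.triv (SZ Z)) c.Y) :=
    prL ((toTriv (spY (π₀ (Fin ν)) Z)).comp (hol1 _ _ _ _).toEqh.mor) (hol2 _ _ _ _).toEqh.mor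
  have e : M.map = prq _ _ _ _ :=
    ContinuousMap.coe_injective (M.map_eq (φ := prq _ _ _ _) fun _ => rfl).symm
  let z : (spY (Sum.map (π₀ (Fin ν)) (π₀ (Fin 6))) (prC Z (Pub.cone W))).T → Z :=
    fun t => ⟨pt t ∘ .inl, (pt_mem t).1⟩
  have cz : Continuous z := (continuous_pi fun j => (continuous_apply _).comp pt_cont).subtype_mk _
  have K := kz_fam hP (f.choose_spec.vb.pb M)
    (fun i => Sum.elim (fun _ => (m i : ℤ)) fun _ => wt (p i))
    (A := fun t => (B (z t)).mulVecLin)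
    (fun v => (h.cB.comp cz).matrix_mulVec continuous_const) (fun t v hv e => ?_)
    (fun g t v hv i => ?_) (B := fun y => (Matrix.of (fun i j =>
      evT (3 + q j - p i) (y ∘ .inr) (φ (y ∘ .inl) i j)) * pe q 1).mulVecLin)
    (fun y hy u => analyticAt_pi_iff.2 fun i => ?_) fun t => ?_
  · rw [chc_pb, e] at K
    rw [show U.chV c = f.choose_spec.vb.chc from dif_pos f]
    exact Eq.mp (congrArg (fun x : Hev _ => x.1 ∈ QT _ _ (k : ℤ) (k : ℤ))
      (PowerSeries.coeff_map _ _ _)) (K.typ k)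
  · obtain ⟨A, -, -, a⟩ := h.ev (z t)
    exact ((congrArg _ (pe_vec.2 hv.1)).trans hv.2.1).symm.trans ((mulVec_mulVec _ _ _).trans
      ((congrArg (· *ᵥ _) a.symm).trans ((mulVec_mulVec _ _ _).symm.trans
        ((congrArg (A *ᵥ ·) e).trans (mulVec_zero A)))))
  · show (B (z (g • t)) *ᵥ _) i = _ * (B (z t) *ᵥ v) i
    refine (congrArg (fun x => (B (z (g • t)) *ᵥ x) i) (am_smul ((Dn.pr2 _ c.Y).chr c.χ)
      (fun i => wt (U.q i)) (M.ρ g) v)).trans ?_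
    rw [h.eB (z t) (z (g • t)) (un g (.inl ())) rfl, ← mulVec_mulVec, dg, mulVec_diagonal,
      Fintype.prod_sum_type, Fintype.prod_unique, Fintype.prod_unique, mul_assoc]
    refine congrArg₂ (· * ·) (zpow_natCast _ _).symm ?_
    refine Eq.trans (Finset.sum_congr rfl fun j _ => ?_) (Finset.mul_sum _ _ _).symm
    by_cases hj : p i = U.q j
    · rw [mul_left_comm, ← hj]
      rfl
    · simp only [h.bB _ i j hj, zero_mul, mul_zero]
  · simp only [mulVecLin_apply, ← mulVec_mulVec]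
    exact Finset.analyticAt_fun_sum _ fun j _ => (Finset.analyticAt_fun_sum _ fun k _ =>
      ((h.an _ hy.1 i j k).comp_of_eq (an_inl y) rfl).mul (Finset.analyticAt_fun_prod _
        fun l _ => (PV_an_crd _ y).pow _)).mul analyticAt_const
  · obtain ⟨α, -, β, -, h1, h2⟩ := h.od (z t)
    have e1 : Matrix.of (fun i j => evT (3 + q j - p i) (pt t ∘ .inr) (φ (pt t ∘ .inl) i j)) *
        pe q 1 = evM (pt t ∘ .inr) (φ (z t).1 * cM (pe q 1)) := by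
      rw [evM_mul, evM_cM]
      exact congrArg (· * _) (Matrix.ext fun i j => evT_eq (h.deg _ (z t).2 i j) _)
    have e2 := fun v => vf_iff (v := v) c.sm (U.pf.pf (Quo.mk _ (z t))) (pt_mem t).2
    rw [Matrix.mul_assoc (cM (B (z t)))] at h1 h2
    refine Submodule.ext fun x => ⟨?_, ?_⟩
    · rintro ⟨v, hv, rfl⟩
      obtain ⟨u, rfl⟩ := (e2 v).1 hv
      refine ⟨evM (pt t ∘ .inr) α *ᵥ u, (mulVec_mulVec _ _ _).trans
        (Eq.trans ?_ (mulVec_mulVec _ _ _).symm)⟩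
      rw [e1, ← evM_mul, ← h1, evM_mul, evM_cM]
    · rintro ⟨u, rfl⟩
      refine ⟨_, (e2 _).2 ⟨evM (pt t ∘ .inr) β *ᵥ u, rfl⟩, ?_⟩
      show B (z t) *ᵥ (_ *ᵥ (_ *ᵥ u)) = _ *ᵥ u
      rw [e1, h2, evM_mul _ _ β, evM_mul _ (cM _), evM_cM, mulVec_mulVec, mulVec_mulVec]

/-- **TYP** -/
theorem typ_of_hol (c : Cu W) (C : Cf W) (G : Gf C) (h : G.U.Hol) : G.Typ c := by
  obtain ⟨ι, μ, _, _, _, _, p, q, m, φ, B, h⟩ := h
  haveI := nice C
  haveI := isAct_scl (π₀ (Fin C.ν))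
  haveI := Mf.connected_quo (act := scl (π₀ (Fin C.ν))) C.cn
  have hX := pv c.hom c.sm
  exact typ_of C.pv c G.U (P := PQ (π₀ _) (π₀ _) C.Z (Pub.cone W))
    ⟨fun _ _ _ _ _ a _ b => PQ.mul C.pv hX a b, fun _ _ e _ a => PQ.out C.pv hX a e,
      fun _ _ _ a => PQ.fst C.pv hX a, fun _ _ _ a => PQ.snd C.pv hX a⟩
    (fun u => (kz_chE C.pv h (cu_ne c) u).typ 1) (chV_pq C.pv c h 3)

/-- **GLOB + TYP** -/
theorem stGlob : StGlob := stGlob_of fun _ c C G => typ_of_hol c C G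

end Vale.Agent.P287T.Psi
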