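import Vale.Agent.P287T.Psi.Fin0
import Vale.Agent.P287T.Psi.AdB
import Vale.Agent.P287T.Psi.CmB
import Vale.Agent.P287T.Psi.Typ2

/-!
# The Mukai map: the final statement
-/

namespace Vale.Agent.P287T.Psi

theorem Fn.adj0 : StAdj := AdB.adj Fn.rh0 stDg Psi.stNat Fn.at0

/-- **PSI** -/
theorem stPsi (B : Top.Blk) : Top.StPsi :=
  Fn.psi_of B (fun _ c C G => typ_of_hol c C G) Fn.adj0 CmB.cmp

end Vale.Agent.P287T.Psi
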