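import Vale.Agent.P287T.Psi.St

/-!
# The class of a family: the part of degree zero, constant families
-/

set_option linter.unusedSectionVars false
set_option linter.style.haveILetI false

namespace Vale.Agent.P287T.Psi.KA

open Set Function Matrix Module P291Z P269 P269.Ch P269.Grr P287Q P287Q.Cub P287T.Cy P287T.Rr
  P287T.Top P287T.Cl P287T.Fa

variable {ι κ : Type} [Fintype ι] [Fintype κ]

section fam

variable {Y : Ch.Sp} {χ : Y.G →ₜ* ℂˣ} {w : ι → ℤ} {w' : κ → ℤ}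
  {F : Y.T → Submodule ℂ (ι → ℂ)} {F' : Y.T → Submodule ℂ (κ → ℂ)} {r : ℕ}

theorem chF_val (t : Y.T) (h : Fam χ w F r) : chF χ w F = h.vb.chc := by
  have h1 : ∃ r, Fam χ w F r := ⟨r, h⟩
  have key : ∀ r' (h' : Fam χ w F r'), r' = r → h'.vb.chc = h.vb.chc := by
    rintro _ _ rfl
    rfl
  rw [chF, dif_pos h1]
  exact key _ _ ((h1.choose_spec.rk t).symm.trans (h.rk t))

theorem eqm_blk {A : Matrix κ ι ℂ} (h : Blk w w' A) :
    Eqm χ (fun _ => True) w w' fun _ => A := fun g t i j _ => by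
  by_cases e : w' i = w j
  · rw [e, mul_comm]
  · exact (mul_eq_zero_of_left (h i j e) _).trans (mul_eq_zero_of_right _ (h i j e)).symm

/-- transport along a splitting -/
theorem chF_spl [DecidableEq κ] (t₀ : Y.T) (h' : Fam χ w' F' r) {A : Matrix κ ι ℂ}
    {B : Matrix ι κ ℂ} (hA : Blk w w' A) (hB : Blk w' w B) (one : A * B = 1)
    (hF : ∀ t v, v ∈ F t ↔ (B * A) *ᵥ v = v ∧ A *ᵥ v ∈ F' t) : chF χ w F = h'.vb.chc := by
  have ab : ∀ v, A *ᵥ (B *ᵥ v) = v := fun v => by rw [mulVec_mulVec, one, one_mulVec]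
  have m : ∀ t v, v ∈ F' t → B *ᵥ v ∈ F t := fun t v hv =>
    (hF t _).2 ⟨by rw [← mulVec_mulVec, ab], by rwa [ab]⟩
  have inj : ∀ v, B *ᵥ v = 0 → v = 0 := fun v e => by rw [← ab v, e, mulVec_zero]
  have sur : ∀ t v, v ∈ F t → ∃ u ∈ F' t, B *ᵥ u = v := fun t v hv =>
    ⟨_, ((hF t v).1 hv).2, (mulVec_mulVec _ _ _).trans ((hF t v).1 hv).1⟩
  have h : Fam χ w F r := by
    refine ⟨?_, fun t => ?_, fun g t v hv => (hF _ _).2 ⟨?_, ?_⟩⟩
    · simp only [hF]
      exact (isClosed_eq (continuous_const.matrix_mulVec continuous_snd) continuous_snd).inter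
        (h'.cl.preimage (continuous_fst.prodMk (continuous_const.matrix_mulVec continuous_snd)))
    · rw [← h'.rk t, ← finrank_map_of_inj (f := B.mulVecLin) fun v _ => inj v]
      exact congrArg (fun S : Submodule ℂ (ι → ℂ) => finrank ℂ S)
        (le_antisymm (sur t) (by rintro _ ⟨v, hv, rfl⟩; exact m t v hv))
    · rw [(eqm_blk (hB.mul hA)).mulVec g t fun _ k => (k trivial).elim, ((hF t v).1 hv).1]
    · rw [(eqm_blk hA).mulVec g t fun _ k => (k trivial).elim]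
      exact h'.iv g t _ ((hF t v).1 hv).2
  rw [chF_val t₀ h]
  exact (Iso.chc' ⟨ad_hom h' h continuous_const (fun _ _ _ _ k => (k trivial).elim) (eqm_blk hB) m,
    fun _ v _ => inj v, sur⟩).symm

theorem coeff_full [DecidableEq ι] (χ : Y.G →ₜ* ℂˣ) (s : ι → Prop) [DecidablePred s] :
    PowerSeries.coeff 0 (fam_full χ s fun _ => 0).vb.chc = ∑ i with s i, 1 := by
  simp only [chc_full, zero_smul, ex_zero, map_sum, PowerSeries.coeff_zero_one]

end fam

theorem blk_sup {p : ι → ℤ} {q : κ → ℤ} {a : Matrix κ ι ℂ} (h : Blk p q a) {s : ℤ → Prop}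
    {v : ι → ℂ} (hv : ∀ i, ¬s (p i) → v i = 0) (k : κ) (hk : ¬s (q k)) : (a *ᵥ v) k = 0 :=
  Finset.sum_eq_zero fun i _ => by
    by_cases e : q k = p i
    · exact mul_eq_zero_of_right _ (hv i (e ▸ hk))
    · exact mul_eq_zero_of_left (h k i e) _

theorem mem_Vf [DecidableEq κ] {p : ι → ℤ} {q : κ → ℤ} {e D : Matrix ι ι ℂ} {a : Matrix κ ι ℂ}
    {b : Matrix ι κ ℂ} (h : Spl p e q a b) (hD : e * D = D) {D' : Matrix κ κ ℂ}
    (hD' : D' = a * D * b) (s : ℤ → Prop) (v : ι → ℂ) : v ∈ Vf (fun i => s (p i)) e D ↔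
      (b * a) *ᵥ v = v ∧ a *ᵥ v ∈ Vf (fun k => s (q k)) 1 D' := by
  have h1 : (b * a) *ᵥ v = v → D' *ᵥ (a *ᵥ v) = a *ᵥ (D *ᵥ v) := fun k => by
    rw [hD', ← mulVec_mulVec, mulVec_mulVec v, k, ← mulVec_mulVec]
  refine ⟨fun k => ⟨h.eq ▸ k.2.1, blk_sup h.ba k.1, one_mulVec _, ?_⟩,
    fun k => ⟨fun i hi => ?_, h.eq ▸ k.1, ?_⟩⟩
  · rw [h1 (h.eq ▸ k.2.1), k.2.2, mulVec_zero]
  · rw [← k.1, ← mulVec_mulVec]
    exact blk_sup h.bb k.2.1 i hi
  · rw [← hD, ← h.eq, ← mulVec_mulVec, ← mulVec_mulVec, ← h1 k.1, k.2.2.2, mulVec_zero]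

theorem evM_c (x : Fin 6 → ℂ) (u : Matrix κ ι ℂ) : evM x (cM u) = u :=
  Matrix.ext fun _ _ => MvPolynomial.eval_C _

section kv

variable {T T' : Type} [TopologicalSpace T] [TopologicalSpace T'] {W : S6} {x : KV T W}

theorem pbK_zero {k : ℕ} (h : Dg (k + 1) x) (t : T) : pbK (.const T' t) x = 0 := by
  refine Prod.ext (funext fun j => H.map_const_eq_zero t (by omega) (h.a j))
    ((Submodule.span_le (p := LinearMap.ker (H.mapA _).toLinearMap)).2 ?_ h.n)
  rintro _ ⟨a, b, ha, -, -, rfl⟩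
  refine (Dn.map_pm _ _ a b).trans ?_
  rw [H.map_const_eq_zero t (by omega) ha, map_zero, zero_mul]

theorem pbK_self [ConnectedSpace T] (h : Dg 0 x) (f : C(T, T)) : pbK f x = x := by
  have h1 : ∀ a : H T, H.IsDeg (2 * (0 : ℕ)) a → H.map f a = a := fun a ha => by
    obtain ⟨z, rfl⟩ := Hb.con_of_conn a ha
    rw [H.map_smulC, map_one]
  refine Prod.ext (funext fun j => h1 _ (h.a j))
    ((Submodule.span_le (p := LinearMap.eqLocus (H.mapA _).toLinearMap .id)).2 ?_ h.n)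
  rintro _ ⟨a, b, ha, -, -, rfl⟩
  refine (Dn.map_pm _ _ a b).trans ?_
  rw [h1 a ha, H.map_id (f := .id _) fun _ => rfl]
  rfl

theorem prK_snd (K : Dn.Kun T (XF W)) (y : H (XF W)) :
    prK T W (H.map .snd y) = H.map .snd (pr4 W y) := by
  rw [prK, dif_pos K, ← one_mul (H.map _ y), ← map_one (H.map (.fst : C(T × XF W, T))),
    ← Dn.kmap_tmul, LinearMap.comp_apply, LinearMap.comp_apply, LinearEquiv.coe_coe,
    LinearEquiv.ofBijective_symm_apply_apply, LinearMap.lTensor_tmul, Dn.kmap_tmul, map_one,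
    one_mul]

theorem kun (c : Cu W) [Nice T] : Dn.Kun T (XF W) :=
  haveI := isAct
  haveI := c.qm.fp
  haveI := c.qm.cpt
  haveI := c.qm.pd.fin
  haveI : Nice (XF W) := inferInstanceAs (Nice c.Y.X)
  Dn.kun T _

theorem pr4_prim (c : Cu W) {a : Hev (XF W)} (ha : H.IsDeg 4 a.1) : pr4 W a.1 = (c.prim a).1 := by
  have h1 : pr4 W a.1 = a.1 - (JF W (a.1 * hyp W ^ 2) / 3) • hyp W ^ 2 := by
    show H.comp 4 a.1 - ((3 : ℂ)⁻¹ * JF W (H.comp 4 a.1 * hyp W ^ 2)) • hyp W ^ 2 = _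
    rw [ha.comp_eq, div_eq_inv_mul]
  rw [h1, ← c.h_val]
  rfl

end kv

section pt

variable {W : S6} {T : Type} [TopologicalSpace T] [Nice T] (U : Fm W T) (c : Cu W) {t : T}
  [DecidableEq ι] {r : ι → ℤ} {a : Matrix ι U.κ ℂ} {b : Matrix U.κ ι ℂ}
  (S : Spl U.q (U.e t) r a b)
include S

theorem chE_at (u : ℤ) : PowerSeries.coeff 0 ((U.pb (.const T t)).chE u) =
    ∑ k with r k = u, 1 := by
  have h := chF_spl (Y := .triv T) (w := fun _ : U.κ => 0)
    (F := fun _ => Vf (fun i => U.q i = u) (U.e t) 0) t (fam_full 1 (fun k => r k = u) fun _ => 0)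
    (fun _ _ k => (k rfl).elim) (fun _ _ k => (k rfl).elim) S.one
    fun _ => mem_Vf S (mul_zero _) (by rw [Matrix.mul_zero, Matrix.zero_mul]) (· = u)
  exact (congrArg (PowerSeries.coeff 0) h).trans (coeff_full (Y := .triv T) 1 _)

theorem chV_at : (U.pb (.const T t)).chV c =
    pS (.snd : C(T × XF W, XF W)) (c.VE (S.isMF (U.pf.pf t))).chc := by
  have h := Oc.chc_fam_pb (χ := (Dn.pr2 (.triv T) c.Y).chr c.χ) (Dn.pr2 (.triv T) c.Y)
    (fun _ => rfl) (c.fam (S.isMF (U.pf.pf t)) 0)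
  rw [Dn.pr2_map] at h
  refine Eq.trans ?_ h
  refine chF_spl (Y := Dn.prS (.triv T) c.Y) (w := fun i => wt (U.q i))
    (F := fun x => Vf (fun i => 2 ∣ U.q i + 0) (U.e t) (evM (c.x x.2) (U.D t))) (t, c.pt) _
    (fun k i e => S.ba k i fun h => e (congrArg wt h))
    (fun k i e => S.bb k i fun h => e (congrArg wt h)) S.one fun x => mem_Vf S ?_ ?_ (2 ∣ · + 0)
  · rw [← evM_c (c.x x.2) (U.e t), ← evM_mul, (U.pf.pf t).ed]
  · rw [evM_mul, evM_mul, evM_c, evM_c]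
    rfl

theorem mem_image (k : ι) : r k ∈ Finset.univ.image U.q := by
  by_contra h
  have h1 := congrFun (congrFun S.one k) k
  rw [Matrix.mul_apply, one_apply_eq, Finset.sum_eq_zero fun i _ => mul_eq_zero_of_left
    (S.ba k i fun e => h (Finset.mem_image.2 ⟨i, Finset.mem_univ i, e.symm⟩)) _] at h1
  exact zero_ne_one h1

theorem kap_at : (U.pb (.const T t)).kap c 0 = cst T W (mv W (cl c (S.isMF (U.pf.pf t)))) := by
  refine Prod.ext (funext fun j => ?_) ?_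
  · have h1 : al (zE r / (1 - om) ^ 3) j = ∑ k, al (ζ ^ r k / (1 - om) ^ 3) j := by
      rw [zE, Finset.sum_div]
      exact (congrFun (map_sum (AddMonoidHom.mk' al al_add) _ _) j).trans (Finset.sum_apply _ _ _)
    refine Eq.trans ?_ (congrArg (algebraMap ℂ (H T)) h1).symm
    rw [map_sum, ← Finset.sum_fiberwise_of_maps_to fun k _ => mem_image U S k]
    refine Finset.sum_congr rfl fun u _ => ?_
    rw [chE_at U S, AddSubmonoidClass.coe_finsetSum, Finset.smul_sum]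
    refine Finset.sum_congr rfl fun k hk => ?_
    rw [(Finset.mem_filter.1 hk).2, Algebra.algebraMap_eq_smul_one]
    rfl
  · show prK T W (PowerSeries.coeff 2 ((U.pb (.const T t)).chV c)).1 = _
    rw [chV_at U c S]
    exact (congrArg (fun y : Hev (T × XF W) => prK T W y.1) (PowerSeries.coeff_map _ _ _)).trans
      ((prK_snd (kun c) _).trans (congrArg (H.map .snd)
        (pr4_prim c (chc_deg (c.VE (S.isMF (U.pf.pf t))) 2))))

end pt

end KA

/-- **AT** -/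
theorem stAt (hN : StNat) (hD : StDg) : StAt := fun W c T _ _ _ ι _ _ p d hd => by
  refine ⟨fun U t h => ?_, fun hW k => ?_⟩
  · obtain ⟨n, r, a, b, S⟩ := Fa.exists_spl (U.pf.pf t).blk (U.pf.pf t).ee
    rw [← KA.pbK_self (hD W c T U 0) (.const T t), ← hN, KA.kap_at U c S,
      Cl.cl_he c _ hd (h n r a b S)]
  · obtain ⟨t⟩ : Nonempty T := inferInstance
    exact (hN W c T T (Fm.const hW hd T) (.const T t) _).trans (KA.pbK_zero (hD W c T _ _) t)

end Vale.Agent.P287T.Psi
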