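import Vale.Agent.P287T.Psi.Dfm
import Vale.Agent.P287T.Psi.KapA
import Vale.Agent.P287T.Psi.Srf

/-!
# The Mukai map is flat
-/

set_option linter.unusedSectionVars false
set_option linter.unusedVariables false

noncomputable section

namespace Vale.Agent.P287T.Psi

open Set Function Filter Topology Metric Module P291Z P269 P287Q P287Q.Cub P287Q.Zc P287T.Cy
  P287T.Rr P287T.Top P287T.Cl P287T.Au P287T.Gl P287T.Fa P287T.G3

/-- **CMP**: families with the same simple members differ by a line bundle -/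
def StCmpK : Prop := ∀ (W : S6) (c : Cu W) (T : Type) [TopologicalSpace T] [Nice T]
  [PreconnectedSpace T] (U U' : Fm W T) (ι : Type) [Fintype ι] [DecidableEq ι] (p : ι → ℤ),
  (∀ t, ∃ d : Matrix ι ι S6, finrank ℂ (HH p d p d 0) = 1 ∧ U.At t p d ∧ U'.At t p d) →
    ∃ l ∈ H.deg T 2, U'.kap c 1 = U.kap c 1 + smK l (U.kap c 0)

namespace Fl

section kv

variable {F W : S6} {T T' : Type} [TopologicalSpace T] [TopologicalSpace T']

theorem map_psi (K : Dn.Kun T (XF F)) (K' : Dn.Kun T' (XF F)) (f : C(T', T)) (τ : C(XF F, XF W))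
    (θ : KV T W) (y : VV F) : H.map f (psi (trK τ θ) y) = psi (trK τ (pbK f θ)) y := by
  change H.map f (-(_ - _)) = -(_ - _)
  rw [map_neg, map_sub, map_sum, ← K.fib_map K', map_mul]
  refine congrArg Neg.neg (congrArg₂ _ (Finset.sum_congr rfl fun j _ => ?_)
    (congrArg _ (congrArg₂ _ (H.map_map _ _ _) ((H.map_map _ _ _).trans
      (H.map_map (Dn.xm T' τ) (f.prodMap (.id (XF W))) θ.2).symm))))
  rw [map_mul]
  exact congrArg (· * _) ((H.mapA f).commutes _)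

theorem psi_tw (K : Dn.Kun T (XF F)) (τ : C(XF F, XF W)) (θ : KV T W) {l : H T}
    (hl : H.IsDeg 2 l) (x : Cls W) (y : VV F) (h : mu F y.1 (mv F (tr τ x)) = 0) :
    psi (trK τ (θ + smK l (cst T W (mv W x)))) y = psi (trK τ θ) y := by
  have h1 : H.map (Dn.xm T τ) (H.map .fst l * H.map .snd x.2) =
      H.map .fst l * H.map .snd (H.map τ x.2) :=
    (Dn.map_pm _ _ _ _).trans (by rw [H.map_id fun _ => rfl])
  change -(∑ j, algebraMap ℂ _ (y.1.1 j) * (θ.1 j + l * algebraMap ℂ _ (al x.1 j)) -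
    Dn.fib T (JF F) (H.map .snd y.1.2 * H.map (Dn.xm T τ)
      (θ.2 + H.map .fst l * H.map .snd x.2))) = -(∑ j, algebraMap ℂ _ (y.1.1 j) * θ.1 j -
    Dn.fib T (JF F) (H.map .snd y.1.2 * H.map (Dn.xm T τ) θ.2))
  rw [map_add, h1, mul_add, map_add, ← mul_assoc, ← (hl.map _).commute ⟨1, rfl⟩, mul_assoc,
    ← map_mul, K.fib_mul]
  have h2 : JF F (y.1.2 * H.map τ x.2) = ∑ j, y.1.1 j * al x.1 j := (sub_eq_zero.1 h).symm
  simp only [h2, mul_add, Finset.sum_add_distrib, Algebra.algebraMap_eq_smul_one, smul_mul_assoc,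
    mul_smul_comm, one_mul, mul_one, Finset.sum_smul, smul_smul, mul_comm (al x.1 _)]
  abel

theorem fm_eq (U : Fm W T) {D : T → Matrix U.κ U.κ S6} (h : PF (fun _ => W) U.q U.e D)
    (e : D = U.D) : (⟨U.κ, U.q, U.e, D, h⟩ : Fm W T) = U := by
  subst e
  rfl

end kv

variable {ν ν' : ℕ} {Z : Set (Fin ν → ℂ)} {Z' : Set (Fin ν' → ℂ)}

theorem eq_zero (h : PV (π₀ (Fin ν)) Z 2) (hc : IsConnected Z) {x : H (SZ Z)} (hx : H.IsDeg 4 x)
    (e : JZ Z x = 0) : x = 0 := JZ_nd h fun y => by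
  induction y using H.induction_deg with
  | h0 => rw [zero_mul, map_zero]
  | hadd a b ha hb => rw [add_mul, map_add, ha, hb, add_zero]
  | h k =>
    by_cases e' : k = 0
    · obtain ⟨t, ht⟩ := conZ hc _ (e' ▸ H.isDeg_comp k y)
      rw [e', ht, smul_mul_assoc, one_mul, map_smul, e, smul_zero]
    · exact JZ_deg h ((H.isDeg_comp k y).mul hx) (by omega)

theorem exists_deg (h : PV (π₀ (Fin ν)) Z 2) (hc : IsConnected Z) (f : C(SZ Z', SZ Z)) :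
    ∃ δ : ℂ, ∀ x, H.IsDeg 4 x → JZ Z' (H.map f x) = δ * JZ Z x := by
  obtain ⟨m, h1, h2⟩ := hZ_pos h hc
  have h3 : (m : ℂ) ≠ 0 := Nat.cast_ne_zero.2 h1.ne'
  have h4 : H.IsDeg 4 (hZ Z * hZ Z) := (hZ_Lk h).2.mul (hZ_Lk h).2
  refine ⟨JZ Z' (H.map f (hZ Z * hZ Z)) / m, fun x hx => ?_⟩
  have h5 := eq_zero h hc (x := x - (JZ Z x / m) • (hZ Z * hZ Z))
    ((H.deg _ 4).sub_mem hx ((H.deg _ 4).smul_mem _ h4))
    (by rw [map_sub, map_smul, h2, smul_eq_mul, div_mul_cancel₀ _ h3, sub_self])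
  conv_lhs => rw [sub_eq_zero.1 h5, H.map_smulC, map_smul, smul_eq_mul]
  ring

theorem all_of {W : S6} {c : Cu W} {φ : ℝ} {v : Cls W} {C : Cf W} (h : C.All (QQ c φ v))
    (G : Gf C) : G.U.All (QE c φ v) := fun t n r a b k => by
  obtain ⟨z, rfl⟩ := Quot.mk_surjective t
  obtain ⟨d, hd⟩ := (C.orb _ z.2).ne
  obtain ⟨h1, h2⟩ := h _ z.2 d hd
  obtain ⟨i⟩ := (iso_iff (ofRaw h1) (ofRaw (k.isMF (G.U.pf.pf _)))).2 (G.fib z d hd n r a b k).symm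
  exact qe_of_iso h2 i

variable {F : S6} {h : Per.Sm F} {r : ℝ} {Φ : T3 → Per.V → Per.V} {σ : T3 → H (XF F)}
  {η : T3 → T3 →ₗ[ℂ] H (XF F)} (k : Per.PM h p3 r Φ σ η) {φ : ℝ} {v : Cls F}

theorem near (hH : StHty) (hv : Node v) {T : Type} [TopologicalSpace T] [Nice T] [CompactSpace T]
    [ConnectedSpace T] {t₀ : T3} (h₀ : t₀ ∈ ball (0 : T3) r) (h1 : JF F (v.2 * σ t₀) = 0)
    (c₀ : Cu (F + p3 t₀)) {v₀ : Cls (F + p3 t₀)} (tv : tr (k.tr t₀ h₀).φ v₀ = v)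
    (U : Fm (F + p3 t₀) T) (hU : U.All (QE c₀ φ v₀)) :
    ∀ᶠ t in 𝓝 t₀, JF F (v.2 * σ t) = 0 → ∀ (ht : t ∈ ball (0 : T3) r) (c : Cu (F + p3 t))
      (v' : Cls (F + p3 t)), tr (k.tr t ht).φ v' = v → ∃ U' : Fm (F + p3 t) T,
        U'.All (QE c φ v') ∧
          trK (k.tr t ht).φ (U'.kap c 1) = trK (k.tr t₀ h₀).φ (U.kap c₀ 1) := by
  let B := {t : T3 // t ∈ ball (0 : T3) r ∧ JF F (v.2 * σ t) = 0}
  obtain ⟨O, hO, D, hD, e⟩ := dfm k (B := B) (b₀ := ⟨t₀, h₀, h1⟩) (fun b => b.2.1)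
    continuous_subtype_val hv (fun b => b.2.2) c₀ tv U hU
  have u := mem_of_mem_nhds hO
  have cs : Continuous fun b : O => b.1.1 := continuous_subtype_val.comp continuous_subtype_val
  have e' : slF (w := fun b : O => F + p3 b.1.1) hD ⟨_, u⟩ = U :=
    fm_eq _ _ (funext fun t => e t u)
  have h2 := (all_open k (b₀ := (⟨_, u⟩ : O)) (fun b => b.1.2.1) cs hD c₀ tv
    (by rw [e']; exact hU)).and
    (hH F h r Φ σ η k _ O ⟨_, u⟩ _ (fun b => b.1.2.1) cs _ _ _ D hD fun b => (k.sm _ b.1.2.1).cu)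
  rw [nhds_subtype_eq_comap, eventually_comap, e'] at h2
  have h3 := h2.and (show ∀ᶠ b in 𝓝 _, b ∈ O from hO)
  rw [nhds_subtype_eq_comap, eventually_comap] at h3
  filter_upwards [h3] with t h4 hJ ht c v' tv'
  obtain ⟨h5, h6⟩ := h4 ⟨t, ht, hJ⟩ rfl
  obtain ⟨h7, h8⟩ := h5 ⟨_, h6⟩ rfl
  exact ⟨_, h7 c v' tv', h8 1⟩

end Fl

/-- **FLAT** -/
theorem stFlat_of (hr : HRR) (hN : StNat) (hA : StAt) (hC : StCmpK) (hH : StHty) : StFlat := by
  intro F h r Φ σ η k φ v hv t₀ h₀ D₀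
  have := nice D₀.C
  have := D₀.C.pv.compact
  have := isAct_scl (π₀ (Fin D₀.C.ν))
  have := Mf.connected_quo (act := scl (π₀ (Fin D₀.C.ν))) D₀.C.cn
  obtain ⟨x₀⟩ := mem_ne D₀.C
  have h1 : JF F (v.2 * σ t₀) = 0 := by
    rw [← D₀.tv, ← (qe_ob D₀.all x₀).2]
    exact Oc.J_zero k h₀ (stMem D₀.c (ob D₀.C x₀).isMF).2
  filter_upwards [Fl.near k hH hv h₀ h1 D₀.c D₀.tv D₀.G.U (Fl.all_of D₀.all D₀.G)]
    with t h4 hJ ht E
  obtain ⟨U, h7, h8⟩ := h4 hJ ht E.c E.v' E.tv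
  have := nice E.C
  have := isAct_scl (π₀ (Fin E.C.ν))
  have := Mf.connected_quo (act := scl (π₀ (Fin E.C.ν))) E.C.cn
  have n' : Node E.v' := ((stTr h.cu E.c (k.tr t ht)).2.2.2 _).1 (E.tv.symm ▸ hv)
  have h9 : ∀ s, ∃ X, QE E.c φ E.v' X ∧ U.At s X.pz X.dz := fun s =>
    let ⟨_, _, _, _, j⟩ := U.spl s
    ⟨_, h7 s _ _ _ _ j, Fm.At.of_spl j (HE.refl _ _)⟩
  obtain ⟨f, hf⟩ := exists_map hr n' E.all E.span E.G _ h9
  obtain ⟨l, hl, e1⟩ := hC _ E.c _ _ _ _ _ hf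
  obtain ⟨s⟩ : Nonempty (SZ D₀.C.Z) := inferInstance
  obtain ⟨X, e2, e3⟩ := h9 s
  rw [hN, (hA _ E.c _ _ _ _ X.isMF).1 _ s e3, show cl E.c X.isMF = E.v' from e2.2] at e1
  obtain ⟨δ, hδ⟩ := Fl.exists_deg E.C.pv E.C.cn f
  refine ⟨(H.mapA f).toLinearMap, δ, fun a ha => ⟨Lam.map f ha.1, ha.2.map f⟩,
    fun a ha b hb => ?_, fun y hy => ?_⟩
  · exact (congrArg (JZ _) (map_mul (H.map f) a b).symm).trans (hδ _ (H.IsDeg.mul ha hb))
  · refine Eq.trans ?_ (Fl.map_psi (KA.kun h.cu) (KA.kun h.cu) f _ _ y).symm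
    refine Eq.trans ?_ ((congrArg (fun θ => psi (trK _ θ) y) e1).trans
      (Fl.psi_tw (KA.kun h.cu) _ _ hl _ y ?_)).symm
    · exact congrArg (fun θ => psi θ y) h8.symm
    · rw [E.tv, ← vc_val (P4_LT h.cu hv.mem)]
      exact hy

end Vale.Agent.P287T.Psi
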