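import Vale.Agent.P287T.Psi.Fl0
import Vale.Agent.P287T.Rr.Geo0
import Vale.Agent.P287T.Oc.Flat
import Vale.Agent.P287T.Per.Top

/-!
# The class of a family over a compact base is locally constant in deformations
-/

set_option linter.unusedSectionVars false
set_option linter.style.haveILetI false

noncomputable section

namespace Vale.Agent.P287T.Psi

open Set Function Module Matrix MvPolynomial Filter Topology Metric P291Z P269 P269.Holo P269.Mono
  P269.Tq P269.Ch P269.Grr P287Q P287Q.Cub P287T.Cy P287T.Rr P287T.Top P287T.Fa P287T.Oc P287Z.O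
  P287Z.O.L

variable {ι : Type} [Fintype ι] [DecidableEq ι]

section near

variable {Y : Ch.Sp} {χ : Y.G →ₜ* ℂˣ} {w : ι → ℤ}

theorem hty_chF {F : Y.T → Submodule ℂ (ι → ℂ)} {r : ℕ} (h : Fam χ w F r) :
    chF χ w F = h.vb.chc := by
  have key : ∀ r' (h' : Fam χ w F r'), h'.vb.chc = h.vb.chc := fun r' h' => by
    rcases isEmpty_or_nonempty Y.T with _ | ⟨⟨t⟩⟩
    · exact subsingleton_series.elim _ _
    · obtain rfl : r' = r := (h'.rk t).symm.trans (h.rk t)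
      rfl
  rw [chF, dif_pos ⟨r, h⟩]
  exact key _ _

theorem hty_mem {p : ι → ℤ} {e D H D' H' : Matrix ι ι ℂ} (h : Fib p e D H) (h' : Fib p e D' H')
    {v : ι → ℂ} (hv : ∀ i, ¬2 ∣ p i + 0 → v i = 0) :
    (D' * H) *ᵥ v ∈ Vf (fun i => 2 ∣ p i + 0) e D' := by
  rw [← mulVec_mulVec]
  exact h'.D_mem (a := 1) (by omega) (odd_sup h.oH (by omega) hv)

theorem hty_inj {s : ι → Prop} {e D H D' : Matrix ι ι ℂ} (h : (D' * H + H * D + (1 - e)).det ≠ 0)
    {v : ι → ℂ} (hv : v ∈ Vf s e D) (k : (D' * H) *ᵥ v = 0) : v = 0 :=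
  eq_zero_of_mulVec_eq_zero h (by
    rw [add_mulVec, add_mulVec, k, ← mulVec_mulVec, hv.2.2, mulVec_zero, sub_mulVec, one_mulVec,
      hv.2.1, sub_self, add_zero, add_zero])

/-- nearby exact complexes have isomorphic kernels -/
theorem hty_near {S : Type} [TopologicalSpace S] {s0 : S} {K : Set Y.T} (hK : IsCompact K)
    (hG : ∀ t, ∃ g : Y.G, g • t ∈ K) {p : ι → ℤ} {e : Y.T → Matrix ι ι ℂ} (ce : Continuous e)
    {D : S → Y.T → Matrix ι ι ℂ}
    (cD : ∀ t ∈ K, ContinuousAt (fun q : S × Y.T => D q.1 q.2) (s0, t))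
    {H : Y.T → Matrix ι ι ℂ} (cH : Continuous H) (h0 : ∀ t, Fib p (e t) (D s0 t) (H t))
    (c0 : Continuous (D s0))
    (eP : Eqm χ (fun i => 2 ∣ p i + 0) w w fun t => D s0 t * H t) {r0 : ℕ}
    (f0 : Fam χ w (fun t => Vf (fun i => 2 ∣ p i + 0) (e t) (D s0 t)) r0) :
    ∀ᶠ s in 𝓝 s0, ∀ r (f : Fam χ w (fun t => Vf (fun i => 2 ∣ p i + 0) (e t) (D s t)) r),
      (∀ t, ∃ H', Fib p (e t) (D s t) H') → f.vb.chc = f0.vb.chc := by
  have key : ∀ᶠ s in 𝓝 s0, ∀ t ∈ K, (D s0 t * H t + H t * D s t + (1 - e t)).det ≠ 0 ∧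
      (D s t * H t + H t * D s0 t + (1 - e t)).det ≠ 0 := by
    refine hK.eventually_forall_of_forall_eventually fun t ht => ?_
    have a1 : ContinuousAt (fun q : S × Y.T => H q.2) (s0, t) := (cH.comp continuous_snd).continuousAt
    have a2 : ContinuousAt (fun q : S × Y.T => D s0 q.2) (s0, t) :=
      (c0.comp continuous_snd).continuousAt
    have a3 : ContinuousAt (fun q : S × Y.T => 1 - e q.2) (s0, t) :=
      (continuous_const.sub (ce.comp continuous_snd)).continuousAt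
    have a4 : (D s0 t * H t + H t * D s0 t + (1 - e t)).det ≠ 0 := by
      rw [(h0 t).h, add_sub_cancel, det_one]
      exact one_ne_zero
    exact ((ca_det (((a2.mul a1).add (a1.mul (cD t ht))).add a3)).eventually_ne a4).and
      ((ca_det ((((cD t ht).mul a1).add (a1.mul a2)).add a3)).eventually_ne a4)
  filter_upwards [key] with s hs r f hf
  rcases isEmpty_or_nonempty Y.T with _ | ⟨⟨t⟩⟩
  · exact subsingleton_series.elim _ _
  obtain ⟨g, hg⟩ := hG t
  obtain ⟨H', hH⟩ := hf (g • t)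
  obtain rfl : r = r0 := by
    rw [← f.rk (g • t), ← f0.rk (g • t)]
    exact le_antisymm (finrank_le_of_inj (fun v hv => hty_mem (h0 _) (h0 _) hv.1)
      fun v => hty_inj (hs _ hg).1) (finrank_le_of_inj (fun v hv => hty_mem (h0 _) hH hv.1)
        fun v => hty_inj (hs _ hg).2)
  refine chc_of_inj f f0 (fun t v hv => hv.1) (c0.mul cH) eP
    (fun t v hv => hty_mem (h0 _) (h0 _) hv.1) fun t v hv e => ?_
  obtain ⟨g, hg⟩ := hG t
  have h1 := hty_inj (hs _ hg).1 (f.iv g t v hv) (by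
    rw [eP.mulVec g t hv.1, show (D s0 t * H t) *ᵥ v = 0 from e]
    exact funext fun _ => mul_zero _)
  exact funext fun i => (mul_eq_zero.1 (congrFun h1 i)).resolve_left
    (zpow_ne_zero _ (χ g).ne_zero)

end near

section cubic

variable {F W : S6} {p : ι → ℤ} {d : Matrix ι ι S6} {Φ : Per.V → Per.V}

theorem hty_eqv (c : Cu W) (hd : d ∈ MM p p 3) {a : ℂ} (ha : a ≠ 0) (x : Fin 6 → ℂ) (i j : ι)
    (hj : 2 ∣ p j + 0) : (evM (a • x) d * hoM W d (a • x)) i j * a ^ wt (p j) =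
      a ^ wt (p i) * (evM x d * hoM W d x) i j := by
  have h1 : ∀ k, eval (a • x) (pderiv k W) = a ^ 2 * eval x (pderiv k W) := fun k =>
    Hdg.eval_smul_of_hom (c.hom.pderiv (i := k)) a x
  have h2 : ∀ k, eval (a • x) ((d * d.map (pderiv k)) i j) * a ^ wt (p j) =
      a ^ (wt (p i) + 2) * eval x ((d * d.map (pderiv k)) i j) := fun k => by
    refine hg_eval (n := 4 + p j - p i) ?_ ha x fun e => ?_
    · rw [Matrix.mul_apply]
      exact hga_sum _ fun l _ => hga_mul' (hd i l) (hg_pderiv (hd l j) k) (by omega)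
    · have := wt_even (a := p j) (by omega)
      have := wt_even (a := p i) (by omega)
      omega
  have h3 : ∀ y, (evM y d * hoM W d y) i j =
      (∑ k, (starRingEnd ℂ (eval y (pderiv k W)) * eval y (pderiv k W)))⁻¹ *
        ∑ k, starRingEnd ℂ (eval y (pderiv k W)) * eval y ((d * d.map (pderiv k)) i j) := by
    intro y
    rw [hoM, Matrix.mul_smul, Finset.mul_sum, Matrix.smul_apply, Matrix.sum_apply, smul_eq_mul]
    congr 1
    refine Finset.sum_congr rfl fun k _ => ?_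
    rw [Matrix.mul_smul, ← evM_mul]
    rfl
  have h4 : starRingEnd ℂ a ≠ 0 := (map_ne_zero _).2 ha
  have h5 : ∑ k, starRingEnd ℂ (eval (a • x) (pderiv k W)) * eval (a • x) (pderiv k W) =
      starRingEnd ℂ a ^ 2 * a ^ 2 *
        ∑ k, starRingEnd ℂ (eval x (pderiv k W)) * eval x (pderiv k W) := by
    rw [Finset.mul_sum]
    exact Finset.sum_congr rfl fun k _ => by rw [h1, map_mul, map_pow]; ring
  have h6 : (∑ k, starRingEnd ℂ (eval (a • x) (pderiv k W)) *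
      eval (a • x) ((d * d.map (pderiv k)) i j)) * a ^ wt (p j) = starRingEnd ℂ a ^ 2 * a ^ 2 *
        (a ^ wt (p i) * ∑ k, starRingEnd ℂ (eval x (pderiv k W)) *
          eval x ((d * d.map (pderiv k)) i j)) := by
    rw [Finset.sum_mul, Finset.mul_sum, Finset.mul_sum]
    refine Finset.sum_congr rfl fun k _ => ?_
    rw [mul_assoc, h2, h1, map_mul, map_pow, zpow_add₀ ha, zpow_ofNat]
    ring
  rw [h3, h3, mul_assoc, h6, h5, mul_inv]
  field_simp

variable {T : Type} [TopologicalSpace T] [Nice T]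

theorem hty_kun (c : Cu W) (T : Type) [TopologicalSpace T] [Nice T] : Dn.Kun T (XF W) :=
  haveI := isAct
  haveI := c.qm.fp
  haveI := c.qm.cpt
  haveI := c.qm.pd.fin
  haveI : Nice (XF W) := inferInstanceAs (Nice c.Y.X)
  Dn.kun T _

theorem hty_prK_mul (c : Cu W) (a : H T) (b : H (XF W)) :
    prK T W (H.map .fst a * H.map .snd b) = H.map .fst a * H.map .snd (pr4 W b) := by
  rw [prK, dif_pos (hty_kun c T), ← Dn.kmap_tmul, LinearMap.comp_apply, LinearMap.comp_apply,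
    LinearEquiv.coe_coe, LinearEquiv.ofBijective_symm_apply_apply, LinearMap.lTensor_tmul,
    Dn.kmap_tmul]

theorem hty_pr4 (c0 : Cu F) (c : Cu W) (τ : Per.Tr F W Φ) (b : H (XF W)) :
    H.map τ.φ (pr4 W b) = pr4 F (H.map τ.φ b) := by
  obtain ⟨h1, h2, -⟩ := Per.stTop (F := F) (F' := W) ⟨c0.hom, c0.sm⟩ ⟨c.hom, c.sm⟩ τ
  have h3 : ∀ y, JF F (H.map τ.φ y) = JF W y := h2
  have h4 : ∀ (z : ℂ) y, H.map τ.φ (z • y) = z • H.map τ.φ y := map_smul (H.mapA τ.φ)
  simp only [pr4, LinearMap.sub_apply, LinearMap.smulRight_apply, LinearMap.smul_apply,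
    LinearMap.comp_apply, LinearMap.mulRight_apply, map_sub, h4, map_pow, h1, H.comp_map]
  rw [← h3, map_mul, map_pow, h1]

theorem hty_prK (c0 : Cu F) (c : Cu W) (τ : Per.Tr F W Φ) (y : H (T × XF W)) :
    H.map (Dn.xm T τ.φ) (prK T W y) = prK T F (H.map (Dn.xm T τ.φ) y) :=
  (hty_kun c T).ext (f := (H.map _).toAddMonoidHom.comp (prK T W).toAddMonoidHom)
    (g := (prK T F).toAddMonoidHom.comp (H.map _).toAddMonoidHom) (fun a b => by
      show H.map _ (prK T W _) = prK T F (H.map _ _)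
      rw [hty_prK_mul c, Dn.map_pm, Dn.map_pm, hty_prK_mul c0, hty_pr4 c0 c]) y

theorem hty_fam [PreconnectedSpace T] (U : Fm W T) (c : Cu W) :
    ∃ r, Fam (Y := Dn.prS (.triv T) c.Y) ((Dn.pr2 _ c.Y).chr c.χ) (fun i => wt (U.q i))
      (fun x => Vf (fun i => 2 ∣ U.q i + 0) (U.e x.1) (evM (c.x x.2) (U.D x.1))) r := by
  haveI := c.conn
  have h : EF (.triv T) W U.q U.e U.D := ⟨U.pf, fun _ _ => rfl, fun _ _ => rfl, ‹_›⟩
  have cx : Continuous fun x : T × c.Y.T => c.x x.2 := c.x_cont.comp continuous_snd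
  have h1 : PF (fun _ : T × c.Y.T => W) U.q (fun x => U.e x.1) fun x => U.D x.1 :=
    U.pf.comp continuous_fst
  have h2 := Fib.rank (T := T × c.Y.T) (p := U.q) (e := fun x => U.e x.1)
    (D := fun x => evM (c.x x.2) (U.D x.1)) (H := fun x => hoM W (U.D x.1) (c.x x.2))
    (fun t => pf_fib (U.pf.pf t.1) c.sm (c.x_mem t.2).1 (c.x_mem t.2).2) (pf_contD h1 cx)
    (pf_contH h1 cx c.sm fun t => (c.x_mem t.2).1) 0
  refine ⟨_, fam_Vf (Y := Dn.prS (.triv T) c.Y) (w' := fun i => wt (U.q i) + 3)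
    (e := fun x => U.e x.1) (D := fun x => evM (c.x x.2) (U.D x.1)) h1.ce (pf_contD h1 cx)
    (h.eqm_e (Dn.pr1 _ c.Y) _ wt) (h.eqm_d (Dn.pr1 _ c.Y) (x := fun x => c.x x.2)
      (fun g t => rfl) fun i j hj u => ?_) (iSup_rk h2)⟩
  have := wt_even (a := U.q j) (by omega)
  have := wt_odd (a := U.q i) (by omega)
  omega

variable {B : Type} [TopologicalSpace B] {w : B → S6} {e : T → Matrix ι ι ℂ}
  {D : T × B → Matrix ι ι S6}

theorem hty_chV [CompactSpace T] [PreconnectedSpace T] (c0 : Cu F)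
    (h : PF (fun x : T × B => w x.2) p (fun x => e x.1) D) {Φ : B → Per.V → Per.V} {b₀ : B}
    (cΦ : ∀ x ∈ Pub.cone F, ContinuousAt (fun y : B × Per.V => Φ y.1 y.2) (b₀, x))
    (c : Cu (w b₀)) (τ₀ : Per.Tr F (w b₀) (Φ b₀)) :
    ∀ᶠ b in 𝓝 b₀, ∀ (c' : Cu (w b)) (τ : Per.Tr F (w b) (Φ b)),
      pS (Dn.xm T τ.φ) ((slF h b).chV c') = pS (Dn.xm T τ₀.φ) ((slF h b₀).chV c) := by
  let Y := Dn.prS (.triv T) c0.Y
  let m := fun {b} (c' : Cu (w b)) (τ : Per.Tr F (w b) (Φ b)) =>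
    Dn.prM (Mor.id (.triv T)) (mor c0 c' τ)
  have hm : ∀ {b} (c' : Cu (w b)) (τ : Per.Tr F (w b) (Φ b)) g,
      (Dn.pr2 _ c'.Y).chr c'.χ ((m c' τ).ρ g) = (Dn.pr2 _ c0.Y).chr c0.χ g :=
    fun c' τ g => mor_χ c0 c' τ g.2
  have hv : ∀ {b} (c' : Cu (w b)) (τ : Per.Tr F (w b) (Φ b)) {r}
      (f : Fam (Y := Dn.prS (.triv T) c'.Y) ((Dn.pr2 _ c'.Y).chr c'.χ) (fun i => wt (p i))
        (fun x => Vf (fun i => 2 ∣ p i + 0) (e x.1) (evM (c'.x x.2) (D (x.1, b)))) r),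
      (fam_pb (m c' τ) (hm c' τ) f).vb.chc = pS (Dn.xm T τ.φ) ((slF h b).chV c') :=
    fun c' τ r f => (chc_fam_pb (m c' τ) (hm c' τ) f).trans (congrArg₂ (fun φ y => pS φ y)
      ((Dn.prM_id _).trans (congrArg (Dn.xm T) (mor_map c0 c' τ))) (hty_chF f).symm)
  have cx : Continuous fun t : Y.T => Φ b₀ (c0.x t.2) :=
    (c.x_cont.comp (mor c0 c τ₀).cf).comp continuous_snd
  have hx : ∀ t : Y.T, Φ b₀ (c0.x t.2) ∈ Pub.cone (w b₀) := fun t =>
    c.x_mem ((mor c0 c τ₀).f t.2)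
  have h0 : PF (fun _ : Y.T => w b₀) p (fun t => e t.1) fun t => D (t.1, b₀) :=
    h.comp (f := fun t : Y.T => (t.1, b₀)) (continuous_fst.prodMk continuous_const)
  have cE : Continuous fun y : (T × B) × Per.V => evM y.2 (D y.1) :=
    continuous_matrix fun i j => Fa.continuous_eval (fun y : (T × B) × Per.V => (h.pf y.1).deg i j)
      (((continuous_hg fun y => (h.pf y).deg i j).2 (h.cd i j)).comp continuous_fst) continuous_snd
  obtain ⟨r0, f0⟩ := hty_fam (slF h b₀) c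
  have := hty_near (Y := Y) (χ := (Dn.pr2 _ c0.Y).chr c0.χ) (w := fun i => wt (p i)) (s0 := b₀)
    (K := univ ×ˢ {t : c0.Y.T | ‖c0.x t‖ = 1}) ((isCompact_univ (X := T)).prod (isCompact_sph c0))
    (fun t => (exists_sph c0 t.2).elim fun g k => ⟨(1, g), trivial, k⟩) (p := p)
    (e := fun t => e t.1) h0.ce (D := fun b t => evM (Φ b (c0.x t.2)) (D (t.1, b)))
    (fun t _ => ContinuousAt.comp (f := fun q : B × Y.T => ((q.2.1, q.1), Φ q.1 (c0.x q.2.2)))
      (x := (b₀, t)) cE.continuousAt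
      ((continuous_snd.fst.prodMk continuous_fst).continuousAt.prodMk (ContinuousAt.comp
        (f := fun q : B × Y.T => (q.1, c0.x q.2.2)) (x := (b₀, t)) (cΦ _ (c0.x_mem t.2))
        (continuous_fst.prodMk (c0.x_cont.comp continuous_snd.snd)).continuousAt)))
    (H := fun t => hoM (w b₀) (D (t.1, b₀)) (Φ b₀ (c0.x t.2)))
    (pf_contH h0 cx c.sm fun t => (hx t).1)
    (fun t => pf_fib (h0.pf t) c.sm (hx t).1 (hx t).2) (pf_contD h0 cx) (fun g t i j hj => by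
      have h1 := hty_eqv c (h0.pf t).deg (c0.χ g.2).ne_zero (Φ b₀ (c0.x t.2)) i j hj
      rw [← τ₀.eq _ _ (c0.χ g.2).ne_zero (c0.x_mem t.2).1, ← c0.x_smul] at h1
      exact h1) (fam_pb (m c τ₀) (hm c τ₀) f0)
  filter_upwards [this] with b hb c' τ
  obtain ⟨r, f⟩ := hty_fam (slF h b) c'
  have k := fun t : Y.T => c'.x_mem ((mor c0 c' τ).f t.2)
  exact (hv c' τ f).symm.trans ((hb _ (fam_pb (m c' τ) (hm c' τ) f)
    fun t => ⟨_, pf_fib (h.pf (t.1, b)) c'.sm (k t).1 (k t).2⟩).trans (hv c τ₀ f0))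

/-- **The class of a family is locally constant.** -/
theorem hty0 [CompactSpace T] [PreconnectedSpace T] (c0 : Cu F)
    (h : PF (fun x : T × B => w x.2) p (fun x => e x.1) D) {Φ : B → Per.V → Per.V} {b₀ : B}
    (cΦ : ∀ x ∈ Pub.cone F, ContinuousAt (fun y : B × Per.V => Φ y.1 y.2) (b₀, x))
    (c : Cu (w b₀)) (τ₀ : Per.Tr F (w b₀) (Φ b₀)) :
    ∀ᶠ b in 𝓝 b₀, ∀ (c' : Cu (w b)) (τ : Per.Tr F (w b) (Φ b)) (j : ℕ),
      trK τ.φ ((slF h b).kap c' j) = trK τ₀.φ ((slF h b₀).kap c j) := by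
  filter_upwards [hty_chV c0 h cΦ c τ₀] with b hb c' τ j
  refine Prod.ext rfl ?_
  refine (hty_prK c0 c' τ _).trans (((congrArg (prK T F) ?_)).trans (hty_prK c0 c τ₀ _).symm)
  exact congrArg (fun y => (PowerSeries.coeff (j + 2) y).1) (hb c' τ)

/-- the same along the identifications of the period map -/
theorem hty [CompactSpace T] [PreconnectedSpace T] {hF : Per.Sm F} {E : Type}
    [NormedAddCommGroup E] [NormedSpace ℂ E] {P : E →ₗ[ℂ] S6} {r : ℝ} {Φ : E → Per.V → Per.V}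
    {σ : E → H (XF F)} {η : E → E →ₗ[ℂ] H (XF F)} (k : Per.PM hF P r Φ σ η) {s : B → E} {b₀ : B}
    (cs : ContinuousAt s b₀) (h₀ : s b₀ ∈ ball (0 : E) r)
    (h : PF (fun x : T × B => F + P (s x.2)) p (fun x => e x.1) D) (c : Cu (F + P (s b₀))) :
    ∀ᶠ b in 𝓝 b₀, ∀ (hb : s b ∈ ball (0 : E) r) (c' : Cu (F + P (s b))) (j : ℕ),
      trK (k.tr _ hb).φ ((slF (w := fun b => F + P (s b)) h b).kap c' j) =
        trK (k.tr _ h₀).φ ((slF (w := fun b => F + P (s b)) h b₀).kap c j) := by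
  filter_upwards [hty0 (w := fun b => F + P (s b)) ⟨hF.hom, hF.sm⟩ h (Φ := fun b => Φ (s b))
    (fun x hx => ContinuousAt.comp (f := fun y : B × Per.V => (y.2, s y.1)) (x := (b₀, x))
      (k.fam _ h₀ x hx.1).continuousAt (continuousAt_snd.prodMk cs.fst')) c (k.tr _ h₀)]
    with b hb h1 c' j
  exact hb c' (k.tr _ h1) j

end cubic

/-- **HTY** -/
theorem stHty : StHty := fun _ _ _ _ _ _ k _ _ _ _ _ _ _ b₀ _ hs cs _ _ _ _ _ _ hD c =>
  (hty k cs.continuousAt (hs b₀) hD (c b₀)).mono fun b h j => h (hs b) (c b) j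

end Vale.Agent.P287T.Psi
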