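import Vale.Agent.P287T.Psi.St
import Vale.Agent.P287T.Gl.Gy

/-!
# The Mukai map of the moduli surface: the classes of the line bundles
-/

noncomputable section

namespace Vale.Agent.P287T.Psi

open Set MvPolynomial P291Z P269 P287Q P287Q.Cub P287Q.Zc P287T.Cy P287T.Rr P287T.Top P287T.Cl
  P287T.Au P287T.Gl

theorem rank_rk1 {ν n : ℕ} {Z : Set (Fin ν → ℂ)} {I J : Type} [Fintype I] [Fintype J]
    {f : Matrix I J (MvPolynomial (Fin ν) ℂ)} (h : Rk1 Z n f) {z : Fin ν → ℂ} (hz : z ∈ Z) :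
    (f.map (eval z)).rank = 1 := by
  classical
  obtain ⟨s, t, hs, ht, e⟩ := h.rk z hz
  rw [show f.map (eval z) = Matrix.vecMulVec s t from Matrix.ext e]
  refine le_antisymm (Matrix.rank_vecMulVec_le s t) (Nat.one_le_iff_ne_zero.2 fun k => ?_)
  obtain ⟨i, hi⟩ := Function.ne_iff.1 hs
  obtain ⟨j, hj⟩ := Function.ne_iff.1 ht
  have := congrFun (LinearMap.congr_fun (LinearMap.range_eq_bot.1 (Submodule.finrank_eq_zero.1 k))
    (Pi.single j 1)) i
  simp only [Matrix.mulVecLin_apply, Matrix.mulVec_single_one, Matrix.col_apply,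
    Matrix.vecMulVec_apply] at this
  exact mul_ne_zero hi hj this

theorem gy_unit {ν n : ℕ} {Z : Set (Fin ν → ℂ)} (h : PV (π₀ (Fin ν)) Z n) :
    Rk1 Z 1 (Matrix.of fun (_ : Unit) j => X j) ∧
      Gl.Cls Z (Matrix.of fun (_ : Unit) j => X j) (hZ Z) := by
  obtain ⟨h1, h2⟩ := stGy ν n Z h
  refine ⟨⟨fun _ j => h1.hom 0 j, fun z hz => ?_⟩, fun Y a E E' A hE hE' hA hr =>
    h2 Y a E E' A hE hE' hA fun t => ?_⟩
  · obtain ⟨s, t, hs, ht, e⟩ := h1.rk z hz
    exact ⟨fun _ => s 0, t, fun k => hs (funext fun i => by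
      rw [Subsingleton.elim i 0]; exact congrFun k ()), ht, fun _ j => e 0 j⟩
  · obtain ⟨z, e, k⟩ := hr t
    exact ⟨z, e, fun u => (k u).trans ⟨fun k _ => k (), fun k _ => k 0⟩⟩

/-- **LEF** -/
theorem stLef (hg : StGl) (hc : StCol) : StLef := by
  rintro W c C G ⟨E, h1, h2, h3⟩
  obtain ⟨y1, y2⟩ := gy_unit C.pv
  have k1 : ∀ m : ℤ, G.ψ c (vc (clE c (E (m + 1)))) = G.ψ c (vc (clE c (E m))) + hZ C.Z :=
    fun m => let ⟨a, ha⟩ := h2 m
      sub_eq_iff_eq_add'.1 (hc W c C G _ _ _ _ a 1 _ _ (h1 _).lb (h1 _).lb ha y1 y2)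
  have k2 : ∀ m : ℤ, G.ψ c (vc (clE c (E m))) = G.ψ c (vc (clE c (E 0))) + (m : ℂ) • hZ C.Z :=
    fun m => by
    induction m using Int.induction_on with
    | zero => rw [Int.cast_zero, zero_smul, add_zero]
    | succ m ih => rw [k1, ih, Int.cast_add, Int.cast_one, add_smul, one_smul, add_assoc]
    | pred m ih =>
      have := k1 (-m - 1)
      rw [sub_add_cancel, ih] at this
      rw [Int.cast_sub, Int.cast_one, sub_smul, one_smul, ← add_sub_assoc, this,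
        add_sub_cancel_right]
  refine ⟨_, h1 0, fun l hl hs => ?_⟩
  obtain ⟨a, b, n, k, f, f1, f2⟩ := hg _ _ C.pv C.cn (-l) (neg_mem hl) fun w hw => by
    rw [neg_mul, map_neg, neg_eq_zero, (mem_Lk.1 hl).2.commute even_two]
    exact hs w hw
  obtain ⟨L, u, l1, l2⟩ := h3 n f f1.hom (fun v hv => rank_rk1 f1 hv) (k - n)
  refine ⟨L, l1, ?_⟩
  have := hc W c C G _ _ _ _ u n f _ (h1 _).lb l1.lb l2 f1 f2
  rw [k2, sub_add_cancel, Int.cast_natCast, sub_eq_iff_eq_add', ← add_assoc,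
    add_left_inj] at this
  rw [this, neg_add_cancel_right]

end Vale.Agent.P287T.Psi
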