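import Vale.Agent.P287T.Psi.M1a
import Vale.Agent.P287T.Rb.Rh

/-!
# The complex of maps, cut in degree two, as a complex of bundles
-/

set_option linter.unusedSectionVars false

namespace Vale.Agent.P287T.Psi

open Set Function Filter Module Matrix P291Z P269 P269.Ch P269.Grr P287T.Rr P287T.Cy P287T.Fa
  P287T.Rb

variable {ι κ : Type} [Fintype ι] [Fintype κ]

/-- the terms -/
noncomputable def F2 (p : ι → ℤ) (e : Matrix ι ι ℂ) (d : Matrix ι ι S6) (q : κ → ℤ)
    (f : Matrix κ κ ℂ) (d' : Matrix κ κ S6) : ℕ → Submodule ℂ (Matrix κ ι S6)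
  | 0 => ZP p e d q f d' 6
  | i + 1 => MP p e q f (3 - 3 * i)

theorem sum_flip {R : Type} [CommRing R] (c : ℤ → R) (K : ℕ) :
    ∑ k ∈ Finset.Ico (-K : ℤ) 2, (k.negOnePow : ℤ) * c (3 * k) =
      ∑ i ∈ Finset.range (K + 2), (-1) ^ (i + 1) * c (3 - 3 * i) := by
  refine (Finset.sum_nbij' (fun i : ℕ => 1 - (i : ℤ)) (fun k => (1 - k).toNat) ?_ ?_ ?_ ?_ ?_).symm
  · simp only [Finset.mem_range, Finset.mem_Ico]; omega
  · simp only [Finset.mem_range, Finset.mem_Ico]; omega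
  · simp
  · simp only [Finset.mem_Ico]; omega
  · intro i _
    rw [Int.negOnePow_sub, Units.val_mul, Int.cast_mul, neg_nat, pow_succ', mul_sub, mul_one]
    simp

section pt

variable {W : S6} {p : ι → ℤ} {e : Matrix ι ι ℂ} {d : Matrix ι ι S6} {q : κ → ℤ} {f : Matrix κ κ ℂ}
  {d' : Matrix κ κ S6} (hd : IsPF W p e d) (hd' : IsPF W q f d')
include hd hd'

theorem F2_map (i : ℕ) :
    (F2 p e d q f d' (i + 1)).map (θ p d d') = BP p e d q f d' (3 * (2 - i)) :=
  (map_θ hd hd').trans (congrArg _ (by ring))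

omit hd hd' in
theorem F2_zy {i : ℕ} {g : Matrix κ ι S6} (h : g ∈ F2 p e d q f d' i)
    (h' : i = 0 ∨ θ p d d' g = 0) : g ∈ ZP p e d q f d' (3 * (2 - i)) := by
  cases i with
  | zero => exact h
  | succ i =>
    rw [show (3 * (2 - (i + 1 : ℕ)) : ℤ) = 3 - 3 * i by push_cast; ring]
    exact MP_ker.le ⟨h, h'.resolve_left i.succ_ne_zero⟩

end pt

variable {B B' : Ch.Sp} {W : S6} {p : ι → ℤ} {e : B.T → Matrix ι ι ℂ} {d : B.T → Matrix ι ι S6}
  {q : κ → ℤ} {f : B.T → Matrix κ κ ℂ} {d' : B.T → Matrix κ κ S6} {K : ℕ}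
  (hE : EF B W p e d) (hF : EF B W q f d') (hs : Sm W) (m : Mor B' B)
  (h : ∀ t (k : ℤ), 2 < k → ZP p (e (m.f t)) (d (m.f t)) q (f (m.f t)) (d' (m.f t)) (3 * k) ≤
    BP p (e (m.f t)) (d (m.f t)) q (f (m.f t)) (d' (m.f t)) (3 * k))
include hE hF hs h

theorem isB_dn {k : ℤ} (hk : 2 ≤ k) :
    IsB (tv B' _) fun t => ZP p (e (m.f t)) (d (m.f t)) q (f (m.f t)) (d' (m.f t)) (3 * k) := by
  have h0 := bd_nonneg hE hF p q
  rcases le_total (bd p q + 7) k with h1 | h1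
  · exact ((isB_ZP hE hF hs (by omega)).pb m).1
  induction k, h1 using Int.leInductionDown with
  | base => exact ((isB_ZP hE hF hs (by omega)).pb m).1
  | pred k _ ih =>
    refine isB_of_rk hE hF m fun t t' => ?_
    have h1 := fun t => finrank_seq (hE.pf.pf (m.f t)) (hF.pf.pf (m.f t)) (a := 3 * (k - 1))
    have h5 := (ih (by omega)).rank t t'
    have h6 := (isB_MP hE hF (3 * (k - 1))).rank (m.f t) (m.f t')
    rw [show 3 * (k - 1) + 3 = 3 * k by ring] at h1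
    have h2 := h1 t
    have h3 := h1 t'
    have := P287Z.T.hq_subsingleton (h t k (by omega))
    have := P287Z.T.hq_subsingleton (h t' k (by omega))
    rw [finrank_zero_of_subsingleton (M := HP _ _ _ _ _ _ _)] at h2 h3
    omega

/-- **the complex of bundles** -/
theorem exists_cx2 [Nonempty B'.T] (hK : bd p q + 7 ≤ 3 * K) : ∃ (X : Cx B') (j : _),
    Mc X (fun i t => F2 p (e (m.f t)) (d (m.f t)) q (f (m.f t)) (d' (m.f t)) i)
      (fun t => θ p (d (m.f t)) (d' (m.f t))) j ∧ X.chi = pS m.map (RH hE hF K) ∧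
    ∀ t, (∀ k : ℤ, ZP p (e (m.f t)) (d (m.f t)) q (f (m.f t)) (d' (m.f t)) (3 * k) ≤
      BP p (e (m.f t)) (d (m.f t)) q (f (m.f t)) (d' (m.f t)) (3 * k)) → X.Ex t := by
  have h0 := bd_nonneg hE hF p q
  have k : ∀ i, HM (tv B' _) (fun t => F2 p (e (m.f t)) (d (m.f t)) q (f (m.f t)) (d' (m.f t))
      (i + 1)) (tv B' _) (fun t => F2 p (e (m.f t)) (d (m.f t)) q (f (m.f t)) (d' (m.f t)) i)
        fun t => θ p (d (m.f t)) (d' (m.f t)) := fun i => by
    cases i with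
    | zero => exact hm_pb hE hF m 3
    | succ i =>
      refine (hm_pb hE hF m _).mono (fun _ => le_rfl) fun t g hg => ?_
      have := ((hm_pb hE hF m _).mem t g hg).1
      rwa [show (3 - 3 * (i + 1 : ℕ) + 3 : ℤ) = 3 - 3 * i by push_cast; ring] at this
  obtain ⟨X, j, -, h1, h2, h3, h4⟩ := exists_cx (F := fun i t => F2 p (e (m.f t)) (d (m.f t)) q
    (f (m.f t)) (d' (m.f t)) i) (fun i => by
      cases i with
      | zero => exact isB_dn hE hF hs m h (k := 2) le_rfl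
      | succ i => exact ((isB_MP hE hF _).pb m).1) k
    (fun i t g hg => (MP_ker.ge ((hm_pb hE hF m (3 - 3 * (i + 1 : ℕ))).mem t g hg)).2) (K + 2)
    fun i hi t g hg => by
      obtain ⟨i, rfl⟩ : ∃ n, i = n + 1 := ⟨i - 1, by omega⟩
      exact MP_eq_zero (a := 3 - 3 * i) (by omega) hg
  refine ⟨X, j, ⟨h1, fun i t w hw => h2 i ▸ (h1 _).j_tr (h1 i) (k i) hw⟩, ?_,
    fun t ht => (h4 t).2 fun i g hg h0 =>
      (F2_map (hE.pf.pf _) (hF.pf.pf _) i).ge (ht _ (F2_zy hg h0))⟩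
  rw [h3, RH_map hE hF hs m hK, rh_cut _ _ (n := 2) (by omega) (by omega),
    sum_flip fun a => ch (tv B' _) fun t => MP p (e (m.f t)) q (f (m.f t)) a, Finset.sum_range_succ', Finset.sum_eq_zero (s := Finset.Ico 2 _) fun k hk =>
      mul_eq_zero_of_right _ (step hE hF m (isB_dn hE hF hs m h (Finset.mem_Ico.1 hk).1) ?_
        fun t => ?_), add_zero, pow_zero]
  · exact congrArg₂ _ rfl (congrArg₂ _ Int.cast_one.symm rfl)
  · simpa only [mul_add, mul_one] using
      isB_dn hE hF hs m h (k := k + 1) (by have := Finset.mem_Ico.1 hk; omega)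
  · simpa only [mul_add, mul_one] using h t (k + 1) (by have := Finset.mem_Ico.1 hk; omega)

end Vale.Agent.P287T.Psi
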