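import Vale.Agent.P287T.Psi.Rp
import Vale.Agent.P287T.Gl.St
import Vale.Agent.P287Q.Cub.N0
import Vale.Agent.P287Q.Pv.Slc

/-!
# The character of a complex which resolves a point of a surface
-/

set_option linter.style.haveILetI false

namespace Vale.Agent.P287T.Psi

open Set Filter Topology P291Z P269 P269.Holo P269.Tq P269.Ch P269.Grr P287Q P287Q.Cub P287T.Gl
  PowerSeries

variable {ν : ℕ} {Z : Set (Fin ν → ℂ)} {s : Fin ν → ℂ}

/-- the punctured line -/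
def Lne (s : Fin ν → ℂ) : Set (Fin ν → ℂ) := {x | x ≠ 0 ∧ ∃ c : ℂ, x = c • s}

theorem ust_iff {x : Fin ν → ℂ} : x ∈ Ust (π₀ (Fin ν)) ↔ x ≠ 0 :=
  ⟨fun h e => let ⟨j, _, k⟩ := h (); k (congrFun e j),
    fun h _ => let ⟨j, k⟩ := Function.ne_iff.1 h; ⟨j, rfl, k⟩⟩

theorem Lne_sub (h : MC (π₀ (Fin ν)) Z) (hs : s ∈ Z) : Lne s ⊆ Z := by
  rintro _ ⟨h0, c, rfl⟩
  exact h.inv (fun _ => c) (Pi.isUnit_iff.2 fun _ => (left_ne_zero_of_smul h0).isUnit) s hs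

theorem pv_Lne (h : MC (π₀ (Fin ν)) Z) (hs : s ∈ Z) : PV (π₀ (Fin ν)) (Lne s) 0 := by
  obtain ⟨j, -, hj⟩ := h.sub hs ()
  refine ⟨h.of_closed (Z := (ℂ ∙ s : Submodule ℂ _)) (Submodule.closed_of_finiteDimensional _)
    (Set.ext fun x => ⟨fun k => ⟨Lne_sub h hs k, k.2.elim fun c e => Submodule.mem_span_singleton.2
      ⟨c, e.symm⟩⟩, fun k => ⟨ust_iff.1 (h.sub k.1), (Submodule.mem_span_singleton.1 k.2).imp
        fun _ e => e.symm⟩⟩) ?_, ?_⟩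
  · rintro t ht _ ⟨h0, c, rfl⟩
    exact ⟨smul_ne_zero (Pi.isUnit_iff.1 ht ()).ne_zero h0, t () * c, (mul_smul (t ()) c s).symm⟩
  · rintro _ ⟨h0, c, rfl⟩
    refine (Prm.of_inv (ψ := fun z : ℂ => z • s) (analyticAt_id.smul analyticAt_const)
      (w := fun u => u j / s j) (.of_an (((ContinuousLinearMap.proj j : (Fin ν → ℂ) →L[ℂ] ℂ).analyticAt
        _).div analyticAt_const hj)) ?_ (.of_forall ?_)).mfdAt (by simp)
    · filter_upwards [eventually_ne_nhds (left_ne_zero_of_smul h0)] with z e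
      exact ⟨⟨smul_ne_zero e (right_ne_zero_of_smul h0), z, rfl⟩, mul_div_cancel_right₀ _ hj⟩
    · rintro _ ⟨-, a, rfl⟩
      exact congrArg (· • s) (mul_div_cancel_right₀ _ hj)

/-- the cone over a surface as a space with a group action -/
noncomputable abbrev cnS (h : PV (π₀ (Fin ν)) Z 2) : Ch.Sp :=
  haveI := isAct_scl (π₀ (Fin ν))
  haveI := h.fp
  sp (scl (π₀ (Fin ν))) Z

/-- **A complex which resolves a point has the character of a point.** -/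
theorem rr_pt (h : PV (π₀ (Fin ν)) Z 2) (hs : s ∈ Z) (K : Cx (cnS h))
    (h1 : ∀ t : Z, t.1 ∉ Lne s → K.Ex t)
    (h2 : haveI := isAct_scl (π₀ (Fin ν))
      haveI := h.fp
      ∀ y : Z, y.1 ∈ Lne s → Kz K (Lne s) 2 y) :
    coeff 1 K.chi = 0 ∧ JZ Z (coeff 2 K.chi).1 = 1 := by
  have := isAct_scl (π₀ (Fin ν))
  have := h.fp
  have k := pv_Lne h.toMC hs
  have := k.fp
  have s0 : s ∈ Lne s := ⟨ust_iff.1 (h.sub hs), 1, (one_smul _ _).symm⟩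
  have e : ∀ x : Lne s, Quo.mk (scl (π₀ (Fin ν))) ⟨s, s0⟩ = Quo.mk _ x := fun x =>
    let ⟨h0, c, e⟩ := x.2
    Quot.sound ⟨fun _ => c, Pi.isUnit_iff.2 fun _ => (left_ne_zero_of_smul (e ▸ h0)).isUnit, e⟩
  have : Subsingleton (Quo (scl (π₀ (Fin ν))) (Lne s)) :=
    ⟨Sp.surjective_mk.forall₂.2 fun x y => (e x).symm.trans (e y)⟩
  obtain ⟨a, b⟩ := rr_sub (m := 0) (r := 2) h.qm k.qm (Lne_sub h.toMC hs) two_pos K h1 h2
  have c := b 1
  rw [mul_one, map_one] at c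
  exact ⟨a 1 one_lt_two, c.trans (N0_intg_one k.qm.dim ⟨s, s0⟩)⟩

end Vale.Agent.P287T.Psi
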