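import Vale.Agent.P287T.Psi.M1c
import Vale.Agent.P287T.Psi.M1x
import Vale.Agent.P287T.Psi.Rq
import Vale.Agent.P287T.Psi.Rh
import Vale.Agent.P287T.Psi.Map

/-!
# The class of the complex of maps from one member to the family is the class of a point
-/

set_option linter.unusedSectionVars false
set_option linter.style.haveILetI false

namespace Vale.Agent.P287T.Psi

open Set Filter Topology Module P291Z P269 P269.Ch P269.Grr P287Q P287Q.Cub P287T.Cy P287T.Fa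
  P287T.Au P287T.Rb P287T.Gl P287T.Rr P287T.Cl P287T.Top
open P287Z.T (HQ)

theorem hq_span2 {M : Type} [AddCommGroup M] [Module ℂ M] {Z B : Submodule ℂ M}
    (h : finrank ℂ (HQ Z B) = 2) {P Q : M} (hP : P ∈ Z) (hQ : Q ∈ Z)
    (n : ∀ a b : ℂ, a • P + b • Q ∈ B → a = 0 ∧ b = 0) {m : M} (hm : m ∈ Z) :
    ∃ a b : ℂ, m - (a • P + b • Q) ∈ B := by
  have h1 : LinearIndependent ℂ ![(Submodule.Quotient.mk ⟨P, hP⟩ : HQ Z B),
      Submodule.Quotient.mk ⟨Q, hQ⟩] := LinearIndependent.pair_iff.2 fun a b e =>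
    n a b ((Df.hq_mk_eq_zero (a • (⟨P, hP⟩ : Z) + b • (⟨Q, hQ⟩ : Z))).1 e)
  have h2 := h1.span_eq_top_of_card_eq_finrank (h.symm ▸ Fintype.card_fin 2)
  rw [Matrix.range_cons_cons_empty] at h2
  obtain ⟨a, b, e⟩ := Submodule.mem_span_pair.1 (h2.ge (Submodule.mem_top
    (x := Submodule.Quotient.mk ⟨m, hm⟩)))
  exact ⟨a, b, (Df.hq_mk_eq_zero ((⟨m, hm⟩ : Z) - (a • (⟨P, hP⟩ : Z) + b • (⟨Q, hQ⟩ : Z)))).1
    (sub_eq_zero.2 e.symm :)⟩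

variable {W : S6} {C : Cf W} {G : Gf C} {d d₀ : Matrix C.ι C.ι S6} {y : C.Z}

theorem Gf.rk (G : Gf C) (h₀ : IsMF W C.p d₀) (hd : d ∈ C.O y.1) (j : ℤ) :
    finrank ℂ (HQ (G.Zy d₀ y j) (G.Bd d₀ y j)) = finrank ℂ (HH C.p d₀ C.p d j) :=
  (Fm.at_const (G.U.pf.hW (Quo.mk _ y)) h₀ (Quo.mk _ y : SZ C.Z)).hp (G.fib y d hd) j

theorem Gf.le_of (G : Gf C) (hd : d₀ ∈ C.O y.1) {k : ℤ} (hk : k < 0 ∨ 2 < k) :
    G.Zy d₀ y (3 * k) ≤ G.Bd d₀ y (3 * k) :=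
  le_of_rank ((G.rk ((C.orb _ y.2).mf _ hd) hd _).trans (((C.orb _ y.2).dim _ hd k).trans
    (by rw [if_neg (by omega), if_neg (by omega)])))

theorem Gf.le_ne (G : Gf C) {s : C.Z} (hd : d₀ ∈ C.O s.1) (e : y.1 ∉ Lne s.1) (k : ℤ) :
    G.Zy d₀ y (3 * k) ≤ G.Bd d₀ y (3 * k) :=
  let ⟨_, h⟩ := (C.orb _ y.2).ne
  le_of_rank ((G.rk ((C.orb _ s.2).mf _ hd) h _).trans ((le_iff_hh _).1
    (C.ort _ s.2 _ y.2 (fun c h => e ⟨ust_iff.1 (C.pv.sub y.2), c, h⟩) _ hd _ h k)))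

theorem O_Lne {s : C.Z} (e : y.1 ∈ Lne s.1) : C.O y.1 = C.O s.1 :=
  let ⟨h, c, e⟩ := e
  e ▸ C.smul _ s.2 c (left_ne_zero_of_smul (e ▸ h))

theorem Cc.wc {T ι κ : Type} [TopologicalSpace T] [Fintype ι] [Fintype κ] {p : ι → ℤ} {q : κ → ℤ}
    {j : ℤ} {a : T → Matrix κ ι S6} {U : Set T} (h : ∀ x : U, Cc a x ∧ a x ∈ MM p q j) :
    WC fun x : U => a x :=
  wc_MM (fun x => (h x).2) fun i j m => continuous_iff_continuousAt.2 fun x =>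
    ((h x).1 i j m).comp continuous_subtype_val.continuousAt

/-- the local model at a point over `s` -/
theorem Kl.kz {Φ a w η} (h : Kl G d y Φ a w η) (hd : d ∈ C.O y.1) {s : C.Z} (h₀ : d₀ ∈ C.O s.1)
    (hy : y.1 ∈ Lne s.1) {X : Cx (cnS C.pv)} {j}
    (hX : Mc X (fun i (t : C.Z) => F2 C.p 1 d₀ G.U.q (G.U.e (Quo.mk _ t)) (G.U.D (Quo.mk _ t)) i)
      (fun t : C.Z => G.dd d₀ t) j) :
    haveI := isAct_scl (π₀ (Fin C.ν))
    haveI := C.pv.fp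
    Kz X (Lne s.1) 2 y := by
  rw [← O_Lne hy] at h₀
  have o := C.orb _ y.2
  obtain ⟨g, hg, g', hg', e1, e2, e3⟩ := (o.conj _ h₀ d).1 hd
  have z' : g' ∈ ZZ C.p d C.p d₀ 0 := ⟨hg', by
    rw [← mul_one (g' * d), ← e1, ← mul_assoc, mul_assoc g', ← e3, ← mul_assoc, e2, one_mul]⟩
  have t : ∀ x b, G.dd d₀ x (b * g) = G.dd d x b * g := fun x b => by
    have := mul_eps hg
    rw [sg, zpow_zero, one_smul] at this
    rw [θ_apply, θ_apply, Matrix.mul_assoc b, e3, Matrix.mul_assoc _ (eps _), ← this,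
      ← Matrix.mul_assoc, ← Matrix.mul_assoc, ← Matrix.mul_assoc, ← Matrix.sub_mul]
  have m : ∀ {x i b}, b ∈ G.M x i → b * g ∈ G.M x i := fun hb =>
    mem_MP (Fa.MM_mul hb.1 hg (add_zero _))
      (by rw [← Matrix.mul_assoc, MP.left hb (G.U.pf.pf _).ee]) (by rw [cM_one, Matrix.mul_one])
  have n : ∀ {i b}, b ∈ G.M y i → b * g ∈ G.Bd d₀ y i → b ∈ G.Bd d y i := fun hb k => ⟨hb, by
    have := bb_mul_zz k.2 z' (zero_add _)
    rwa [Matrix.mul_assoc, e1, Matrix.mul_one] at this⟩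
  obtain ⟨U, hU, oU, yU⟩ := eventually_nhds_iff.1 (h.ct.and (h.mem.and (h.d1.and h.d0)))
  have b := F2_map (Fa.IsMF.isPF (o.mf _ h₀)) (G.U.pf.pf (Quo.mk _ y))
  have r := fun k => (G.rk (o.mf _ h₀) h₀ (3 * k)).trans (o.dim _ h₀ k)
  obtain ⟨-, ⟨ma, mw, mη⟩, d1, d0⟩ := hU y yU
  have f0 : Φ y.1 = 0 := h.van.self_of_nhds ⟨1, (one_smul _ _).symm⟩
  have zw : ∀ x : U, w x * g ∈ G.Zy d₀ x 6 := fun x =>
    ⟨m (hU _ x.2).2.1.2.1.1, zz_mul (hU _ x.2).2.1.2.1.2 ⟨hg, e3.symm⟩ (zero_add _)⟩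
  have zη : ∀ i, η i y * g ∈ G.Zy d₀ y 3 := fun i => MP_ker.le ⟨m (mη i), (t _ _).trans (by
    rw [d1, f0, Pi.zero_apply, zero_smul, Matrix.zero_mul])⟩
  have za : a y * g ∈ G.Zy d₀ y 0 := MP_ker.le ⟨m ma, (t _ _).trans (by
    rw [d0, f0, Pi.zero_apply, Pi.zero_apply, zero_smul, zero_smul, sub_zero, Matrix.zero_mul])⟩
  have n0 : w y * g ∉ G.Bd d₀ y 6 := fun k => h.n2 (n mw.1 k)
  have n2 : a y * g ∉ G.Bd d₀ y 0 := fun k => h.n0 (n ma k)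
  have n1 : ∀ u v : ℂ, u • (η 0 y * g) + v • (η 1 y * g) ∈ G.Bd d₀ y 3 → u = 0 ∧ v = 0 :=
    fun u v k => by
      rw [← Matrix.smul_mul, ← Matrix.smul_mul, ← Matrix.add_mul] at k
      have := h.n1 ![u, v] (n (add_mem (Submodule.smul_mem _ _ (mη 0))
        (Submodule.smul_mem _ _ (mη 1))) k)
      exact ⟨congrFun this 0, congrFun this 1⟩
  refine ⟨Φ, _, hX.loc (U := U) oU ⟨y, yU⟩ (B := fun x : U => w x * g)
    (P := fun x : U => η 0 x * g) (Q := fun x : U => η 1 x * g) (L := fun x : U => a x * g) (f := fun x : C.Z => Φ x.1)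
    ((Cc.wc fun x => ⟨(hU _ x.2).1.2.1, (hU _ x.2).2.1.2.1.1.1⟩).mul_r (WC.const g) fun _ => hg)
    ((Cc.wc fun x => ⟨(hU _ x.2).1.2.2 0, ((hU _ x.2).2.1.2.2 0).1⟩).mul_r (WC.const g) fun _ => hg)
    ((Cc.wc fun x => ⟨(hU _ x.2).1.2.2 1, ((hU _ x.2).2.1.2.2 1).1⟩).mul_r (WC.const g) fun _ => hg)
    ((Cc.wc fun x => ⟨(hU _ x.2).1.1, (hU _ x.2).2.1.1.1⟩).mul_r (WC.const g) fun _ => hg)
    zw (fun x => m ((hU _ x.2).2.1.2.2 0)) (fun x => m ((hU _ x.2).2.1.2.2 1))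
    (fun x => m (hU _ x.2).2.1.1)
    (fun x => (t _ _).trans (by rw [(hU _ x.2).2.2.1, Matrix.smul_mul]))
    (fun x => (t _ _).trans (by rw [(hU _ x.2).2.2.1, Matrix.smul_mul]))
    (fun x => (t _ _).trans (by
      rw [(hU _ x.2).2.2.2, Matrix.sub_mul, Matrix.smul_mul, Matrix.smul_mul]))
    (fun c k => by_contra fun e => n0 ((Submodule.smul_mem_iff _ e).1 ((b 0).le k)))
    (fun u k => (Df.hq_span (r 2).le (zw ⟨y, yU⟩) n0 k).imp fun _ k => (b 0).ge k)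
    (fun u v k => n1 u v ((b 1).le k))
    (fun u k k' => (hq_span2 (r 1) (zη 0) (zη 1) n1 (F2_zy (i := 1) k (.inr k'))).imp fun _ k =>
      k.imp fun _ k => (b 1).ge k)
    (fun c k => by_contra fun e => n2 ((Submodule.smul_mem_iff _ e).1 ((b 2).le k)))
    (fun u k k' => (Df.hq_span (r 0).le za n2 (F2_zy (i := 2) k (.inr k'))).imp fun _ k =>
      (b 2).ge k)
    fun i u k k' => (b _).ge (G.le_of h₀ (.inl (by omega)) (F2_zy k (.inr k'))), h.an,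
    h.van.mono fun x k ⟨_, c, e⟩ => k ?_, fun u => tn_eq y.2 ▸ h.onto u⟩
  obtain ⟨h0, c', e'⟩ := hy
  exact ⟨c / c', by rw [e, e', smul_smul, div_mul_cancel₀ _ (left_ne_zero_of_smul (e' ▸ h0))]⟩

theorem muT_zero {T : Type} [TopologicalSpace T] (y : KV T W) : muT 0 y = 0 := by simp [muT]

/-- **M1** -/
theorem stM1_of (hR : StRH) (hA : StAt) (hK : StKo) : StM1 := fun W c C G v hv => by
  obtain ⟨⟨⟨s, d₀⟩, hs, h₀⟩⟩ := mem_ne C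
  haveI := nice C
  haveI := isAct_scl (π₀ (Fin C.ν))
  haveI := C.pv.fp
  haveI : ConnectedSpace C.Z := isConnected_iff_connectedSpace.1 C.cn
  haveI : ConnectedSpace (SZ C.Z) := Quot.mk_surjective.connectedSpace continuous_quot_mk
  have mf := (C.orb s hs).mf _ h₀
  have hW := G.U.pf.hW (Quo.mk _ ⟨s, hs⟩)
  let U := Fm.const hW mf (SZ C.Z)
  let m : Mor (cnS C.pv) (.triv (SZ C.Z)) := ⟨1, (cnS C.pv).π, continuous_const, (cnS C.pv).cont,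
    (cnS C.pv).π_smul⟩
  obtain ⟨K, ⟨k1, k2⟩, k3⟩ := (((hR W c _ U G.U 1).and (hR W c _ U G.U 2)).and
    (ev_K C.p G.U.q)).exists
  haveI : Nonempty (cnS C.pv).T := ⟨⟨s, hs⟩⟩
  obtain ⟨X, j, h1, h2, h3⟩ := exists_cx2 U.eft G.U.eft c.sm m (fun (t : C.Z) k hk => by
    by_cases e : t.1 ∈ Lne s
    exacts [G.le_of (O_Lne (s := ⟨s, hs⟩) e ▸ h₀) (.inr hk), G.le_ne (s := ⟨s, hs⟩) h₀ e k]) k3
  obtain ⟨a1, a2⟩ := rr_pt C.pv hs X (fun t e => h3 t (G.le_ne (s := ⟨s, hs⟩) h₀ e)) fun y e =>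
    let ⟨_, hd, _, _, _, _, k⟩ := stKl_of hK W c C G y
    k.kz hd (s := ⟨s, hs⟩) h₀ e h1
  have e : ∀ k, (PowerSeries.coeff k X.chi).1 = (PowerSeries.coeff k (RH U.eft G.U.eft K)).1 :=
    fun k => h2 ▸ H.map_id (X := SZ C.Z) (congrFun (m.map_eq (φ := id) fun _ => rfl).symm) _
  obtain ⟨b0, b1⟩ := hA W c (SZ C.Z) C.ι C.p d₀ mf
  have b2 : U.kap c 0 = cst _ W (vc v).1 := by
    rw [b0 U (Quo.mk _ ⟨s, hs⟩) (Fm.at_const hW mf _), ← hv ⟨(s, d₀), hs, h₀⟩]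
    exact congrArg _ (vc_val (P4_LT c (stMem c mf).1)).symm
  have b3 : ∀ k, rh (U.kap c) (G.U.kap c) k = psi (G.θ c k) (vc v) := fun k => by
    rw [rh, Finset.sum_range_succ', Finset.sum_eq_zero fun i _ => by
      rw [b1 hW, muT_zero, smul_zero], zero_add, pow_zero, one_smul, b2]
    rfl
  exact ⟨by rw [Gf.ψ, ← b3, ← k1, ← e, a1]; rfl, by rw [← b3, ← k2, ← e, a2]⟩

end Vale.Agent.P287T.Psi
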