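import Vale.Agent.P287T.Psi.Ko
import Vale.Agent.P269.Holo.Morse

/-!
# The local Koszul model: existence
-/

namespace Vale.Agent.P287T.Psi

open Set Filter Topology Module MvPolynomial P269.Holo P287Q P287Q.Cub P287Z.T P287T.Cy P287T.Df
  P287T.Au

theorem ko_cancel {E : Type*} [NormedAddCommGroup E] [NormedSpace ℂ E] {N : (Fin 2 → ℂ) → E}
    (i : Fin 2) (hc : AnalyticAt ℂ N 0) [CompleteSpace E] (h : ∀ᶠ y in 𝓝 0, y i • N y = 0) :
    ∀ᶠ y in 𝓝 0, N y = 0 := by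
  filter_upwards [hc.eventually_analyticAt, h.eventually_nhds] with y a b
  by_cases hy : y i = 0
  · have c : Continuous fun t : ℂ => y + t • (Pi.single i 1 : Fin 2 → ℂ) := by fun_prop
    have t : Tendsto (fun t : ℂ => y + t • (Pi.single i 1 : Fin 2 → ℂ)) (𝓝[≠] 0) (𝓝 y) := by
      simpa using (c.tendsto 0).mono_left (nhdsWithin_le_nhds (s := {0}ᶜ))
    refine tendsto_nhds_unique (a.continuousAt.tendsto.comp t) (tendsto_const_nhds.congr' ?_)
    filter_upwards [t.eventually b, self_mem_nhdsWithin] with s e hs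
    rw [Pi.add_apply, hy, Pi.smul_apply, Pi.single_eq_same, smul_eq_mul, mul_one, zero_add] at e
    exact ((smul_eq_zero.1 e).resolve_left hs).symm
  · exact (smul_eq_zero.1 b.self_of_nhds).resolve_left hy

theorem ko_div {E : Type*} [NormedAddCommGroup E] [NormedSpace ℂ E] [CompleteSpace E]
    {w : (Fin 2 → ℂ) → E} (hw : AnalyticAt ℂ w 0) : ∃ ξ η : (Fin 2 → ℂ) → E,
    AnalyticAt ℂ ξ 0 ∧ AnalyticAt ℂ η 0 ∧ (∀ v, w v = w ![0, v 1] + v 0 • ξ v) ∧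
      ∀ v, w ![0, v 1] = w 0 + v 1 • η v := by
  have a : ∀ i, AnalyticAt ℂ (fun v : Fin 2 → ℂ => v i) 0 := fun i =>
    (ContinuousLinearMap.proj (R := ℂ) (φ := fun _ : Fin 2 => ℂ) i).analyticAt 0
  have z : (![0, 0] : Fin 2 → ℂ) = 0 := by simp
  obtain ⟨g, g1, g2⟩ := exists_div (f := fun x : ℂ × ℂ => w ![x.1, x.2]) (w := 0)
    (hw.comp_of_eq (analyticAt_pi_iff.2 fun i => by
      fin_cases i
      exacts [analyticAt_fst, analyticAt_snd]) z)
  obtain ⟨k, k1, k2⟩ := exists_div (f := fun x : ℂ × ℂ => w ![0, x.1]) (w := 0)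
    (hw.comp_of_eq (analyticAt_pi_iff.2 fun i => by
      fin_cases i
      exacts [analyticAt_const, analyticAt_fst]) z)
  refine ⟨fun v => g (v 0, v 1), fun v => k (v 1, 0), g1.comp_of_eq ((a 0).prod (a 1)) rfl,
    k1.comp_of_eq ((a 1).prod analyticAt_const) rfl, fun v => ?_, fun v => ?_⟩
  · refine Eq.trans (congrArg w ?_) (g2 (v 0, v 1))
    ext i
    fin_cases i <;> rfl
  · exact (k2 (v 1, 0)).trans (by rw [z])

theorem ko_onto {U E : Type*} [AddCommGroup U] [Module ℂ U] [AddCommGroup E] [Module ℂ E]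
    {Z B : Submodule ℂ U} [Module.Finite ℂ Z] (K : E →ₗ[ℂ] U) (hK : ∀ v, K v ∈ Z)
    (hi : ∀ v, K v ∈ B → v = 0) (hd : finrank ℂ (HQ Z B) = finrank ℂ E) :
    ∀ z ∈ Z, ∃ v, z - K v ∈ B := by
  let K' : E →ₗ[ℂ] HQ Z B := (B.submoduleOf Z).mkQ ∘ₗ K.codRestrict Z hK
  have h1 : Function.Injective K' := (injective_iff_map_eq_zero _).2 fun v a =>
    hi v ((Submodule.Quotient.mk_eq_zero (B.submoduleOf Z)).1 a)
  have := Module.Finite.of_injective K' h1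
  intro z hz
  obtain ⟨v, e⟩ := (LinearMap.injective_iff_surjective_of_finrank_eq_finrank hd.symm).1 h1
    (Submodule.Quotient.mk ⟨z, hz⟩)
  exact ⟨v, (Submodule.Quotient.eq (B.submoduleOf Z)).1 e.symm⟩

section pt

variable {ι : Type} [Fintype ι] [DecidableEq ι] {W : S6} {p : ι → ℤ} {d ξ η : Matrix ι ι S6}

theorem trv_of_bb (hd : d ∈ MM p p 3) (h : ξ * eps p ∈ BB p d p d 3) : Trv p d ξ := by
  obtain ⟨k, hk, e⟩ := h
  refine ⟨-(k * eps p), Submodule.neg_mem _ (Cy.MM_mul (q := p) (b := 3 - 3) hk (eps_mem p)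
    (by norm_num)), ?_⟩
  rw [← mul_one ξ, ← eps_mul_eps p, ← mul_assoc, e, add_mul, mul_assoc k, d_mul_eps hd]
  noncomm_ring

theorem ko_tr (J : Jd W) (hX : IsMF W p d) (hξ : ξ ∈ MM p p 3) (hη : η ∈ MM p p 3)
    (a : d * ξ + ξ * d = 0) (b : d * η + η * d = 0)
    (hi : ∀ s t : ℂ, Trv p d (s • ξ + t • η) → s = 0 ∧ t = 0)
    (hd : finrank ℂ (HH p d p d 3) = 2) : J.tr p d (ξ * η) ≠ 0 := by
  intro h0
  let K : (ℂ × ℂ) →ₗ[ℂ] MM p p 3 := (LinearMap.toSpanSingleton ℂ _ ⟨ξ, hξ⟩).coprod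
    (LinearMap.toSpanSingleton ℂ _ ⟨η, hη⟩)
  have e : ∀ v, (K v).1 = v.1 • ξ + v.2 • η := fun _ => rfl
  have h1 := J.om_nondeg hX K (fun v => by
    rw [e, mul_add, add_mul, mul_smul_comm, mul_smul_comm, smul_mul_assoc, smul_mul_assoc,
      add_add_add_comm, ← smul_add, ← smul_add, a, b, smul_zero, smul_zero, add_zero]) ⊥
    (fun v h => Prod.ext (hi _ _ h).1 (hi _ _ h).2) (by simp [hd]) (v := (0, 1)) fun w => by
      rw [e, e, zero_smul, one_smul, zero_add, add_mul, smul_mul_assoc, smul_mul_assoc, map_add,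
        map_smul, map_smul, h0, J.om_self hX hη b, smul_zero, smul_zero, add_zero]
  exact one_ne_zero (congrArg Prod.snd ((Submodule.mem_bot ℂ).1 h1))

end pt

/-- **KO** -/
theorem stKo : StKo := by
  intro W C hW hs s hz
  obtain ⟨J⟩ := nonempty_jd hW hs
  obtain ⟨σ, hσ, rfl⟩ := C.pv.slc hz
  obtain ⟨u, u1, u2, u3⟩ := C.loc _ hz
  have hw : AnalyticAt ℂ (fun v => u (σ v)) 0 := u1.comp hσ.an
  obtain ⟨ξ, η, hξ, hη, e1, e2⟩ := ko_div hw
  have m1 : ∀ᶠ v in 𝓝 0, σ v ∈ C.Z ∧ (u (σ v)).1 ∈ C.O (σ v) := hσ.mem.and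
    ((tendsto_nhdsWithin_iff.2 ⟨hσ.an.continuousAt, hσ.mem⟩).eventually u2)
  have m2 : ∀ᶠ v in 𝓝 0, IsMF W C.p (u (σ v)).1 := m1.mono fun v a => (C.orb _ a.1).mf _ a.2
  have a1 : AnalyticAt ℂ (fun v : Fin 2 → ℂ => (![0, v 1] : Fin 2 → ℂ)) 0 :=
    analyticAt_pi_iff.2 fun i => by
      fin_cases i
      exacts [analyticAt_const,
        (ContinuousLinearMap.proj (R := ℂ) (φ := fun _ : Fin 2 => ℂ) 1).analyticAt 0]
  have z : (![0, (0 : Fin 2 → ℂ) 1] : Fin 2 → ℂ) = 0 := by simp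
  have hw' : AnalyticAt ℂ (fun v : Fin 2 → ℂ => u (σ ![0, v 1])) 0 := hw.comp_of_eq a1 z
  have t1 : Tendsto (fun v : Fin 2 → ℂ => (![0, v 1] : Fin 2 → ℂ)) (𝓝 0) (𝓝 0) := by
    have := a1.continuousAt.tendsto
    rwa [z] at this
  have m3 : ∀ᶠ v in 𝓝 (0 : Fin 2 → ℂ), IsMF W C.p (u (σ ![0, v 1])).1 := t1.eventually m2
  have d0 := m2.self_of_nhds
  have mu : ∀ {f g : (Fin 2 → ℂ) → MM C.p C.p 3}, AnalyticAt ℂ f 0 → AnalyticAt ℂ g 0 →
      AnalyticAt ℂ (fun v => mulL C.p C.p C.p (show (3 : ℤ) + 3 = 6 from rfl) (f v) (g v)) 0 :=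
    fun a b => ((mulL C.p C.p C.p _).analyticAt_bilinear _).comp₂ a b
  have e1' : ∀ v, v 0 • (ξ v).1 = (u (σ v)).1 - (u (σ ![0, v 1])).1 := fun v =>
    eq_sub_of_add_eq' (congrArg Subtype.val (e1 v)).symm
  have e2' : ∀ v, v 1 • (η v).1 = (u (σ ![0, v 1])).1 - (u (σ 0)).1 := fun v =>
    eq_sub_of_add_eq' (congrArg Subtype.val (e2 v)).symm
  have n1 := ko_cancel 0 ((mu hw hξ).add (mu hξ hw')) ((m2.and m3).mono fun v a => Subtype.ext (by
    change v 0 • ((u (σ v)).1 * (ξ v).1 + (ξ v).1 * (u (σ ![0, v 1])).1) = 0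
    rw [smul_add, ← mul_smul_comm, ← smul_mul_assoc, e1', mul_sub, sub_mul, a.1.sq, a.2.sq,
      sub_add_sub_cancel, sub_self]))
  have n2 := ko_cancel 1 ((mu hw' hη).add (mu hη (analyticAt_const (v := u (σ 0)))))
    (m3.mono fun v a => Subtype.ext (by
      change v 1 • ((u (σ ![0, v 1])).1 * (η v).1 + (η v).1 * (u (σ 0)).1) = 0
      rw [smul_add, ← mul_smul_comm, ← smul_mul_assoc, e2', mul_sub, sub_mul, a.sq, d0.sq,
        sub_add_sub_cancel, sub_self]))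
  replace n1 : ∀ᶠ v in 𝓝 0, (u (σ v)).1 * (ξ v).1 + (ξ v).1 * (u (σ ![0, v 1])).1 = 0 :=
    n1.mono fun _ a => congrArg Subtype.val a
  replace n2 : ∀ᶠ v in 𝓝 0, (u (σ ![0, v 1])).1 * (η v).1 + (η v).1 * (u (σ 0)).1 = 0 :=
    n2.mono fun _ a => congrArg Subtype.val a
  have p1 := n1.self_of_nhds
  have p2 := n2.self_of_nhds
  rw [z] at p1 p2
  obtain ⟨V, v1, v2, v3⟩ := eventually_nhds_iff.1 ((((m1.and n1).and n2).and
    (hσ.an.eventually_analyticAt.and hw.eventually_analyticAt)).and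
      (hξ.eventually_analyticAt.and hη.eventually_analyticAt))
  have cc : ∀ {f : (Fin 2 → ℂ) → MM C.p C.p 3}, (∀ v ∈ V, AnalyticAt ℂ f v) →
      ∀ i j m, ContinuousOn (fun v => coeff m ((f v).1 i j)) V := fun h =>
    continuousOn_MM.1 fun v a => (h v a).continuousAt.continuousWithinAt
  have df : ∀ v : Fin 2 → ℂ, fderiv ℂ u (σ 0) (fderiv ℂ σ 0 v) = v 0 • ξ 0 + v 1 • η 0 := by
    intro v
    have pr := fun i => (ContinuousLinearMap.proj (R := ℂ) (φ := fun _ : Fin 2 => ℂ) i).hasFDerivAt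
      (x := (0 : Fin 2 → ℂ))
    have h1 := ((((pr 1).smul hη.differentiableAt.hasFDerivAt).const_add (u (σ 0))).add
      ((pr 0).smul hξ.differentiableAt.hasFDerivAt)).congr_of_eventuallyEq
        (f₁ := fun v => u (σ v)) (.of_forall fun v => (e1 v).trans (by rw [e2 v]; rfl))
    have h2 := (u1.differentiableAt.hasFDerivAt.comp 0 hσ.an.differentiableAt.hasFDerivAt).unique h1
    have h3 := ContinuousLinearMap.ext_iff.1 h2 v
    simpa [add_comm] using h3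
  have ks : ∀ s t : ℂ, Trv C.p (u (σ 0)).1 (s • (ξ 0).1 + t • (η 0).1) → s = 0 ∧ t = 0 := by
    intro s t h
    obtain ⟨c, hc⟩ := u3 (fderiv ℂ σ 0 ![s, t]) (hσ.mem_tn.2 ⟨0, ![s, t], by
      rw [show scl (π₀ (Fin C.ν)) 0 (σ 0) = 0 from funext fun _ => zero_mul _, zero_add]⟩)
      (by rw [df]; exact h)
    have h1 := (hσ.transv (a := fun _ => c) hc).1
    exact ⟨congrFun h1 0, congrFun h1 1⟩
  have dm := (C.orb _ hz).dim _ m1.self_of_nhds.2
  have tr := ko_tr J d0 (ξ 0).2 (η 0).2 p1 p2 ks (dm 1)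
  have zz := mul_mem_ZZ6 (ξ 0).2 (η 0).2 p1 p2
  have k0 : ∀ c : ℂ, c • (1 : Matrix C.ι C.ι S6) ∈ BB C.p (u (σ 0)).1 C.p (u (σ 0)).1 0 →
      c = 0 := fun c h => by
    have h1 := J.tr_BB_right d0 h zz.2
    rw [mul_smul_comm, mul_one, map_smul] at h1
    exact (smul_eq_zero.1 h1).resolve_right tr
  have k1 : ∀ a b : ℂ, (a • (ξ 0).1 + b • (η 0).1) * eps C.p ∈
      BB C.p (u (σ 0)).1 C.p (u (σ 0)).1 3 → a = 0 ∧ b = 0 := fun a b h =>
    ks a b (trv_of_bb d0.deg h)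
  have k2 : ∀ c : ℂ, c • ((ξ 0).1 * (η 0).1) ∈ BB C.p (u (σ 0)).1 C.p (u (σ 0)).1 6 →
      c = 0 := fun c h => by
    have h1 := J.tr_BB_right d0 h (zz_one C.p _).2
    rw [one_mul, map_smul] at h1
    exact (smul_eq_zero.1 h1).resolve_right tr
  have f0 := fun j => finite_ZZ C.p (u (σ 0)).1 C.p (u (σ 0)).1 j
  refine ⟨σ, V, fun v => (u (σ v)).1, fun v => (ξ v).1, fun v => (η v).1, ⟨hσ, v2, v3,
    fun v a => (v1 v a).1.2.1.continuousAt.continuousWithinAt, fun v a => (v1 v a).1.1.1.1,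
    fun v _ => (ξ v).2, fun v _ => (η v).2, cc fun v a => (v1 v a).1.2.2,
    cc fun v a => (v1 v a).2.1, cc fun v a => (v1 v a).2.2, fun v _ => ?_, fun v a => ?_,
    fun v a => ?_, fun v a => ?_, k0, ?_, k1, fun g hg => ?_, k2, ?_⟩, rfl⟩
  · rw [e1', e2', sub_add_sub_cancel]
  · rw [← mul_smul_comm, e2', eq_neg_of_add_eq_zero_left (v1 v a).1.1.1.2]
    noncomm_ring
  · rw [← smul_mul_assoc, e1', eq_neg_of_add_eq_zero_right (v1 v a).1.1.2]
    noncomm_ring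
  · rw [← mul_assoc, eq_neg_of_add_eq_zero_left (v1 v a).1.1.1.2, neg_mul, mul_assoc,
      eq_neg_of_add_eq_zero_left (v1 v a).1.1.2, mul_neg, neg_neg, mul_assoc]
  · exact ko_onto (LinearMap.toSpanSingleton ℂ _ 1)
      (fun c => Submodule.smul_mem _ c (zz_one _ _)) k0 ((dm 0).trans (finrank_self ℂ).symm)
  · obtain ⟨v, h⟩ := ko_onto ((LinearMap.toSpanSingleton ℂ _ ((ξ 0).1 * eps C.p)).coprod
      (LinearMap.toSpanSingleton ℂ _ ((η 0).1 * eps C.p)))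
      (fun v => Submodule.add_mem _ (Submodule.smul_mem _ _ (mul_eps_mem_ZZ d0.deg (ξ 0).2 p1))
        (Submodule.smul_mem _ _ (mul_eps_mem_ZZ d0.deg (η 0).2 p2)))
      (fun v h => by
        have := k1 v.1 v.2 (by rw [add_mul, smul_mul_assoc, smul_mul_assoc]; exact h)
        exact Prod.ext this.1 this.2) ((dm 1).trans (by simp)) g hg
    exact ⟨v.1, v.2, by rw [add_mul, smul_mul_assoc, smul_mul_assoc]; exact h⟩
  · exact ko_onto (LinearMap.toSpanSingleton ℂ _ ((ξ 0).1 * (η 0).1))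
      (fun c => Submodule.smul_mem _ c zz) k2 ((dm 2).trans (finrank_self ℂ).symm)

end Vale.Agent.P287T.Psi
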