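import Vale.Agent.P287T.Per.PosA
import Vale.Agent.P287T.Kx.St
import Vale.Agent.P287Q.Hb.All
import Vale.Agent.P287Q.Hb.HRg

/-!
# The class of a holomorphic symplectic form is not zero
-/

noncomputable section

namespace Vale.Agent.P287T.Psi

open Set Topology Filter P291Z P269 P269.Coh P269.Mono P269.Hdg P287Q P287Q.Hb
open scoped ContDiff

variable {N : ℕ} {T : Submodule ℂ (E N)} {s : E N →L[ℂ] E N →L[ℂ] ℂ}

theorem sne_cv_add (l m : E N →L[ℂ] ℂ) : cv true (l + m) = cv true l + cv true m := rfl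

theorem sne_cv_smul (c : ℂ) (l : E N →L[ℂ] ℂ) : cv true (c • l) = c • cv true l := rfl

/-- the two-form of a bilinear map -/
def sneF : (E N →L[ℂ] E N →L[ℂ] ℂ) →ₗ[ℂ] Λ N where
  toFun s := ∑ i, io (dz true i) * io (cv true (s (ee i)))
  map_add' s t := by
    simp only [_root_.add_apply, sne_cv_add, map_add, mul_add, Finset.sum_add_distrib]
  map_smul' c s := by
    simp only [_root_.smul_apply, sne_cv_smul, map_smul, mul_smul_comm,
      Finset.smul_sum, RingHom.id_apply]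

theorem sneF_apply (s : E N →L[ℂ] E N →L[ℂ] ℂ) :
    sneF s = ∑ i, io (dz true i) * io (cv true (s (ee i))) := rfl

theorem sneF_sum (s : E N →L[ℂ] E N →L[ℂ] ℂ) :
    sneF s = ∑ i, ∑ j, s (ee i) (ee j) • (io (dz true i) * io (dz true j)) := by
  rw [sneF_apply]
  refine Finset.sum_congr rfl fun i _ => ?_
  rw [cv_eq_sum true (s (ee i)), map_sum, Finset.mul_sum]
  refine Finset.sum_congr rfl fun j _ => ?_
  rw [map_smul, mul_smul_comm]
  rfl

theorem sneF_one (l m : E N →L[ℂ] ℂ) :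
    sneF (l.smulRight m) = io (cv true l) * io (cv true m) := by
  rw [sneF_apply, cv_eq_sum true l, map_sum, Finset.sum_mul]
  refine Finset.sum_congr rfl fun i _ => ?_
  rw [ContinuousLinearMap.smulRight_apply, sne_cv_smul, map_smul, map_smul, mul_smul_comm,
    smul_mul_assoc]
  rfl

theorem sne_sum (s : E N →L[ℂ] E N →L[ℂ] ℂ) (v w : E N) : ∑ i, v i * s (ee i) w = s v w := by
  conv_rhs => rw [← sum_ee v]
  simp only [map_sum, map_smul, _root_.sum_apply, _root_.smul_apply,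
    smul_eq_mul]

theorem sneF_mp (L : E N →L[ℂ] E N) (s : E N →L[ℂ] E N →L[ℂ] ℂ) :
    mp (tr (L.restrictScalars ℝ)) (sneF s) = sneF (s.bilinearComp L L) := by
  have h : s.bilinearComp L L =
      ∑ i, ((ContinuousLinearMap.proj i).comp L).smulRight ((s (ee i)).comp L) := by
    ext1 v
    ext1 w
    rw [ContinuousLinearMap.bilinearComp_apply, ← sne_sum]
    simp only [_root_.sum_apply]
    rfl
  rw [h, map_sum, sneF_apply, map_sum]
  refine Finset.sum_congr rfl fun i _ => ?_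
  rw [map_mul, mp_io, mp_io, dz, tr_cv, tr_cv, sneF_one]

theorem sneF_ty (s : E N →L[ℂ] E N →L[ℂ] ℂ) : sneF s ∈ Ty 2 0 := by
  rw [sneF_apply]
  refine Submodule.sum_mem _ fun i _ => ?_
  exact Ty_mul (p := 1) (q := 0) (p' := 1) (q' := 0)
    (io_cv_mem_Ty true (ContinuousLinearMap.proj i)) (io_cv_mem_Ty true _)

theorem sneF_ct (s : E N →L[ℂ] E N →L[ℂ] ℂ) (v w : E N) :
    ct (vec true w) (ct (vec true v) (sneF s)) = (s v w - s w v) • 1 := by
  rw [sneF_apply, map_sum, map_sum, ← sne_sum s v w, ← sne_sum s w v, ← Finset.sum_sub_distrib,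
    Finset.sum_smul]
  refine Finset.sum_congr rfl fun i _ => ?_
  rw [ct_io_mul, ct_io, mul_smul_comm, mul_one, map_sub, map_smul, map_smul, ct_io, ct_io,
    vec_dz, vec_dz, vec_cv, vec_cv, if_pos rfl, if_pos rfl, if_pos rfl, if_pos rfl, smul_smul,
    smul_smul, ← sub_smul, mul_comm (w i)]
  rfl

theorem sneF_nul (h : ∀ v ∈ T, ∀ w ∈ T, s v w = 0) : sneF s ∈ nul T := by
  obtain ⟨P, h1, h2⟩ := exists_prj0 T
  refine (nul_iff (P := P.restrictScalars ℝ) h1 h2).2 ?_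
  rw [sneF_mp, show s.bilinearComp P P = 0 from ?_, map_zero]
  ext1 v
  ext1 w
  exact h _ (h1 v) _ (h1 w)

theorem sneF_sub {s' : E N →L[ℂ] E N →L[ℂ] ℂ} (h : ∀ v ∈ T, ∀ w ∈ T, s v w = s' v w) :
    sneF s - sneF s' ∈ nul T := by
  rw [← map_sub]
  exact sneF_nul fun v hv w hw => sub_eq_zero.2 (h v hv w hw)

theorem sneF_of_nul (h : sneF s ∈ nul T) {v w : E N} (hv : v ∈ T) (hw : w ∈ T) :
    s v w = s w v := by
  obtain ⟨P, h1, h2⟩ := exists_prj0 T
  have h3 := (nul_iff (P := P.restrictScalars ℝ) h1 h2).1 h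
  have h4 := sneF_ct (s.bilinearComp P P) v w
  rw [← sneF_mp, h3, map_zero, map_zero, ContinuousLinearMap.bilinearComp_apply,
    ContinuousLinearMap.bilinearComp_apply, h2 v hv, h2 w hw] at h4
  exact sub_eq_zero.1 (smul_one_injective (N := N) (h4.symm.trans (zero_smul ℂ _).symm))

theorem sne_db {w : E N → Λ N} {x : E N} (h : AnalyticAt ℂ w x) : db false idE w x = 0 := by
  rw [db_id, an_fderiv h, al_apply]
  refine Finset.sum_eq_zero fun j _ => ?_
  have : vv false (ee j) ((fderiv ℂ w x).restrictScalars ℝ) = 0 := by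
    simp [vv, sg, smul_smul]
  rw [this, mul_zero]

/-- maps which vanish along `C` near `b` -/
def sneV (C : Set (E N)) (b : TT N) : Submodule ℂ (E N → Λ N) where
  carrier := {f | NearT b fun y => y ∈ C → f y ∈ nl C y}
  zero_mem' := NearT.of_forall fun _ _ _ => zero_mem _
  add_mem' hu hv := (NearT.and hu hv).mono fun _ _ h hy => add_mem (h.1 hy) (h.2 hy)
  smul_mem' c _ hu := NearT.mono hu fun _ _ h hy => Submodule.smul_mem _ c (h hy)

variable {C : Set (E N)} {σ : E N → E N →L[ℂ] E N →L[ℂ] ℂ} (h : SubC C 2) (hs : Kx.Sym C σ)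
include hs

theorem sne_skew {z v w : E N} (hz : z ∈ C) (hv : v ∈ tn C z) (hw : w ∈ tn C z) :
    σ z v w = -σ z w v := by
  have h1 := hs.alt z hz _ (add_mem hv hw)
  simp only [map_add, _root_.add_apply, hs.alt z hz v hv, hs.alt z hz w hw] at h1
  linear_combination h1

theorem sne_an {x : E N} (hx : x ∈ C) : ∃ s : E N → E N →L[ℂ] E N →L[ℂ] ℂ,
    AnalyticAt ℂ (fun y => sneF (s y)) x ∧
      ∀ᶠ y in 𝓝 x, y ∈ C → ∀ v ∈ tn C y, ∀ w ∈ tn C y, σ y v w = s y v w := by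
  obtain ⟨s, h1, h2⟩ := hs.hol x hx
  refine ⟨s, ?_, eventually_nhdsWithin_iff.1 h2⟩
  simp only [sneF_sum]
  refine Finset.analyticAt_fun_sum _ fun i _ => Finset.analyticAt_fun_sum _ fun j _ => ?_
  have h3 := ((ContinuousLinearMap.apply ℂ ℂ (ee j)).analyticAt _).comp
    (((ContinuousLinearMap.apply ℂ (E N →L[ℂ] ℂ) (ee i)).analyticAt _).comp h1)
  exact AnalyticAt.smul (f := fun y => s y (ee i) (ee j))
    (g := fun _ => io (dz true i) * io (dz true j)) h3 analyticAt_const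

include h

theorem sne_loc {x : E N} (hx : x ∈ C) :
    ∃ u ∈ Om 2 0, NearT (prP x) fun y => y ∈ C → sneF (σ y) - u.1 y ∈ nl C y := by
  obtain ⟨s, h1, h2⟩ := sne_an hs hx
  have h0 := h.ne x hx
  obtain ⟨u, u1, u2, u3⟩ := exists_ext h0 0 (p := 2) (q := 0)
    ((an_sm_ev h1).mono fun y a => ⟨a, sneF_ty _⟩)
  refine ⟨u, ⟨u1, u2⟩, NearT.of_ev h0 (fun t y ht hy a b => ?_) ?_⟩
  · have a1 := a (h.inv t ht y b)
    rw [nl, h.tn_smul ht b, u1.2 t y ht hy] at a1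
    have a2 : sneF (σ y) - sneF (t ^ 2 • σ (t • y)) ∈ nl C y := sneF_sub fun v hv w hw => by
      rw [← hs.smul y b t ht v hv w hw]
      simp only [map_smul, _root_.smul_apply, smul_eq_mul]
      ring
    have a3 := add_mem a2 (Submodule.smul_mem _ (t ^ 2) a1)
    rwa [map_smul, smul_sub, sub_add_sub_cancel, smul_smul, neg_zero, zpow_zero, mul_one, zero_sub,
      zpow_neg, zpow_ofNat, mul_inv_cancel₀ (pow_ne_zero 2 ht), one_smul] at a3
  · filter_upwards [u3, lf_ne_ev h0, (cpr_tendsto h0).eventually h2] with y a b c d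
    have e : ∀ v ∈ tn C y, ∃ k : ℂ, fderiv ℂ (cpr x) y v = (lf x y)⁻¹ • (v + k • y) := fun v _ =>
      ⟨_, (congrArg (fun L : E N →L[ℝ] E N => L v)
        ((an_fderiv (an_cpr b)).symm.trans (fderiv_cpr b)) :)⟩
    have hy := h.self_mem d
    have f : tn C (cpr x y) = tn C y := h.tn_smul (inv_ne_zero b) d
    rw [a, ext_zero, pb, an_fderiv (an_cpr b), sneF_mp]
    refine sneF_sub fun v hv w hw => ?_
    obtain ⟨k, hk⟩ := e v hv
    obtain ⟨l, hl⟩ := e w hw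
    have hv' := add_mem hv (Submodule.smul_mem _ k hy)
    have hw' := add_mem hw (Submodule.smul_mem _ l hy)
    rw [ContinuousLinearMap.bilinearComp_apply, hk, hl, ← c (h.cpr_mem d b) _
      (f ▸ Submodule.smul_mem _ _ hv') _ (f ▸ Submodule.smul_mem _ _ hw'), cpr,
      hs.smul y d _ (inv_ne_zero b) _ hv' _ hw', map_add (σ y), map_smul,
      _root_.add_apply, _root_.smul_apply, hs.rad y d _ hw', smul_zero,
      add_zero, map_add, map_smul, sne_skew hs d hv hy, hs.rad y d v hv, neg_zero, smul_zero,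
      add_zero]

theorem sne_glob : ∃ u ∈ Om 2 0, ∀ y ∈ C, sneF (σ y) - u.1 y ∈ nl C y := by
  have key : ∀ b, ∃ u ∈ Ak (2 + 0), (fun y => sneF (σ y)) - (smS N).subtype u ∈ sneV C b := by
    intro b
    rcases h.X_cases b with hb | ⟨x, hx, rfl⟩
    · exact ⟨0, zero_mem _, NearT.mono hb fun _ _ a c => (a c).elim⟩
    · obtain ⟨u, a, c⟩ := sne_loc h hs hx
      exact ⟨u, Om_le_Ak a, c⟩
  obtain ⟨u, u1, u2⟩ := (Hb.dR h).fine.glue (sneV C) (smS N).subtype (fun y => sneF (σ y)) (2 + 0)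
    (fun _ _ a => a) (fun _ _ a => NearT.opn a) (fun _ _ _ a => a) key
    ⟨KK N, isCompact_KK, fun b hb => eq_top_iff.2 fun _ _ => NearT.of_notMem hb⟩
  refine ⟨PT 2 0 u, u1.1 2 0, fun y hy => ?_⟩
  have := nul_pt (NearT.self (h.ne y hy) (u2 (prP y)) hy) 2 0
  change pt 2 0 (sneF (σ y) - u.1 y) ∈ _ at this
  rwa [map_sub, pt_self (sneF_ty _)] at this

theorem sne_closed {u : SM N} (hu : u ∈ Om 2 0) (e : ∀ y ∈ C, sneF (σ y) - u.1 y ∈ nl C y) :
    u ∈ (Hb.dR h).sh.gl.Z (2 + 0) := by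
  refine (dR_Z h).2 ⟨Om_le_Ak hu, fun x hx => add_mem
    (h.Om_big (DB_Om' hu) (Or.inl (by norm_num)) x hx) ?_⟩
  obtain ⟨s, h1, h2⟩ := sne_an hs hx
  have h0 := h.ne x hx
  have h3 := h.stab hx ((u.sm h0).sub (an_sm h1)) (h2.mono fun y a b => by
    have := sub_mem (sneF_sub (a b)) (e y b)
    rwa [sub_sub_sub_cancel_left] at this)
  have h4 : ∀ᶠ y in 𝓝 x, u.1 y - sneF (s y) ∈ Ty 2 0 :=
    (ne_zero_ev h0).mono fun y a => sub_mem (hu.1.1 y a).1 (sneF_ty _)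
  have h5 := sm_diff ((u.sm h0).sub (an_sm h1))
  have h6 := nul_pt h3 (2 + dl true false) (0 + dl false false)
  rw [dd, map_add, pt_self (db_mem h5 h4), pt_of_mem (db_mem h5 h4), if_neg (by decide), zero_add,
    db_sub (u.df h0) (sm_diff (an_sm h1)), sne_db h1, sub_zero] at h6
  rwa [DB_apply _ _ h0]

omit h in
theorem sne_ne {u : SM N} (e : ∀ y ∈ C, sneF (σ y) - u.1 y ∈ nl C y) {x : E N} (hx : x ∈ C) :
    u.1 x ∉ nl C x := fun k => by
  obtain ⟨v, hv, w, hw, a⟩ := hs.ne x hx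
  have b := add_mem (e x hx) k
  rw [sub_add_cancel] at b
  have d := sneF_of_nul b hv hw
  rw [sne_skew hs hx hw hv] at d
  exact a (by linear_combination d / 2)

/-- **The class of the symplectic form.** -/
theorem sne_main {Y : PS} {π : C → Y.X} (hπ : IsProj π) (hn : Y.n = (2 : ℕ))
    (con : ∀ x : H Y.X, H.IsDeg 0 x → ∃ c : ℂ, x = c • 1) (hC : C.Nonempty) :
    ∃ c ∈ HT C π 2 0, c ≠ 0 := by
  obtain ⟨u, u1, u2⟩ := sne_glob h hs
  have u3 := sne_closed h hs u1 u2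
  refine ⟨_, (mem_HT_iff h hπ).2 ⟨u, u3, u1, rfl⟩, fun h0 => ?_⟩
  obtain ⟨c, c0, hc⟩ := (Per.pos_main h hπ hn con hC).1
  obtain ⟨θ1, θ2⟩ := cmp_cast h hπ (k := 2 + 0 + (2 + 0)) (l := ((2 + 2 : ℕ) : ℤ)) (by norm_num)
    (Hb.ML_Z h u3 (CL_Z h u3))
  rw [Hb.cmp_mul h hπ u3 (CL_Z h u3), h0, zero_mul] at θ2
  obtain ⟨t, -, t1, t2⟩ := hc u.1 (fun _ => 1) (fun x hx => ⟨(u1.1.1 x (h.ne x hx)).1,
    fun b => Ak_ct (Om_le_Ak u1) b (h.ne x hx), sne_ne hs u2 hx, zero_le_one⟩) (ML u (CL u)) θ1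
    fun x _ => by
      rw [Complex.ofReal_one, one_smul, show (ML u (CL u)).1 x = u.1 x * cjL (u.1 x) from rfl,
        sub_self]
      exact zero_mem _
  rw [θ2, map_zero] at t1
  exact mul_ne_zero (Complex.ofReal_ne_zero.2
    (t2 (hC.imp fun x hx => ⟨hx, fun _ _ => one_pos⟩)).ne') c0 t1.symm

omit h hs in
theorem sne_pv {ν : ℕ} {Z : Set (Fin ν → ℂ)}
    {σ : (Fin ν → ℂ) → (Fin ν → ℂ) →L[ℂ] (Fin ν → ℂ) →L[ℂ] ℂ} (h : PV (Cub.π₀ (Fin ν)) Z 2)
    (hc : IsConnected Z) (hs : Kx.Sym Z σ) : ∃ s ∈ QT (scl (Cub.π₀ (Fin ν))) Z 2 0, s ≠ 0 := by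
  have h0 := fun z (hz : z ∈ Z) => Kx.ne_zero h.toMC hz
  cases ν with
  | zero => exact hc.nonempty.elim fun z hz => (h0 z hz).elim fun i => i.elim0
  | succ N =>
    have := isAct_scl (Cub.π₀ (Fin (N + 1)))
    have := Mf.connected_quo (act := scl (Cub.π₀ (Fin (N + 1)))) hc
    have h1 : SubC Z 2 := ⟨fun z hz e => (h0 z hz).elim fun i a => a (congrFun e i),
      fun t ht z hz => Kx.smul_mem h.toMC hz ht,
      fun z hz e => h.cl z hz fun _ => (Function.ne_iff.1 e).imp fun _ a => ⟨rfl, a⟩, h.mfd⟩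
    refine sne_main h1 hs (Y := h.qm.ps) ⟨h.toMC.isOpenQuotientMap.isQuotientMap, fun x y => ?_⟩ rfl
      con_of_conn hc.nonempty
    refine h.toMC.mk_eq_iff.trans ⟨fun ⟨t, _, e⟩ => ⟨t (), e.symm⟩, fun ⟨t, e⟩ =>
      ⟨fun _ => t, unit_iff.2 fun _ a => h1.ne _ y.2 ?_, e.symm⟩⟩
    rw [← e, a, zero_smul]

end Vale.Agent.P287T.Psi
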