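import Vale.Agent.P287T.Psi.St
import Vale.Agent.P287T.Psi.Sne0

/-!
# A symplectic surface has a class of type `(2, 0)` which is not zero
-/

namespace Vale.Agent.P287T.Psi

theorem stSne : StSne := fun _ _ _ h hc hs => sne_pv h hc hs

end Vale.Agent.P287T.Psi
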