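import Vale.Agent.P287T.Psi.Main
import Vale.Agent.P287T.Psi.Kap
import Vale.Agent.P287T.Psi.Col
import Vale.Agent.P287T.Psi.Lef
import Vale.Agent.P287T.Psi.Sne
import Vale.Agent.P287T.Psi.M1
import Vale.Agent.P287T.Psi.M1b
import Vale.Agent.P287T.Psi.Hty
import Vale.Agent.P287T.Psi.Flat
import Vale.Agent.P287T.Psi.Dic
import Vale.Agent.P287T.Gl.Main
import Vale.Agent.P287T.Gb.Fin
import Vale.Agent.P287T.Cy.Sy3
import Vale.Agent.P287T.Pj.Prj
import Vale.Agent.P287T.Rr.Main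
import Vale.Agent.P287T.Top.Fam

/-!
# The Mukai map: the proved steps put together
-/

namespace Vale.Agent.P287T.Psi.Fn

open Filter P291Z P269 P269.Ch P269.Grr P287Q P287Q.Cub P287T.Cy P287T.Rr P287T.Top P287T.Cl
  P287T.Au P287T.Gl

theorem rh0 : StRH := stRH stRR

theorem at0 : StAt := stAt Psi.stNat stDg

theorem or0 : StOr := fun W c T _ _ _ U U' h k => by
  obtain ⟨K, h1, h2⟩ := ((Rb.ev_K U.q U'.q).and (rh0 W c T U U' k)).exists
  rw [← h2, (pS_id _).symm.trans (Rb.RH_acyc U.eft U'.eft c.sm (Mor.id _) h1 h), map_zero]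
  rfl

theorem psi_of (B : Top.Blk)
    (typ : ∀ (W : S6) (c : Cu W) (C : Cf W) (G : Gf C), G.U.Hol → G.Typ c) (adj : StAdj)
    (cmp : StCmpK) : Top.StPsi :=
  stPsi_of B (Top.stFam_of hrr Pj.stProj) stDg (stGlob_of typ) adj (stM1_of rh0 at0 stKo) stSne
    (stLef Gl.stGl (stCol rh0 at0)) (stFlat_of hrr Psi.stNat at0 cmp stHty) Cy.stSym

end Vale.Agent.P287T.Psi.Fn
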