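import Vale.Agent.P287T.Psi.St

/-!
# The deformation step: the statements of its parts
-/

set_option linter.unusedVariables false

noncomputable section

namespace Vale.Agent.P287T.Psi

open Set Function Filter Topology Metric Module P291Z P269 P287Q P287Q.Cub P287T.Cy P287T.Rr
  P287T.Top P287T.Cl P287T.Au P287T.Gl P287T.Fa

namespace Fm

variable {W : S6} {T : Type} [TopologicalSpace T]

/-- all members have the property `Q` -/
def All (U : Fm W T) (Q : G3.HM W → Prop) : Prop :=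
  ∀ (t : T) (n : ℕ) (r : Fin n → ℤ) (a : Matrix (Fin n) U.κ ℂ) (b : Matrix U.κ (Fin n) ℂ)
    (k : Spl U.q (U.e t) r a b), Q (G3.ofRaw (k.isMF (U.pf.pf t)))

/-- the members are simple and equivalent -/
def Sim (U U' : Fm W T) : Prop := ∀ t, ∃ (n : ℕ) (p : Fin n → ℤ) (d : Matrix (Fin n) (Fin n) S6),
  IsMF W p d ∧ finrank ℂ (HH p d p d 0) = 1 ∧ U.At t p d ∧ U'.At t p d

end Fm

/-- the slice of a family with a varying potential -/
def slF {T B κ : Type} [TopologicalSpace T] [TopologicalSpace B] [Fintype κ] [DecidableEq κ]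
    {w : B → S6} {q : κ → ℤ} {e : T → Matrix κ κ ℂ} {D : T × B → Matrix κ κ S6}
    (h : PF (fun x : T × B => w x.2) q (fun x => e x.1) D) (b : B) : Fm (w b) T :=
  ⟨κ, q, e, fun t => D (t, b), h.comp (f := fun t => (t, b)) (continuous_id.prodMk continuous_const)⟩

/-- **CMAP**: the classifying map -/
def StCmap : Prop := ∀ (W : S6) (c : Cu W) (φ : ℝ) (v : Cls W), PrimA v.1 → mk v v = 0 →
  ∀ C : Cf W, C.All (QQ c φ v) → Sw.Span (ob C) → ∀ (G : Gf C) (T : Type) [TopologicalSpace T]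
    (U : Fm W T), U.All (QE c φ v) → ∃ f : C(T, SZ C.Z), U.Sim (G.U.pb f)

/-- **CMP**: families with the same simple members differ by a line bundle -/
def StCmp : Prop := ∀ (W : S6) (c : Cu W) (T : Type) [TopologicalSpace T] [Nice T]
  [CompactSpace T] [ConnectedSpace T] (U U' : Fm W T), U.Sim U' →
    ∃ l ∈ H.deg T 2, U.kap c 1 = U'.kap c 1 + smK l (U'.kap c 0)

/-- **HTY**: the class of a family is flat -/
def StHty : Prop := ∀ (F : S6) (h : Per.Sm F) (r : ℝ) Φ σ η (k : Per.PM h p3 r Φ σ η) (T : Type)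
  [TopologicalSpace T] [Nice T] [CompactSpace T] [ConnectedSpace T] (B : Type) [TopologicalSpace B]
  (b₀ : B) (s : B → T3) (hs : ∀ b, s b ∈ ball (0 : T3) r), Continuous s →
  ∀ (κ : Type) [Fintype κ] [DecidableEq κ] (q : κ → ℤ) (e : T → Matrix κ κ ℂ)
    (D : T × B → Matrix κ κ S6) (hD : PF (fun x : T × B => F + p3 (s x.2)) q (fun x => e x.1) D)
    (c : ∀ b, Cu (F + p3 (s b))), ∀ᶠ b in 𝓝 b₀, ∀ j,
      trK (k.tr (s b) (hs b)).φ ((slF (w := fun b => F + p3 (s b)) hD b).kap (c b) j) =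
        trK (k.tr (s b₀) (hs b₀)).φ ((slF (w := fun b => F + p3 (s b)) hD b₀).kap (c b₀) j)

end Vale.Agent.P287T.Psi
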