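import Vale.Agent.P287T.Au.Defs
import Vale.Agent.P287T.Cy.Sy1
import Vale.Agent.P287Q.Pv.Slc

/-!
# The local Koszul model of the complex of maps from a member to the family: the data
-/

namespace Vale.Agent.P287T.Psi

open Set MvPolynomial P287Q P287Q.Cub P287T.Cy P287T.Au

variable {W : S6}

/-- A slice `σ` of the cone through `σ 0`, a family `w` over it and its divided differences. -/
structure Ko (C : Cf W) (σ : (Fin 2 → ℂ) → Fin C.ν → ℂ) (V : Set (Fin 2 → ℂ))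
    (w ξ η : (Fin 2 → ℂ) → Matrix C.ι C.ι S6) : Prop where
  slc : Slc (π₀ (Fin C.ν)) C.Z σ 0
  op : IsOpen V
  z : (0 : Fin 2 → ℂ) ∈ V
  cσ : ContinuousOn σ V
  mem : ∀ v ∈ V, σ v ∈ C.Z ∧ w v ∈ C.O (σ v)
  dξ : ∀ v ∈ V, ξ v ∈ MM C.p C.p 3
  dη : ∀ v ∈ V, η v ∈ MM C.p C.p 3
  cw : ∀ i j m, ContinuousOn (fun v => coeff m (w v i j)) V
  cξ : ∀ i j m, ContinuousOn (fun v => coeff m (ξ v i j)) V
  cη : ∀ i j m, ContinuousOn (fun v => coeff m (η v i j)) V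
  e2 : ∀ v ∈ V, w v - w 0 = v 0 • ξ v + v 1 • η v
  eξ : ∀ v ∈ V, w v * ξ v + ξ v * w 0 = -(v 1 • (ξ v * η v))
  eη : ∀ v ∈ V, w v * η v + η v * w 0 = v 0 • (ξ v * η v)
  e0 : ∀ v ∈ V, w v * (ξ v * η v) = ξ v * η v * w 0
  n0 : ∀ c : ℂ, c • (1 : Matrix C.ι C.ι S6) ∈ BB C.p (w 0) C.p (w 0) 0 → c = 0
  s0 : ∀ g ∈ ZZ C.p (w 0) C.p (w 0) 0, ∃ c : ℂ,
    g - c • (1 : Matrix C.ι C.ι S6) ∈ BB C.p (w 0) C.p (w 0) 0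
  n1 : ∀ a b : ℂ, (a • ξ 0 + b • η 0) * eps C.p ∈ BB C.p (w 0) C.p (w 0) 3 → a = 0 ∧ b = 0
  s1 : ∀ g ∈ ZZ C.p (w 0) C.p (w 0) 3, ∃ a b : ℂ,
    g - (a • ξ 0 + b • η 0) * eps C.p ∈ BB C.p (w 0) C.p (w 0) 3
  n2 : ∀ c : ℂ, c • (ξ 0 * η 0) ∈ BB C.p (w 0) C.p (w 0) 6 → c = 0
  s2 : ∀ g ∈ ZZ C.p (w 0) C.p (w 0) 6, ∃ c : ℂ, g - c • (ξ 0 * η 0) ∈ BB C.p (w 0) C.p (w 0) 6

/-- **KO** -/
def StKo : Prop := ∀ (W : S6) (C : Cf W), P287Z.O.V.Hg 6 W → Sm W → ∀ s ∈ C.Z,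
  ∃ σ V w ξ η, Ko C σ V w ξ η ∧ σ 0 = s

end Vale.Agent.P287T.Psi
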