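import Vale.Agent.P287T.Cl.St
import Vale.Agent.P287T.Rr.Fib
import Vale.Agent.P287T.Fa.Defs
import Vale.Agent.P287T.Cy.Eq

/-!
# Mukai vectors with coefficients in the cohomology of a base, families over a base
-/

set_option linter.unusedSectionVars false

noncomputable section

namespace Vale.Agent.P287T.Psi

open Set Function Matrix Module P291Z P269 P287Q P287Q.Cub P287Q.Zc P287T.Cy P287T.Rr P287T.Top
  P287T.Cl P287T.Fa

section kv

variable (T : Type) [TopologicalSpace T] {T' : Type} [TopologicalSpace T'] (F : S6)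

/-- Mukai vectors with coefficients in `H T`. -/
abbrev KV : Type := (Fin 3 → H T) × H (T × XF F)

/-- constant vectors -/
def cst (x : MV F) : KV T F := (fun j => algebraMap ℂ (H T) (x.1 j), H.map .snd x.2)

variable {T F}

/-- the Mukai pairing with values in `H T` -/
def muT (x y : KV T F) : H T := ∑ j, x.1 j * y.1 j - Dn.fib T (JF F) (x.2 * y.2)

/-- pull-back along a map of bases -/
def pbK (f : C(T', T)) (x : KV T F) : KV T' F :=
  (fun j => H.map f (x.1 j), H.map (f.prodMap (.id (XF F))) x.2)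

/-- transport along a map of cubics -/
def trK {F' : S6} (φ : C(XF F, XF F')) (x : KV T F') : KV T F := (x.1, H.map (Dn.xm T φ) x.2)

/-- multiplication by a class of the base -/
def smK (a : H T) (x : KV T F) : KV T F := (fun j => a * x.1 j, H.map .fst a * x.2)

/-- vectors of degree `2 k` -/
structure Dg (k : ℕ) (x : KV T F) : Prop where
  a : ∀ j, H.IsDeg (2 * k) (x.1 j)
  s : x.1 0 + x.1 1 + x.1 2 = 0
  n : x.2 ∈ Submodule.span ℂ {z | ∃ a b, H.IsDeg (2 * k) a ∧ H.IsDeg 4 b ∧ hyp F * b = 0 ∧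
    z = H.map .fst a * H.map .snd b}

variable (F) in
/-- the projection to the primitive classes of degree four -/
def pr4 : H (XF F) →ₗ[ℂ] H (XF F) :=
  H.comp 4 - ((3 : ℂ)⁻¹ • JF F ∘ₗ LinearMap.mulRight ℂ (hyp F ^ 2) ∘ₗ H.comp 4).smulRight (hyp F ^ 2)

open Classical in
variable (T F) in
/-- the same in families -/
def prK : H (T × XF F) →ₗ[ℂ] H (T × XF F) :=
  if h : Dn.Kun T (XF F) then Dn.kmap T (XF F) ∘ₗ (pr4 F).lTensor (H T) ∘ₗ
    (LinearEquiv.ofBijective _ h).symm.toLinearMap else 0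

/-- the Chern character of `RHom`, as given by Riemann-Roch -/
def rh (x y : ℕ → KV T F) (k : ℕ) : H T :=
  -∑ i ∈ Finset.range (k + 1), (-1 : ℂ) ^ i • muT (x i) (y (k - i))

/-- the Mukai map of a vector of degree two -/
def psi (θ : KV T F) : VV F →ₗ[ℂ] H T where
  toFun y := -muT (cst T F y.1) θ
  map_add' y z := by
    simp only [muT, cst, Submodule.coe_add, Prod.fst_add, Prod.snd_add, Pi.add_apply, map_add,
      add_mul, Finset.sum_add_distrib]
    abel
  map_smul' c y := by
    have e : H.map (.snd : C(T × XF F, XF F)) (c • y.1.2) = c • H.map .snd y.1.2 :=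
      map_smul (H.mapA _) c _
    simp only [muT, cst, Submodule.coe_smul, Prod.smul_fst, Prod.smul_snd, Pi.smul_apply, e,
      smul_mul_assoc, map_smul, RingHom.id_apply, smul_neg, smul_sub, Finset.smul_sum,
      Algebra.algebraMap_eq_smul_one, smul_eq_mul, mul_smul, one_mul]

end kv

open Classical in
/-- the Chern character of a family of subspaces of a sum of line bundles -/
def chF {Y : Ch.Sp} (χ : Y.G →ₜ* ℂˣ) {ι : Type} [Fintype ι] (w : ι → ℤ)
    (F : Y.T → Submodule ℂ (ι → ℂ)) : PowerSeries (Ch.Hev Y.X) :=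
  if h : ∃ r, Fam χ w F r then h.choose_spec.vb.chc else 0

/-- a continuous family of matrix factorizations of `W` over `T` -/
structure Fm (W : S6) (T : Type) [TopologicalSpace T] where
  κ : Type
  [fκ : Fintype κ]
  [dκ : DecidableEq κ]
  q : κ → ℤ
  e : T → Matrix κ κ ℂ
  D : T → Matrix κ κ S6
  pf : PF (fun _ : T => W) q e D

attribute [instance] Fm.fκ Fm.dκ

namespace Fm

variable {W : S6} {T T' : Type} [TopologicalSpace T] [TopologicalSpace T'] (U U' : Fm W T)
  {ι : Type} [Fintype ι] [DecidableEq ι] {p : ι → ℤ} {d : Matrix ι ι S6}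

/-- pull-back -/
def pb (f : C(T', T)) : Fm W T' := ⟨U.κ, U.q, U.e ∘ f, U.D ∘ f, U.pf.comp f.continuous⟩

/-- the constant family -/
def const (hW : P287Z.O.V.Hg 6 W) (hd : IsMF W p d) (T : Type) [TopologicalSpace T] : Fm W T :=
  ⟨ι, p, fun _ => 1, fun _ => d, (Fa.IsMF.isPF hd).const hW T⟩

/-- the member at `t` is homotopy equivalent to `(p, d)` -/
def At (t : T) (p : ι → ℤ) (d : Matrix ι ι S6) : Prop :=
  ∀ (n : ℕ) (r : Fin n → ℤ) (a : Matrix (Fin n) U.κ ℂ) (b : Matrix U.κ (Fin n) ℂ),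
    Spl U.q (U.e t) r a b → HE r (cM a * U.D t * cM b) p d

/-- the members at `t` are orthogonal -/
def Or (t : T) : Prop := ∀ k : ℤ, ZP U.q (U.e t) (U.D t) U'.q (U'.e t) (U'.D t) (3 * k) ≤
  BP U.q (U.e t) (U.D t) U'.q (U'.e t) (U'.D t) (3 * k)

/-- a continuous closed map of families -/
structure Mp (a : T → Matrix U'.κ U.κ S6) : Prop where
  cl : ∀ t, a t ∈ ZP U.q (U.e t) (U.D t) U'.q (U'.e t) (U'.D t) 0
  ct : ∀ i j m, Continuous fun t => MvPolynomial.coeff m (a t i j)

variable [Nice T]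

/-- the Chern character of the bundle of generators of charge `u` -/
def chE (u : ℤ) : PowerSeries (Ch.Hev T) :=
  chF (Y := .triv T) 1 (fun _ => 0) fun t => Vf (fun i => U.q i = u) (U.e t) 0

/-- the Chern character of the bundle `V_U` on `T × X` -/
def chV (c : Cu W) : PowerSeries (Ch.Hev (T × XF W)) :=
  chF (Y := Dn.prS (.triv T) c.Y) ((Dn.pr2 _ c.Y).chr c.χ) (fun i => wt (U.q i))
    fun x => Vf (fun i => 2 ∣ U.q i + 0) (U.e x.1) (evM (c.x x.2) (U.D x.1))

/-- **the class of a family** -/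
def kap (c : Cu W) (k : ℕ) : KV T W :=
  (fun j => ∑ u ∈ Finset.univ.image U.q,
    al (ζ ^ u / (1 - om) ^ 3) j • (PowerSeries.coeff k (U.chE u)).1,
    prK T W (PowerSeries.coeff (k + 2) (U.chV c)).1)

end Fm

end Vale.Agent.P287T.Psi
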