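import Vale.Agent.P287T.Psi.Lin0

/-!
# The Mukai map of the moduli surface: every Hodge class is the class of a line bundle
-/

set_option linter.unusedSectionVars false

namespace Vale.Agent.P287T.Psi

open Filter Topology Module Set

variable {V : Type} [AddCommGroup V] [Module ℂ V] (J : V →ₗ[ℂ] V →ₗ[ℂ] ℂ) (Λ : Submodule ℤ V)
  (v η w : V)

section pt

variable {A A' : Type} [AddCommGroup A] [Module ℂ A] [AddCommGroup A'] [Module ℂ A']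

/-- The data at one point: period `ω`, the lattice `L` of the surface, the map `ψ`, the classes
`Sg` of type `(2, 0)` and the classes `R` of the line bundles. -/
structure Pt (ω : V) (I : A →ₗ[ℂ] A →ₗ[ℂ] ℂ) (U : Submodule ℂ A) (L : Submodule ℤ A)
    (ψ : V →ₗ[ℂ] A) (m : ℕ) (Sg : Set A) (R : Set V) : Prop where
  uni : Uni I U L
  tr : Tr J v η w ω
  iso : J ω ω = 0
  ne : ω ≠ 0
  neg : ∀ x ∈ Λ, J x v = 0 → J x η = 0 → J x ω = 0 → (J x x).re ≤ 0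
  mem : ∀ x, ψ x ∈ U
  zero : ψ v = 0
  pos : m ≠ 0
  adj : ∀ x x', ∀ l ∈ U, ∀ l' ∈ U, (∀ y, J x y = I l (ψ y)) → (∀ y, J x' y = I l' (ψ y)) →
    J x x' = m * I l l'
  sg : ∀ s ∈ Sg, s ∈ U
  sne : ∃ s ∈ Sg, s ≠ 0
  typ : ∀ s ∈ Sg, ∀ y, J y ω = 0 → I s (ψ y) = 0
  cls : ∀ x ∈ R, x ∈ Λ ∧ J x v = -1 ∧ J x x = -2 ∧ J x ω = 0
  lef : ∃ x₀ ∈ R, ∀ l ∈ L, (∀ s ∈ Sg, I s l = 0) → ∃ x ∈ R, ψ x = ψ x₀ + l
  amp : ∃ a ∈ L, (∀ s ∈ Sg, I s a = 0) ∧ 0 < (I a a).re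

/-- The comparison of two points. -/
def Flat (I : A →ₗ[ℂ] A →ₗ[ℂ] ℂ) (L : Submodule ℤ A) (ψ : V →ₗ[ℂ] A) (I' : A' →ₗ[ℂ] A' →ₗ[ℂ] ℂ)
    (U' : Submodule ℂ A') (L' : Submodule ℤ A') (ψ' : V →ₗ[ℂ] A') : Prop :=
  ∃ (g : A' →ₗ[ℂ] A) (δ : ℂ), (∀ l ∈ L', g l ∈ L) ∧
    (∀ a ∈ U', ∀ b ∈ U', I (g a) (g b) = δ * I' a b) ∧ ∀ y, J y v = 0 → ψ y = g (ψ' y)

variable {J Λ v η w} {ω ω' : V} {I : A →ₗ[ℂ] A →ₗ[ℂ] ℂ} {U : Submodule ℂ A} {L : Submodule ℤ A}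
  {ψ : V →ₗ[ℂ] A} {m : ℕ} {Sg : Set A} {R : Set V} {I' : A' →ₗ[ℂ] A' →ₗ[ℂ] ℂ} {U' : Submodule ℂ A'}
  {L' : Submodule ℤ A'} {ψ' : V →ₗ[ℂ] A'} {m' : ℕ} {Sg' : Set A'} {R' : Set V}
  (h : Base J Λ v η w) (p : Pt J Λ v η w ω I U L ψ m Sg R)
include h p

namespace Pt

theorem exists_adj {l : A} (hl : l ∈ U) :
    ∃ x, (∀ y, J x y = I l (ψ y)) ∧ J x v = 0 ∧ ψ x = (m : ℂ) • l := by
  obtain ⟨x, hx⟩ := h.rep (I l ∘ₗ ψ)
  refine ⟨x, hx, by rw [hx]; simp [p.zero], sub_eq_zero.1 (p.uni.nd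
    (U.sub_mem (p.mem x) (U.smul_mem _ hl)) fun b hb => ?_)⟩
  obtain ⟨x', hx'⟩ := h.rep (I b ∘ₗ ψ)
  have := p.adj x' x b hb l hl hx' hx
  rw [hx'] at this
  rw [p.uni.symm _ (U.sub_mem (p.mem x) (U.smul_mem _ hl)) _ hb, map_sub, map_smul, smul_eq_mul,
    ← this]
  exact sub_self _

theorem m_ne : (m : ℂ) ≠ 0 := Nat.cast_ne_zero.2 p.pos

theorem surj {l : A} (hl : l ∈ U) : ∃ x, J x v = 0 ∧ ψ x = l := by
  obtain ⟨x, -, h2, h3⟩ := p.exists_adj h hl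
  exact ⟨(m : ℂ)⁻¹ • x, by simp [h2], by rw [map_smul, h3, inv_smul_smul₀ (p.m_ne h)]⟩

theorem ker_om {y : V} (hy : ψ y = 0) : J y ω = 0 := by
  obtain ⟨s, hs, s0⟩ := p.sne
  obtain ⟨x, h1, -, h3⟩ := p.exists_adj h (p.sg s hs)
  obtain ⟨c, rfl⟩ := h.orth ![ω] (y := x) fun z hz => (h1 z).trans (p.typ s hs z (hz 0))
  have c0 : c 0 ≠ 0 := fun e => smul_ne_zero (p.m_ne h) s0 (by rw [← h3]; simp [e])
  have := h1 y
  rw [hy, map_zero] at this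
  rw [h.symm]
  simpa [c0] using this

theorem flat_ker (p' : Pt J Λ v η w ω' I' U' L' ψ' m' Sg' R') (f : Flat J v I L ψ I' U' L' ψ')
    {y : V} (hv : J y v = 0) (hy : ψ y = 0) : J y ω' = 0 := by
  obtain ⟨g, δ, -, f2, f3⟩ := f
  have d0 : δ ≠ 0 := by
    rintro rfl
    obtain ⟨s, hs, s0⟩ := p.sne
    refine s0 (p.uni.nd (p.sg s hs) fun b hb => ?_)
    obtain ⟨x, x1, rfl⟩ := p.surj h (p.sg s hs)
    obtain ⟨z, z1, rfl⟩ := p.surj h hb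
    rw [f3 x x1, f3 z z1, f2 _ (p'.mem x) _ (p'.mem z), zero_mul]
  refine p'.ker_om h (p'.uni.nd (p'.mem y) fun b hb => (mul_eq_zero.1 ?_).resolve_left d0)
  rw [← f2 _ (p'.mem y) b hb, ← f3 y hv, hy, map_zero, LinearMap.zero_apply]

theorem ker_eq (k : ∀ y, J y v = 0 → ψ y = 0 → ∃ a b : ℂ, y = a • η + b • v) {y : V}
    (hv : J y v = 0) (hy : ψ y = 0) : ∃ b : ℂ, y = b • v := by
  obtain ⟨a, b, rfl⟩ := k y hv hy
  by_cases a0 : a = 0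
  · exact ⟨b, by simp [a0]⟩
  have e0 : ψ η = 0 := by simpa [p.zero, a0] using hy
  obtain ⟨c, c1, c2, c3⟩ := p.amp
  obtain ⟨x₀, x1, x2⟩ := p.lef
  obtain ⟨x, x3, x4⟩ := x2 c c1 c2
  obtain ⟨y1, y2, -, y3⟩ := p.cls x₀ x1
  obtain ⟨z1, z2, -, z3⟩ := p.cls x x3
  obtain ⟨e, he⟩ := h.int η h.mem η h.mem
  obtain ⟨n, hn⟩ := h.int _ (Λ.sub_mem z1 y1) η h.mem
  obtain ⟨φ, f1, f2, f3⟩ := p.exists_adj h (p.uni.le c1)
  obtain ⟨ξ, hξ⟩ : ∃ ξ, ξ = (e : ℂ) • (x - x₀) - (n : ℂ) • η := ⟨_, rfl⟩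
  have k1 : ξ ∈ Λ := by
    rw [hξ, Int.cast_smul_eq_zsmul, Int.cast_smul_eq_zsmul]
    exact Λ.sub_mem (Λ.smul_mem _ (Λ.sub_mem z1 y1)) (Λ.smul_mem _ h.mem)
  have k2 : J ξ v = 0 := by simp [hξ, y2, z2, h.ev]
  have k3 : J ξ η = 0 := by
    rw [hξ, map_sub, map_smul, map_smul, LinearMap.sub_apply, LinearMap.smul_apply,
      LinearMap.smul_apply, hn, he, smul_eq_mul, smul_eq_mul]
    ring
  have k4 : J ξ ω = 0 := by simp [hξ, y3, z3, h.symm η ω, p.tr.1]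
  have k5 : ψ ξ = (e : ℂ) • c := by simp [hξ, e0, x4]
  have k6 : J φ η = 0 := by rw [f1, e0, map_zero]
  obtain ⟨a', b', k7⟩ := k ((m : ℂ) • ξ - (e : ℂ) • φ) (by simp [k2, f2])
    (by rw [map_sub, map_smul, map_smul, k5, f3, smul_comm, sub_self])
  have k8 : a' = 0 := by simpa [k3, k6, h.symm v η, h.ev, h.ee] using congrArg (J · η) k7.symm
  have k9 := congrArg (J · ξ) k7
  simp only [k8, zero_smul, zero_add, map_sub, map_smul, LinearMap.sub_apply, LinearMap.smul_apply,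
    smul_eq_mul, h.symm v ξ, k2, mul_zero, f1, k5] at k9
  have k10 := congrArg Complex.re (sub_eq_zero.1 k9)
  have e1 : (e : ℝ) ≠ 0 := by
    have : (e : ℂ) ≠ 0 := he ▸ h.ee
    exact_mod_cast this
  simp only [Complex.mul_re, Complex.natCast_re, Complex.natCast_im, zero_mul, sub_zero,
    Complex.intCast_re, Complex.intCast_im] at k10
  have := p.neg ξ k1 k2 k3 k4
  have := mul_pos (mul_self_pos.2 e1) c3
  nlinarith [Nat.cast_nonneg (α := ℝ) m]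

variable (k : ∀ y, J y v = 0 → ψ y = 0 → ∃ b : ℂ, y = b • v)
include k

theorem isom {x y : V} (hx : J x v = 0) (hy : J y v = 0) : I (ψ x) (ψ y) = m * J x y := by
  obtain ⟨φ, f1, f2, f3⟩ := p.exists_adj h (p.mem x)
  obtain ⟨b, e⟩ := k ((m : ℂ) • x - φ) (by simp [hx, f2]) (by rw [map_sub, map_smul, f3, sub_self])
  have := congrArg (J · y) e
  simp only [map_sub, map_smul, LinearMap.sub_apply, LinearMap.smul_apply, smul_eq_mul,
    h.symm v y, hy, mul_zero, f1] at this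
  exact (sub_eq_zero.1 this).symm

theorem five {n : ℕ} {ℓ : Fin n → A} (hU : Submodule.span ℂ (range ℓ) = U) : 5 ≤ n := by
  choose y y1 y2 using fun i => p.surj h (hU.le (Submodule.subset_span ⟨i, rfl⟩))
  have k2 : Submodule.span ℂ (range (Fin.cons v (Fin.cons w y) : Fin (n + 2) → V)) = ⊤ :=
    eq_top_iff.2 fun x _ => by
      obtain ⟨c, hc⟩ := (Submodule.mem_span_range_iff_exists_fun ℂ).1
        (hU.ge (p.mem (x - (J x v / J v w) • w)))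
      obtain ⟨b, e⟩ := k (x - (J x v / J v w) • w - ∑ i, c i • y i)
        (by simp [y1, h.symm w v, h.vw]) (by rw [map_sub, ← hc]; simp [y2])
      rw [show x = b • v + (J x v / J v w) • w + ∑ i, c i • y i by rw [← e]; abel]
      exact add_mem (add_mem (Submodule.smul_mem _ _ (Submodule.subset_span ⟨0, rfl⟩))
        (Submodule.smul_mem _ _ (Submodule.subset_span ⟨1, rfl⟩))) (Submodule.sum_mem _ fun i _ =>
          Submodule.smul_mem _ _ (Submodule.subset_span ⟨i.succ.succ, rfl⟩))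
  have k3 := finrank_range_le_card (R := ℂ) (Fin.cons v (Fin.cons w y) : Fin (n + 2) → V)
  rw [Set.finrank, k2, finrank_top, Fintype.card_fin] at k3
  have := h.dim
  omega

theorem real_of {y : V} (hv : J y v = 0) (hL : ψ y ∈ L) (hω : J y ω = 0) :
    ∃ x ∈ Λ, ∃ b : ℂ, y = x + b • v := by
  obtain ⟨x₀, x1, x2⟩ := p.lef
  obtain ⟨x, x3, x4⟩ := x2 _ hL fun s hs => p.typ s hs y hω
  obtain ⟨y1, y2, -, -⟩ := p.cls x₀ x1
  obtain ⟨z1, z2, -, -⟩ := p.cls x x3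
  obtain ⟨b, e⟩ := k (y - (x - x₀)) (by simp [hv, y2, z2]) (by simp [x4])
  exact ⟨x - x₀, Λ.sub_mem z1 y1, b, by rw [← e]; abel⟩

theorem mem_R (hΛ : ∀ x ∈ Λ, J x v = 0 → ψ x ∈ L) {y : V} (h1 : y ∈ Λ) (h2 : J y ω = 0)
    (h3 : J y v = -1) (h4 : J y y = -2) : y ∈ R := by
  obtain ⟨x₀, x1, x2⟩ := p.lef
  obtain ⟨y1, y2, -, y3⟩ := p.cls x₀ x1
  obtain ⟨x, x3, x4⟩ := x2 _ (hΛ _ (Λ.sub_mem h1 y1) (by simp [h3, y2])) fun s hs =>
    p.typ s hs _ (by simp [h2, y3])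
  obtain ⟨-, z2, z3, -⟩ := p.cls x x3
  obtain ⟨b, e⟩ := k (x - y) (by simp [h3, z2]) (by simp [x4])
  obtain rfl : x = y + b • v := by rw [← e]; abel
  have : b = 0 := by
    simp only [map_add, map_smul, LinearMap.add_apply, LinearMap.smul_apply, smul_eq_mul, h4, h3,
      h.symm v y, h.vv] at z3
    linear_combination -z3 / 2
  simpa [this] using x3

variable (p' : Pt J Λ v η w ω' I' U' L' ψ' m' Sg' R')
  (k' : ∀ y, J y v = 0 → ψ' y = 0 → ∃ b : ℂ, y = b • v) (f : Flat J v I L ψ I' U' L' ψ')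
include p' k' f

theorem flat_le : m' ≤ m := by
  obtain ⟨g, δ, f1, f2, f3⟩ := f
  obtain ⟨s, hs, s0⟩ := p'.sne
  obtain ⟨n, rfl⟩ := p'.uni.int_of_smul ⟨s, p'.sg s hs, s0⟩ (δ := δ) fun a ha =>
    p'.uni.dual _ (U'.smul_mem _ (p'.uni.le ha)) fun b hb => by
      rw [map_smul, LinearMap.smul_apply, smul_eq_mul, ← f2 a (p'.uni.le ha) b (p'.uni.le hb)]
      exact p.uni.int _ (f1 a ha) _ (f1 b hb)
  have e := p.isom h k h.ev h.ev
  rw [f3 η h.ev, f2 _ (p'.mem η) _ (p'.mem η), p'.isom h k' h.ev h.ev, ← mul_assoc] at e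
  have e' : (m : ℤ) = m' * n := by
    have : (m : ℂ) = m' * n := (mul_right_cancel₀ h.ee e).symm.trans (mul_comm _ _)
    exact_mod_cast this
  exact Nat.le_of_dvd (Nat.pos_of_ne_zero p.pos) (Int.natCast_dvd_natCast.1 ⟨n, e'⟩)

theorem flat_int (e : m' = m) {y : V} (hv : J y v = 0) (hL : ψ y ∈ L) : ψ' y ∈ L' := by
  obtain ⟨g, δ, f1, -, f3⟩ := f
  refine p'.uni.dual _ (p'.mem y) fun b hb => ?_
  obtain ⟨z, z1, rfl⟩ := p'.surj h (p'.uni.le hb)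
  rw [p'.isom h k' hv z1, e, ← p.isom h k hv z1, f3 z z1]
  exact p.uni.int _ hL _ (f1 _ hb)

end Pt

end pt

/-- Isotropic curves through a period consist of periods of nearby points. -/
def Opn {D : Type} [TopologicalSpace D] (ω : D → V) : Prop :=
  ∀ t, ∀ O ∈ 𝓝 t, ∀ e f, Tr J v η w e → Tr J v η w f →
    (∀ s : ℂ, J (ω t + s • e + s ^ 2 • f) (ω t + s • e + s ^ 2 • f) = 0) →
    ∀ᶠ s in 𝓝 (0 : ℂ), ∃ t' ∈ O, ∃ c : ℂ, ω t + s • e + s ^ 2 • f = c • ω t'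

section fam

variable {J Λ v η w} {D : Type} [TopologicalSpace D] {A : D → Type} [∀ t, AddCommGroup (A t)]
  [∀ t, Module ℂ (A t)] {ω : D → V} {I : ∀ t, A t →ₗ[ℂ] A t →ₗ[ℂ] ℂ} {U : ∀ t, Submodule ℂ (A t)}
  {L : ∀ t, Submodule ℤ (A t)} {ψ : ∀ t, V →ₗ[ℂ] A t} {m : D → ℕ} {Sg : ∀ t, Set (A t)}
  {R : D → Set V} (h : Base J Λ v η w)
  (p : ∀ t, Pt J Λ v η w (ω t) (I t) (U t) (L t) (ψ t) (m t) (Sg t) (R t)) (o : Opn J v η w ω)
  (f : ∀ t, ∀ᶠ t' in 𝓝 t, Flat J v (I t) (L t) (ψ t) (I t') (U t') (L t') (ψ t'))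
include h p o f

/-- The kernel of the Mukai map. -/
theorem ker_psi (t : D) (y : V) (hv : J y v = 0) (hy : ψ t y = 0) : ∃ b : ℂ, y = b • v := by
  refine (p t).ker_eq h (fun y hv hy => ?_) hv hy
  obtain ⟨ω', q⟩ := h.exists_hyp (p t).tr (p t).iso (p t).ne
  have k : ∀ e, Tr J v η w e → J e (ω t) = 0 → J e ω' = 0 →
      J y (ω t) = 0 ∧ J y e = 0 ∧ -(J e e / 2) * J y ω' = 0 := fun e e1 e2 e3 =>
    quad_zero ((o t _ (f t) e _ e1 (q.smul _) (h.curve q e2 e3)).mono fun s ⟨t', k1, c, k2⟩ => by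
      have := congrArg (J y) k2
      rw [map_smul, (p t).flat_ker h (p t') k1 hv hy, smul_zero] at this
      simpa only [map_add, map_smul, smul_eq_mul] using this)
  obtain ⟨e, e1, e2, e3, e4⟩ := h.exists_aniso q
  obtain ⟨k1, -, k2⟩ := k e e1 e2 e3
  exact h.perp hv (h.perp' q k1 ((mul_eq_zero.1 k2).resolve_left (by simpa using e4))
    fun e e1 e2 e3 => (k e e1 e2 e3).2.1)

/-- The visible classes generate the lattice. -/
theorem gen (t : D) {O : Set D} (hO : O ∈ 𝓝 t)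
    (hv : ∀ t' ∈ O, ∀ y, J y v = 0 → ψ t y ∈ L t → ψ t' y ∈ L t') {l : A t} (hl : l ∈ L t) :
    ∃ x ∈ Λ, J x v = 0 ∧ ψ t x = l := by
  obtain ⟨n, ℓ, h1, h2, h3⟩ := (p t).uni.bas
  choose y y1 y2 using fun i => (p t).surj h (h2.le (Submodule.subset_span ⟨i, rfl⟩))
  obtain ⟨ω', q⟩ := h.exists_hyp (p t).tr (p t).iso (p t).ne
  obtain ⟨r, r1, r2⟩ := exists_real ((p t).five h (ker_psi h p o f t) h2) h1
    (fun i => J (y i) (ω t)) (ψ t η) (ψ t (ω t))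
  have Y1 : ∀ (c : Fin n → ℂ) x, J (∑ i, c i • y i) x = ∑ i, c i * J (y i) x := fun c x => by
    simp [LinearMap.sum_apply]
  have Y2 : ∀ c : Fin n → ℂ, ψ t (∑ i, c i • y i) = ∑ i, c i • ℓ i := fun c => by simp [y2]
  have Y3 : ∀ c : Fin n → ℂ, J (∑ i, c i • y i) v = 0 := fun c => by simp [y1]
  obtain ⟨e, e1, e2, e3, e4⟩ : ∃ e, Tr J v η w e ∧ J e (ω t) = 0 ∧ J e ω' = 0 ∧
      ∑ i, (r i : ℂ) * J (y i) e ≠ 0 := by
    by_contra! k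
    obtain ⟨a, b, e⟩ := h.perp (y := ∑ i, (r i : ℂ) • y i - J (∑ i, (r i : ℂ) • y i) ω' • ω t)
      (by simp [y1, q.t.2.1]) (h.perp' q (by rw [map_sub, LinearMap.sub_apply, Y1, r1]; simp [q.a])
        (by simp [q.b]) fun e e1 e2 e3 => by
          rw [map_sub, LinearMap.sub_apply, Y1, k e e1 e2 e3]
          simp [h.symm (ω t) e, e2])
    refine r2 ?_
    rw [← Y2, sub_eq_iff_eq_add.1 e, map_add, map_add, map_smul, map_smul, map_smul, (p t).zero,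
      smul_zero, add_zero]
    exact add_mem (Submodule.smul_mem _ _ (Submodule.subset_span ⟨0, rfl⟩))
      (Submodule.smul_mem _ _ (Submodule.subset_span ⟨1, rfl⟩))
  have C : ∀ x, ContinuousAt (fun r : Fin n → ℝ => ∑ i, (r i : ℂ) * J (y i) x) r := fun x =>
    Continuous.continuousAt (by fun_prop)
  have N := small_root (C (ω t)) (C e) (C (-(J e e / 2) • ω')) r1 e4
    (o t O hO e _ e1 (q.smul _) (h.curve q e2 e3))
  have key : ∀ (j : ℝ) (c : Fin n → ℤ), j ≠ 0 → (∃ s ∈ {s : ℂ | ∃ t' ∈ O, ∃ c : ℂ,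
      ω t + s • e + s ^ 2 • -(J e e / 2) • ω' = c • ω t'}, ∑ i, ((c i / j : ℝ) : ℂ) * J (y i) (ω t) +
        s * ∑ i, ((c i / j : ℝ) : ℂ) * J (y i) e +
        s ^ 2 * ∑ i, ((c i / j : ℝ) : ℂ) * J (y i) (-(J e e / 2) • ω') = 0) →
      ∃ x ∈ Λ, J x v = 0 ∧ ψ t x = ∑ i, c i • ℓ i := fun j c j0 ⟨s, ⟨t', t1, c', t2⟩, t3⟩ => by
    have c0 : c' ≠ 0 := by
      rintro rfl
      simpa [q.b, e3, q.c] using congrArg (J · ω') t2
    have j1 : (j : ℂ) ≠ 0 := Complex.ofReal_ne_zero.2 j0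
    have t4 : J (∑ i, ((c i / j : ℝ) : ℂ) • y i) (ω t') = 0 := by
      have := congrArg (J (∑ i, ((c i / j : ℝ) : ℂ) • y i)) t2
      rw [map_add, map_add, map_smul, map_smul, Y1, Y1, Y1, smul_eq_mul, smul_eq_mul, t3,
        map_smul] at this
      exact (smul_eq_zero.1 this.symm).resolve_left c0
    have t5 : J (∑ i, (c i : ℂ) • y i) (ω t') = 0 := by
      rw [← mul_zero (j : ℂ), ← t4, Y1, Y1, Finset.mul_sum]
      refine Finset.sum_congr rfl fun i _ => ?_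
      push_cast
      field_simp
    have t6 : ψ t (∑ i, (c i : ℂ) • y i) = ∑ i, c i • ℓ i := by
      rw [Y2]
      simp only [Int.cast_smul_eq_zsmul]
    obtain ⟨x, x1, b, x2⟩ := (p t').real_of h (ker_psi h p o f t') (Y3 _) (hv t' t1 _ (Y3 _)
      (t6 ▸ h3.le ((Submodule.mem_span_range_iff_exists_fun ℤ).2 ⟨c, rfl⟩))) t5
    refine ⟨x, x1, ?_, ?_⟩
    · simpa [h.vv] using (congrArg (J · v) x2).symm.trans (Y3 _)
    · rw [← t6, x2, map_add, map_smul, (p t).zero, smul_zero, add_zero]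
  obtain ⟨c, rfl⟩ := (Submodule.mem_span_range_iff_exists_fun ℤ).1 (h3.ge hl)
  obtain ⟨j, c', j0, c1, c2⟩ := cone_gen N c
  obtain ⟨x, x1, x2, x3⟩ := key j c' j0 c1
  obtain ⟨z, z1, z2, z3⟩ := key j (fun i => c' i + c i) j0 c2
  exact ⟨z - x, Λ.sub_mem z1 x1, by simp [x2, z2], by
    simp [x3, z3, add_smul, Finset.sum_add_distrib]⟩

/-- **The Mukai map is integral.** -/
theorem int_psi (t : D) (x : V) (hx : x ∈ Λ) (hv : J x v = 0) : ψ t x ∈ L t := by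
  have k := ker_psi h p o f
  obtain ⟨O, O1, O2, O3⟩ := mem_nhds_iff.1 (f t)
  obtain ⟨t₁, t1, t2⟩ := (measure m).wf.has_min O ⟨t, O3⟩
  obtain ⟨g, δ, f1, -, f3⟩ := O1 t1
  rw [f3 x hv]
  refine f1 _ ((p t₁).uni.dual _ ((p t₁).mem x) fun b hb => ?_)
  obtain ⟨z, z1, z2, rfl⟩ := gen h p o f t₁ (inter_mem (O2.mem_nhds t1) (f t₁))
    (fun t' ht' y => (p t₁).flat_int h (k t₁) (p t') (k t') ht'.2 (le_antisymm
      ((p t₁).flat_le h (k t₁) (p t') (k t') ht'.2) (not_lt.1 (t2 t' ht'.1)))) hb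
  obtain ⟨n, e⟩ := h.int x hx z z1
  exact ⟨m t₁ * n, by rw [(p t₁).isom h (k t₁) hv z2, e]; push_cast; rfl⟩

/-- **Realisation**: a spherical Hodge class of rank one is the class of a line bundle. -/
theorem real (t : D) {y : V} (h1 : y ∈ Λ) (h2 : J y (ω t) = 0) (h3 : J y v = -1)
    (h4 : J y y = -2) : y ∈ R t :=
  (p t).mem_R h (ker_psi h p o f t) (int_psi h p o f t) h1 h2 h3 h4

end fam

end Vale.Agent.P287T.Psi
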