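import Mathlib.Analysis.SpecialFunctions.Pow.Continuity
import Mathlib.LinearAlgebra.Dual.Lemmas
import Mathlib.LinearAlgebra.LinearIndependent.BaseChange
import Mathlib.LinearAlgebra.Complex.FiniteDimensional
import Mathlib.Topology.MetricSpace.Pseudo.Pi

/-!
# The Mukai map of the moduli surface: lattices and quadrics
-/

set_option linter.style.haveILetI false

namespace Vale.Agent.P287T.Psi

open Filter Topology Module Set

/-- `L` is a unimodular lattice in `U` for the form `I`. -/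
structure Uni {A : Type} [AddCommGroup A] [Module ℂ A] (I : A →ₗ[ℂ] A →ₗ[ℂ] ℂ)
    (U : Submodule ℂ A) (L : Submodule ℤ A) : Prop where
  bas : ∃ (n : ℕ) (ℓ : Fin n → A), LinearIndependent ℂ ℓ ∧ Submodule.span ℂ (range ℓ) = U ∧
    Submodule.span ℤ (range ℓ) = L
  symm : ∀ a ∈ U, ∀ b ∈ U, I a b = I b a
  int : ∀ a ∈ L, ∀ b ∈ L, ∃ n : ℤ, I a b = n
  dual : ∀ a ∈ U, (∀ b ∈ L, ∃ n : ℤ, I a b = n) → a ∈ L

namespace Uni

variable {A : Type} [AddCommGroup A] [Module ℂ A] {I : A →ₗ[ℂ] A →ₗ[ℂ] ℂ} {U : Submodule ℂ A}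
  {L : Submodule ℤ A} (h : Uni I U L)
include h

theorem le {a : A} (ha : a ∈ L) : a ∈ U := by
  obtain ⟨n, ℓ, -, rfl, rfl⟩ := h.bas
  exact Submodule.span_le_restrictScalars ℤ ℂ _ ha

/-- Only integer multiples preserve the lattice. -/
theorem int_of_smul {δ : ℂ} (hU : ∃ a ∈ U, a ≠ 0) (hδ : ∀ a ∈ L, δ • a ∈ L) : ∃ n : ℤ, δ = n := by
  classical
  obtain ⟨n, ℓ, h1, rfl, rfl⟩ := h.bas
  obtain ⟨a, ha, ha0⟩ := hU
  obtain ⟨i⟩ : Nonempty (Fin n) := by_contra fun e => by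
    haveI := not_nonempty_iff.1 e
    exact ha0 (by simpa [range_eq_empty] using ha)
  obtain ⟨k, hk⟩ := (Submodule.mem_span_range_iff_exists_fun ℤ).1
    (hδ _ (Submodule.subset_span ⟨i, rfl⟩))
  have := Fintype.linearIndependent_iff.1 h1 (fun j => (k j : ℂ) - if j = i then δ else 0) (by
    simp only [sub_smul, Finset.sum_sub_distrib, Int.cast_smul_eq_zsmul, hk, ite_smul, zero_smul,
      Finset.sum_ite_eq', Finset.mem_univ, if_true, sub_self]) i
  exact ⟨k i, by simpa [sub_eq_zero, eq_comm] using this⟩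

theorem nd {a : A} (ha : a ∈ U) (h0 : ∀ b ∈ U, I a b = 0) : a = 0 := by
  have k : ∀ c : ℂ, c • a ∈ L := fun c =>
    h.dual _ (U.smul_mem c ha) fun b hb => ⟨0, by simp [h0 b (h.le hb)]⟩
  obtain ⟨n, ℓ, h1, rfl, rfl⟩ := h.bas
  obtain ⟨r, rfl⟩ := (Submodule.mem_span_range_iff_exists_fun ℂ).1 ha
  refine Finset.sum_eq_zero fun i _ => ?_
  by_contra e
  have e' : r i ≠ 0 := fun e' => e (by rw [e', zero_smul])
  obtain ⟨c, hc⟩ := (Submodule.mem_span_range_iff_exists_fun ℤ).1 (k ((2 * r i)⁻¹))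
  have := Fintype.linearIndependent_iff.1 h1 (fun j => (c j : ℂ) - (2 * r i)⁻¹ * r j) (by
    simp only [sub_smul, Finset.sum_sub_distrib, Int.cast_smul_eq_zsmul, hc, mul_smul,
      ← Finset.smul_sum, sub_self]) i
  have h2 : ((2 * c i : ℤ) : ℂ) = (1 : ℤ) := by
    push_cast
    rw [sub_eq_zero.1 this]
    field_simp
  have := Int.cast_injective h2
  omega

end Uni

theorem quad_zero {a b c : ℂ} (h : ∀ᶠ s in 𝓝 (0 : ℂ), a + s * b + s ^ 2 * c = 0) :
    a = 0 ∧ b = 0 ∧ c = 0 := by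
  have h0 : a = 0 := by simpa using h.self_of_nhds
  have h1 : ∀ᶠ s in 𝓝 (0 : ℂ), a + -s * b + (-s) ^ 2 * c = 0 :=
    (show Tendsto (fun s : ℂ => -s) (𝓝 0) (𝓝 0) by simpa using continuous_neg.tendsto (0 : ℂ))
      |>.eventually h
  obtain ⟨s, ⟨e1, e2⟩, e3⟩ := (((h.and h1).filter_mono (nhdsWithin_le_nhds (s := {0}ᶜ))).and
    self_mem_nhdsWithin).exists
  have e3 : s ≠ 0 := e3
  have e4 : s ^ 2 * c = 0 := by linear_combination (e1 + e2) / 2 - h0
  have e5 : s * b = 0 := by linear_combination (e1 - e2) / 2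
  exact ⟨h0, (mul_eq_zero.1 e5).resolve_left e3,
    (mul_eq_zero.1 e4).resolve_left (pow_ne_zero 2 e3)⟩

/-- The small root of a quadratic equation. -/
theorem small_root {X : Type} [TopologicalSpace X] {a b c : X → ℂ} {x : X} (ha : ContinuousAt a x)
    (hb : ContinuousAt b x) (hc : ContinuousAt c x) (a0 : a x = 0) (b0 : b x ≠ 0) {N : Set ℂ}
    (hN : N ∈ 𝓝 (0 : ℂ)) : ∀ᶠ y in 𝓝 x, ∃ s ∈ N, a y + s * b y + s ^ 2 * c y = 0 := by
  let u : X → ℂ := fun y => (1 - 4 * a y * c y / b y ^ 2) ^ ((2 : ℂ)⁻¹)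
  have e : 1 - 4 * a x * c x / b x ^ 2 = 1 := by simp [a0]
  have hu : ContinuousAt u x := ContinuousAt.comp (g := fun z : ℂ => z ^ ((2 : ℂ)⁻¹))
    (continuousAt_cpow_const (by rw [e]; exact Complex.one_mem_slitPlane))
    (continuousAt_const.sub (((continuousAt_const.mul ha).mul hc).div (hb.pow 2) (pow_ne_zero 2 b0)))
  have u0 : 1 + u x ≠ 0 := by
    simp only [u, e, Complex.one_cpow]
    norm_num
  have hs : ContinuousAt (fun y => -2 * a y / (b y * (1 + u y))) x :=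
    (continuousAt_const.mul ha).div (hb.mul (continuousAt_const.add hu)) (mul_ne_zero b0 u0)
  filter_upwards [hs.eventually (show ∀ᶠ s in 𝓝 _, s ∈ N by simpa [a0] using hN),
    hb.eventually_ne b0, (continuousAt_const.add hu).eventually_ne u0] with y e1 e2 e3
  refine ⟨_, e1, ?_⟩
  have e4 : u y ^ 2 = 1 - 4 * a y * c y / b y ^ 2 := Complex.cpow_ofNat_inv_pow _ 2
  have e5 : 4 * a y * c y = (1 - u y ^ 2) * b y ^ 2 := by
    rw [e4]
    field_simp
    ring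
  have e3 : 1 + u y ≠ 0 := e3
  field_simp
  linear_combination a y * e5

/-- The integral points of an open cone generate the lattice. -/
theorem cone_gen {n : ℕ} {r : Fin n → ℝ} {N : Set (Fin n → ℝ)} (hN : N ∈ 𝓝 r) (k : Fin n → ℤ) :
    ∃ (j : ℝ) (k' : Fin n → ℤ), j ≠ 0 ∧ (fun i => k' i / j) ∈ N ∧
      (fun i => (k' i + k i : ℤ) / j) ∈ N := by
  obtain ⟨ε, hε, hN⟩ := Metric.mem_nhds_iff.1 hN
  set M : ℝ := 1 + ∑ i, |(k i : ℝ)| with hM
  have h0 : 0 ≤ ∑ i, |(k i : ℝ)| := Finset.sum_nonneg fun _ _ => abs_nonneg _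
  have hj : 0 < (M + 1) / ε := by positivity
  have key : ∀ c : Fin n → ℤ, (∀ i, |(c i : ℝ)| ≤ ∑ i, |(k i : ℝ)|) →
      (fun i => ((⌊(M + 1) / ε * r i⌋ + c i : ℤ) : ℝ) / ((M + 1) / ε)) ∈ N := fun c hc => by
    refine hN ((dist_pi_lt_iff hε).2 fun i => ?_)
    rw [Real.dist_eq, div_sub' hj.ne', abs_div, abs_of_pos hj, div_lt_iff₀ hj, mul_div_cancel₀ _ hε.ne']
    have h1 := Int.floor_le ((M + 1) / ε * r i)
    have h2 := Int.lt_floor_add_one ((M + 1) / ε * r i)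
    have h3 := abs_le.1 (hc i)
    push_cast
    rw [abs_lt]
    constructor <;> linarith
  refine ⟨_, fun i => ⌊(M + 1) / ε * r i⌋, hj.ne', ?_, key k fun i =>
    Finset.single_le_sum (f := fun i => |(k i : ℝ)|) (fun _ _ => abs_nonneg _) (Finset.mem_univ i)⟩
  simpa using key 0 fun _ => by simpa using h0

theorem card_le_two {A ι : Type} [AddCommGroup A] [Module ℂ A] [Fintype ι] {u : ι → A}
    (hu : LinearIndependent ℂ u) {a b : A} (h : ∀ i, u i ∈ Submodule.span ℂ (range ![a, b])) :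
    Fintype.card ι ≤ 2 := by
  haveI : FiniteDimensional ℂ (Submodule.span ℂ (range ![a, b])) :=
    FiniteDimensional.span_of_finite ℂ (finite_range _)
  rw [← finrank_span_eq_card hu]
  exact (Submodule.finrank_mono (Submodule.span_le.2 (range_subset_iff.2 h))).trans
    ((finrank_range_le_card (R := ℂ) ![a, b]).trans (by simp))

theorem exists_li {K M : Type} [Field K] [AddCommGroup M] [Module K M] [FiniteDimensional K M]
    (S : Submodule K M) : ∃ r : Fin (finrank K S) → M, LinearIndependent K r ∧ ∀ j, r j ∈ S :=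
  ⟨fun j => (finBasis K S j).1,
    (finBasis K S).linearIndependent.map' S.subtype (Submodule.ker_subtype _),
    fun j => (finBasis K S j).2⟩

theorem exists_ker {n : ℕ} (hn : 5 ≤ n) (c : Fin n → ℂ) : ∃ (k : ℕ) (r : Fin k → Fin n → ℝ),
    2 < k ∧ LinearIndependent ℝ r ∧ ∀ j, ∑ i, (r j i : ℂ) * c i = 0 := by
  obtain ⟨f, hf⟩ : ∃ f : (Fin n → ℝ) →ₗ[ℝ] ℂ, ∀ r, f r = ∑ i, (r i : ℂ) * c i :=
    ⟨Fintype.linearCombination ℝ c, fun r => by
      simp only [Fintype.linearCombination_apply, Complex.real_smul]⟩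
  have h1 := f.finrank_range_add_finrank_ker
  have h2 := (LinearMap.range f).finrank_le
  rw [Complex.finrank_real_complex] at h2
  rw [finrank_fin_fun] at h1
  obtain ⟨r, h3, h4⟩ := exists_li (LinearMap.ker f)
  exact ⟨_, r, by omega, h3, fun j => (hf _).symm.trans (LinearMap.mem_ker.1 (h4 j))⟩

/-- A real subspace of codimension two is not contained in a complex plane. -/
theorem exists_real {A : Type} [AddCommGroup A] [Module ℂ A] {n : ℕ} (hn : 5 ≤ n) {ℓ : Fin n → A}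
    (hℓ : LinearIndependent ℂ ℓ) (c : Fin n → ℂ) (a b : A) : ∃ r : Fin n → ℝ,
      ∑ i, (r i : ℂ) * c i = 0 ∧ ∑ i, (r i : ℂ) • ℓ i ∉ Submodule.span ℂ (range ![a, b]) := by
  by_contra! h
  obtain ⟨k, r, h1, h2, h3⟩ := exists_ker hn c
  have h5 := ((linearIndependent_algebraMap_comp_iff (S := ℂ)).2 h2).map'
    (Fintype.linearCombination ℂ ℓ)
    (LinearMap.ker_eq_bot.2 (linearIndependent_iff_injective_fintypeLinearCombination.1 hℓ))
  have := card_le_two h5 (a := a) (b := b) fun j => by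
    rw [Function.comp_apply, Fintype.linearCombination_apply]
    exact h _ (h3 j)
  rw [Fintype.card_fin] at this
  omega

variable {V : Type} [AddCommGroup V] [Module ℂ V]

/-- The vectors orthogonal to `η`, `v`, `w`. -/
def Tr (J : V →ₗ[ℂ] V →ₗ[ℂ] ℂ) (v η w x : V) : Prop := J x η = 0 ∧ J x v = 0 ∧ J x w = 0

/-- The lattice `Λ` with the isotropic class `v`. -/
structure Base (J : V →ₗ[ℂ] V →ₗ[ℂ] ℂ) (Λ : Submodule ℤ V) (v η w : V) : Prop where
  symm : ∀ x y, J x y = J y x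
  nd : ∀ x, (∀ y, J x y = 0) → x = 0
  dim : 7 ≤ finrank ℂ V
  int : ∀ x ∈ Λ, ∀ y ∈ Λ, ∃ n : ℤ, J x y = n
  mem : η ∈ Λ
  vv : J v v = 0
  ev : J η v = 0
  ew : J η w = 0
  ee : J η η ≠ 0
  vw : J v w ≠ 0

/-- `ω`, `ω'` is a hyperbolic pair in `T`. -/
structure Hyp (J : V →ₗ[ℂ] V →ₗ[ℂ] ℂ) (v η w ω ω' : V) : Prop where
  t : Tr J v η w ω
  t' : Tr J v η w ω'
  a : J ω ω = 0
  b : J ω ω' = 1
  c : J ω' ω' = 0

namespace Base

variable {J : V →ₗ[ℂ] V →ₗ[ℂ] ℂ} {Λ : Submodule ℤ V} {v η w ω ω' : V} (h : Base J Λ v η w)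
include h

theorem fin : FiniteDimensional ℂ V := FiniteDimensional.of_finrank_pos (by have := h.dim; omega)

theorem rep (φ : V →ₗ[ℂ] ℂ) : ∃ x, ∀ y, J x y = φ y := by
  haveI := h.fin
  obtain ⟨x, hx⟩ := (LinearMap.injective_iff_surjective_of_finrank_eq_finrank (f := J)
    Subspace.dual_finrank_eq.symm).1 ((injective_iff_map_eq_zero _).2 fun x e =>
      h.nd x fun y => by rw [e]; rfl) φ
  exact ⟨x, fun y => by rw [hx]⟩

theorem orth {ι : Type} [Fintype ι] (u : ι → V) {y : V}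
    (hy : ∀ x, (∀ i, J x (u i) = 0) → J y x = 0) : ∃ c : ι → ℂ, y = ∑ i, c i • u i := by
  obtain ⟨c, hc⟩ := (Submodule.mem_span_range_iff_exists_fun ℂ).1
    (mem_span_of_iInf_ker_le_ker (L := fun i => J (u i)) (K := J y) fun x hx =>
      hy x fun i => (h.symm _ _).trans ((Submodule.mem_iInf _).1 hx i))
  exact ⟨c, sub_eq_zero.1 (h.nd _ fun z => by rw [map_sub, ← hc]; simp)⟩

theorem perp {y : V} (hv : J y v = 0) (hy : ∀ x, Tr J v η w x → J y x = 0) :
    ∃ a b : ℂ, y = a • η + b • v := by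
  obtain ⟨c, rfl⟩ := h.orth ![η, v, w] fun x hx => hy x ⟨hx 0, hx 1, hx 2⟩
  have : c 2 = 0 := by simpa [Fin.sum_univ_three, h.ev, h.vv, h.symm w v, h.vw] using hv
  exact ⟨c 0, c 1, by simp [Fin.sum_univ_three, this]⟩

theorem tnd {y : V} (hT : Tr J v η w y) (hy : ∀ x, Tr J v η w x → J y x = 0) : y = 0 := by
  obtain ⟨a, b, rfl⟩ := h.perp hT.2.1 hy
  have h1 : a = 0 := by simpa [h.symm v η, h.ev, h.ee] using hT.1
  have h2 : b = 0 := by simpa [h.ew, h.vw] using hT.2.2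
  simp [h1, h2]

theorem exists_hyp (hT : Tr J v η w ω) (h0 : J ω ω = 0) (hne : ω ≠ 0) :
    ∃ ω', Hyp J v η w ω ω' := by
  obtain ⟨x, hx, e⟩ : ∃ x, Tr J v η w x ∧ J ω x ≠ 0 := by
    by_contra! k
    exact hne (h.tnd hT k)
  refine ⟨(J ω x)⁻¹ • x - (J x x / (2 * J ω x ^ 2)) • ω, hT, ⟨?_, ?_, ?_⟩, h0, ?_, ?_⟩
  · simp [hx.1, hT.1]
  · simp [hx.2.1, hT.2.1]
  · simp [hx.2.2, hT.2.2]
  · simp [h0, e]
  · simp only [map_sub, map_smul, LinearMap.sub_apply, LinearMap.smul_apply, smul_eq_mul, h0,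
      h.symm x ω]
    field_simp
    ring

/-- The projection to the orthogonal of the pair. -/
theorem proj (p : Hyp J v η w ω ω') {x : V} (hx : Tr J v η w x) :
    Tr J v η w (x - J x ω' • ω - J x ω • ω') ∧ J (x - J x ω' • ω - J x ω • ω') ω = 0 ∧
      J (x - J x ω' • ω - J x ω • ω') ω' = 0 := by
  refine ⟨⟨?_, ?_, ?_⟩, ?_, ?_⟩
  · simp [hx.1, p.t.1, p.t'.1]
  · simp [hx.2.1, p.t.2.1, p.t'.2.1]
  · simp [hx.2.2, p.t.2.2, p.t'.2.2]
  · simp [p.a, h.symm ω' ω, p.b]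
  · simp [p.b, p.c]

theorem perp' (p : Hyp J v η w ω ω') {y : V} (h1 : J y ω = 0) (h2 : J y ω' = 0)
    (h3 : ∀ e, Tr J v η w e → J e ω = 0 → J e ω' = 0 → J y e = 0) (x : V) (hx : Tr J v η w x) :
    J y x = 0 := by
  obtain ⟨k1, k2, k3⟩ := h.proj p hx
  simpa [h1, h2] using h3 _ k1 k2 k3

theorem exists_aniso (p : Hyp J v η w ω ω') :
    ∃ e, Tr J v η w e ∧ J e ω = 0 ∧ J e ω' = 0 ∧ J e e ≠ 0 := by
  by_contra! k
  have k1 : ∀ e, Tr J v η w e → J e ω = 0 → J e ω' = 0 → e = 0 := fun e a b c =>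
    h.tnd a (h.perp' p b c fun e' a' b' c' => by
      have := k (e + e') ⟨by simp [a.1, a'.1], by simp [a.2.1, a'.2.1], by simp [a.2.2, a'.2.2]⟩
        (by simp [b, b']) (by simp [c, c'])
      simp only [map_add, LinearMap.add_apply, k e a b c, k e' a' b' c', h.symm e' e] at this
      linear_combination this / 2)
  have k2 : Submodule.span ℂ (range ![η, v, w, ω, ω']) = ⊤ := eq_top_iff.2 fun y _ => by
    obtain ⟨c, rfl⟩ := h.orth ![η, v, w, ω, ω'] (y := y) fun x hx => by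
      rw [k1 x ⟨hx 0, hx 1, hx 2⟩ (hx 3) (hx 4), map_zero]
    exact Submodule.sum_mem _ fun i _ => Submodule.smul_mem _ _ (Submodule.subset_span ⟨i, rfl⟩)
  have k3 := finrank_range_le_card (R := ℂ) ![η, v, w, ω, ω']
  rw [Set.finrank, k2, finrank_top, Fintype.card_fin] at k3
  have := h.dim
  omega

theorem curve (p : Hyp J v η w ω ω') {e : V} (h1 : J e ω = 0) (h2 : J e ω' = 0) (s : ℂ) :
    J (ω + s • e + s ^ 2 • -(J e e / 2) • ω') (ω + s • e + s ^ 2 • -(J e e / 2) • ω') = 0 := by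
  simp only [map_add, map_smul, LinearMap.add_apply, LinearMap.smul_apply, smul_eq_mul, p.a, p.b,
    p.c, h.symm ω e, h.symm ω' e, h.symm ω' ω, h1, h2]
  ring

end Base

theorem Hyp.smul {J : V →ₗ[ℂ] V →ₗ[ℂ] ℂ} {v η w ω ω' : V} (p : Hyp J v η w ω ω') (c : ℂ) :
    Tr J v η w (c • ω') := ⟨by simp [p.t'.1], by simp [p.t'.2.1], by simp [p.t'.2.2]⟩

end Vale.Agent.P287T.Psi
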