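import Vale.Agent.P287T.Psi.Kv
import Vale.Agent.P287T.Rb.Defs
import Vale.Agent.P287T.Fa.Cx
import Vale.Agent.P269.Grr.NdA

/-!
# Local Koszul models of complexes of families; continuous closed maps
-/

set_option linter.unusedSectionVars false

namespace Vale.Agent.P287T.Psi

open Set Function Filter Topology Module Matrix MvPolynomial P291Z P269 P269.Ch P269.Grr
  P269.Grr.NdA P287T.Rr P287T.Cy P287T.Fa P287T.Rb P287Z.O P287Z.O.L P287Z.T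
open scoped Matrix.Norms.Operator

section loc

variable {Y : Ch.Sp} {M : Type} [AddCommGroup M] [Module ℂ M] {U : Set Y.T}

open Classical in
/-- the extension by zero -/
noncomputable def ex0 (g : U → M) (x : Y.T) : M := if h : x ∈ U then g ⟨x, h⟩ else 0

theorem ex0_eq (g : U → M) (x : U) : ex0 g x.1 = g x := dif_pos x.2

theorem ex0_cont {V N : Type} [NormedAddCommGroup V] [NormedSpace ℂ V] [NormedAddCommGroup N]
    [NormedSpace ℂ N] [FiniteDimensional ℂ N] (hU : IsOpen U) {g : U → M} (hg : WC g)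
    (l : M →ₗ[ℂ] N) (a : V →L[ℂ] ℂ) (x : U) :
    ContinuousAt (fun x => a.smulRight (l (ex0 g x))) x.1 :=
  cont_smulRight a (hU.isOpenEmbedding_subtypeVal.continuousAt_iff.1
    ((hg.map l).cont.congr fun x => congrArg l (ex0_eq g x).symm).continuousAt)

/-- the complex `K` is a model of the families `F i` with the differential `θ` -/
structure Mc (K : Cx Y) (F : ℕ → Y.T → Submodule ℂ M) (θ : Y.T → M →ₗ[ℂ] M)
    (j : ∀ i, (K.E i).W →ₗ[ℂ] M) : Prop where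
  md : ∀ i, Md (tv Y M) (F i) (K.E i) (j i)
  d : ∀ i t, ∀ w ∈ (K.E (i + 1)).F t, j i (K.d i t w) = θ t (j (i + 1) w)

/-- the boundaries -/
def Bo (F : ℕ → Y.T → Submodule ℂ M) (θ : Y.T → M →ₗ[ℂ] M) (i : ℕ) (t : Y.T) : Submodule ℂ M :=
  (F (i + 1) t).map (θ t)

variable {K : Cx Y} {F : ℕ → Y.T → Submodule ℂ M} {θ : Y.T → M →ₗ[ℂ] M}
  {j : ∀ i, (K.E i).W →ₗ[ℂ] M}

theorem Mc.bd (h : Mc K F θ j) {i : ℕ} {t : Y.T} {w : (K.E i).W} :
    w ∈ K.Bd i t ↔ j i w ∈ Bo F θ i t :=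
  ⟨fun ⟨v, hv, e⟩ => ⟨_, (h.md _).mem.2 hv, e ▸ (h.d i t v hv).symm⟩, fun ⟨_, hm, e⟩ =>
    ⟨_, (h.md _).lft_mem hm, (h.md i).inj ((h.d i t _ ((h.md _).lft_mem hm)).trans
      ((congrArg _ ((h.md _).rgt hm)).trans e))⟩⟩

theorem Mc.zy (h : Mc K F θ j) {i : ℕ} {t : Y.T} {w : (K.E (i + 1)).W} (hw : w ∈ K.Zy (i + 1) t) :
    j (i + 1) w ∈ F (i + 1) t ∧ θ t (j (i + 1) w) = 0 :=
  ⟨(h.md _).mem.2 hw.1, (h.d i t w hw.1).symm.trans ((congrArg _ hw.2).trans (map_zero _))⟩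

/-- the chain map from the Koszul complex -/
noncomputable def kφ (j : ∀ i, (K.E i).W →ₗ[ℂ] M) (B P Q L : U → M) :
    ∀ k, Y.T → Al 2 k →L[ℂ] (K.E k).W
  | 0 => fun x => a0.smulRight ((j 0).leftInverse (ex0 B x))
  | 1 => fun x => (a1 0).smulRight ((j 1).leftInverse (ex0 P x)) +
      (a1 1).smulRight ((j 1).leftInverse (ex0 Q x))
  | 2 => fun x => a2.smulRight ((j 2).leftInverse (ex0 L x))
  | _ + 3 => fun _ => 0

theorem Mc.loc (h : Mc K F θ j) (hU : IsOpen U) (y : U) {f : Y.T → Fin 2 → ℂ} {B P Q L : U → M}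
    (cB : WC B) (cP : WC P) (cQ : WC Q) (cL : WC L) (mB : ∀ x : U, B x ∈ F 0 x)
    (mP : ∀ x : U, P x ∈ F 1 x) (mQ : ∀ x : U, Q x ∈ F 1 x) (mL : ∀ x : U, L x ∈ F 2 x)
    (dP : ∀ x : U, θ x (P x) = f x 0 • B x) (dQ : ∀ x : U, θ x (Q x) = f x 1 • B x)
    (dL : ∀ x : U, θ x (L x) = f x 0 • Q x - f x 1 • P x)
    (n0 : ∀ c : ℂ, c • B y ∈ Bo F θ 0 y → c = 0)
    (s0 : ∀ m ∈ F 0 y, ∃ c : ℂ, m - c • B y ∈ Bo F θ 0 y)
    (n1 : ∀ a b : ℂ, a • P y + b • Q y ∈ Bo F θ 1 y → a = 0 ∧ b = 0)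
    (s1 : ∀ m ∈ F 1 y, θ y m = 0 → ∃ a b : ℂ, m - (a • P y + b • Q y) ∈ Bo F θ 1 y)
    (n2 : ∀ c : ℂ, c • L y ∈ Bo F θ 2 y → c = 0)
    (s2 : ∀ m ∈ F 2 y, θ y m = 0 → ∃ c : ℂ, m - c • L y ∈ Bo F θ 2 y)
    (s3 : ∀ i, ∀ m ∈ F (i + 3) y, θ y m = 0 → m ∈ Bo F θ (i + 3) y) :
    K.Loc 2 f (kφ j B P Q L) y := by
  have e : ∀ i (c : ℂ) {g : U → M} (x : U), g x ∈ F i x →
      j i (c • (j i).leftInverse (ex0 g x)) = c • g x := fun i c g x hx => by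
    rw [map_smul, ex0_eq, (h.md i).rgt hx]
  have e0 : ∀ (x : U) κ, j 0 (kφ j B P Q L 0 x κ) = a0 κ • B x := fun x κ => e 0 _ x (mB x)
  have e1 : ∀ (x : U) κ, j 1 (kφ j B P Q L 1 x κ) = a1 0 κ • P x + a1 1 κ • Q x := fun x κ =>
    ((j 1).map_add _ _).trans (congrArg₂ _ (e 1 _ x (mP x)) (e 1 _ x (mQ x)))
  have e2 : ∀ (x : U) κ, j 2 (kφ j B P Q L 2 x κ) = a2 κ • L x := fun x κ => e 2 _ x (mL x)
  have ev : ∀ {p : Y.T → Prop}, (∀ x : U, p x) → ∀ᶠ x in 𝓝 y.1, p x := fun hp =>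
    (hU.eventually_mem y.2).mono fun x hx => hp ⟨x, hx⟩
  have mem : ∀ k (x : U) κ, kφ j B P Q L k x κ ∈ (K.E k).F x := fun k x κ => by
    match k with
    | 0 => exact (h.md 0).mem.1 (e0 x κ ▸ Submodule.smul_mem _ _ (mB x))
    | 1 => exact (h.md 1).mem.1 (e1 x κ ▸
        add_mem (Submodule.smul_mem _ _ (mP x)) (Submodule.smul_mem _ _ (mQ x)))
    | 2 => exact (h.md 2).mem.1 (e2 x κ ▸ Submodule.smul_mem _ _ (mL x))
    | _ + 3 => exact zero_mem _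
  refine ⟨fun k => ev fun x => ?_, fun k => ev (mem k), fun k => ev fun x κ => ?_,
    fun k κ hκ => ?_, fun k w hw => ?_⟩
  · match k with
    | 0 => exact ex0_cont hU cB _ _ x
    | 1 => exact (ex0_cont hU cP _ _ x).add (ex0_cont hU cQ _ _ x)
    | 2 => exact ex0_cont hU cL _ _ x
    | _ + 3 => exact continuousAt_const
  · refine (h.md k).inj ((h.d k x _ (mem _ x κ)).trans ?_)
    match k with
    | 0 =>
      rw [e1, e0, map_add, map_smul, map_smul, dP, dQ, a0_curry]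
      module
    | 1 =>
      rw [e2, e1, map_smul, dL, a1_curry_zero, a1_curry_one]
      module
    | 2 =>
      rw [e2, LinP.al_eq_zero (by norm_num) κ, ContinuousAlternatingMap.curryLeft_zero,
        _root_.zero_apply, map_zero, map_zero, map_zero, map_zero, zero_smul]
    | _ + 3 => exact ((congrArg _ (map_zero _)).trans (map_zero _)).trans (map_zero _).symm
  · replace hκ := h.bd.1 hκ
    match k with
    | 0 => exact inj0 (n0 _ (e0 y κ ▸ hκ))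
    | 1 => exact inj1 (n1 _ _ (e1 y κ ▸ hκ)).1 (n1 _ _ (e1 y κ ▸ hκ)).2
    | 2 => exact inj2 (n2 _ (e2 y κ ▸ hκ))
    | k + 3 => exact LinP.al_eq_zero (by omega) κ
  · simp only [h.bd, map_sub]
    match k with
    | 0 =>
      obtain ⟨c, hc⟩ := s0 _ ((h.md 0).mem.2 hw)
      obtain ⟨κ, rfl⟩ := surj0 c
      exact ⟨κ, e0 y κ ▸ hc⟩
    | 1 =>
      obtain ⟨a, b, hc⟩ := s1 _ (h.zy hw).1 (h.zy hw).2
      obtain ⟨κ, e⟩ := surj1 ![a, b]
      exact ⟨κ, by rw [e1, e, e]; exact hc⟩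
    | 2 =>
      obtain ⟨c, hc⟩ := s2 _ (h.zy hw).1 (h.zy hw).2
      obtain ⟨κ, rfl⟩ := surj2 c
      exact ⟨κ, e2 y κ ▸ hc⟩
    | k + 3 => exact ⟨0, by rw [map_zero, map_zero, sub_zero]; exact s3 k _ (h.zy hw).1 (h.zy hw).2⟩

end loc

section mat

variable {ι κ : Type} [Fintype ι] [Fintype κ] {W : S6} {p : ι → ℤ} {q : κ → ℤ} {j : ℤ}

/-- **closed maps extend** where the dimension of the homotopy classes is constant -/
theorem exists_closed {T : Type} [TopologicalSpace T] [NormalSpace T] [ParacompactSpace T]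
    {W : T → S6} {e : T → Matrix ι ι ℂ} {d : T → Matrix ι ι S6} {f : T → Matrix κ κ ℂ}
    {d' : T → Matrix κ κ S6} (h : PF W p e d) (h' : PF W q f d') {n : ℕ}
    (k : ∀ t, finrank ℂ (HP p (e t) (d t) q (f t) (d' t) j) = n) {t₀ : T} {a₀ : Matrix κ ι S6}
    (h₀ : a₀ ∈ ZP p (e t₀) (d t₀) q (f t₀) (d' t₀) j) : ∃ a : T → Matrix κ ι S6, WC a ∧ a t₀ = a₀ ∧
      ∀ t, a t ∈ ZP p (e t) (d t) q (f t) (d' t) j := by
  obtain ⟨G, c, hG⟩ := h.gi_be h' k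
  let x : MM p q j := ⟨a₀, h₀.1.1⟩
  let a := fun t => x - G t (be (h.pf t) (h'.pf t) j x)
  have ca : Continuous a :=
    continuous_const.sub (c.clm_apply ((h.cont_be h' j).clm_apply continuous_const))
  refine ⟨fun t => (a t).1, (WC.of_cont ca).map (MM p q j).subtype, ?_,
    fun t => (be_eq (h.pf t) (h'.pf t) _).1 ?_⟩
  · simp only [a, (be_eq (h.pf t₀) (h'.pf t₀) x).2 h₀, map_zero, sub_zero, x]
  · simp only [a, map_sub, hG, sub_self]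

theorem θ_apply [i : DecidableEq ι] (d : Matrix ι ι S6) (d' : Matrix κ κ S6) (g : Matrix κ ι S6) :
    θ p d d' g = (d' * g - g * d) * eps p := by
  obtain rfl : i = fun a b => Classical.propDecidable (a = b) := Subsingleton.elim _ _
  exact congrArg (· * _) (dl_zero g)

variable [DecidableEq ι] {d d₀ : Matrix ι ι S6} {e : Matrix κ κ ℂ} {D : Matrix κ κ S6}

theorem θ_mul {a : Matrix κ ι S6} (ha : D * a = a * d) (g : Matrix ι ι S6) :
    θ p d₀ D (a * g) = a * ((d * g - g * d₀) * eps p) := by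
  rw [θ_apply, ← Matrix.mul_assoc D, ha, Matrix.mul_assoc a, Matrix.mul_assoc a, ← Matrix.mul_sub,
    Matrix.mul_assoc]

theorem mul_MP {a : Matrix κ ι S6} (ha : a ∈ MP p 1 q e 0) {g : Matrix ι ι S6}
    (hg : g ∈ MM p p j) : a * g ∈ MP p 1 q e j :=
  ⟨Fa.MM_mul ha.1 hg (zero_add _), by
    have := ha.2
    rw [cM_one, Matrix.mul_one] at this ⊢
    rw [← Matrix.mul_assoc, this]⟩

/-- `a` is a homotopy equivalence from `d` to the factorization `D` on the image of `e` -/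
def He (p : ι → ℤ) (d : Matrix ι ι S6) (q : κ → ℤ) (e : Matrix κ κ ℂ) (D : Matrix κ κ S6)
    (a : Matrix κ ι S6) : Prop := a ∈ ZP p 1 d q e D 0 ∧ ∃ b ∈ ZZ q D p d 0,
  a * b - cM e ∈ BB q D q D 0 ∧ b * a - 1 ∈ BB p d p d 0

variable {a : Matrix κ ι S6}

theorem He.mul_iff (h : He p d q e D a) {g : Matrix ι ι S6} (hg : g ∈ ZZ p d₀ p d j) :
    a * g ∈ BP p 1 d₀ q e D j ↔ g ∈ BB p d₀ p d j := by
  obtain ⟨ha, b, hb, -, h2⟩ := h
  refine ⟨fun k => ?_, fun k => ⟨mul_MP ha.1 hg.1, zz_mul_bb ha.2 k (add_zero _)⟩⟩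
  have := sub_mem (zz_mul_bb hb k.2 (add_zero _)) (bb_mul_zz h2 hg (add_zero _))
  rwa [Matrix.sub_mul, Matrix.one_mul, Matrix.mul_assoc, sub_sub_cancel] at this

theorem He.surj (h : He p d q e D a) (he : e * e = e) {m : Matrix κ ι S6}
    (hm : m ∈ ZP p 1 d₀ q e D j) : ∃ g ∈ ZZ p d₀ p d j, ∀ g' ∈ MM p p j,
      g - g' ∈ BB p d₀ p d j → m - a * g' ∈ BP p 1 d₀ q e D j := by
  obtain ⟨ha, b, hb, h1, -⟩ := h
  refine ⟨b * m, zz_mul hb hm.2 (add_zero _), fun g' k1 k2 =>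
    ⟨sub_mem hm.1 (mul_MP ha.1 k1), ?_⟩⟩
  have := sub_mem (zz_mul_bb ha.2 k2 (add_zero _)) (bb_mul_zz h1 hm.2 (add_zero _))
  rwa [Matrix.sub_mul, Matrix.mul_sub, MP.left hm.1 he, Matrix.mul_assoc, sub_sub_sub_cancel_left]
    at this

theorem He.le (h : He p d q e D a) (he : e * e = e) (k : ZZ p d₀ p d j ≤ BB p d₀ p d j) :
    ZP p 1 d₀ q e D j ≤ BP p 1 d₀ q e D j := fun m hm => by
  obtain ⟨g, h1, h2⟩ := h.surj he hm
  have := h2 0 (zero_mem _) ((sub_zero g).symm ▸ k h1)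
  rwa [Matrix.mul_zero, sub_zero] at this

theorem He.rank (h : He p d q e D a) (he : e * e = e) :
    finrank ℂ (HP p 1 d₀ q e D j) = finrank ℂ (HH p d₀ p d j) := by
  obtain ⟨E⟩ := hq_equiv (Z := ZZ p d₀ p d j) (B := BB p d₀ p d j) (Z' := ZP p 1 d₀ q e D j)
    (B' := BP p 1 d₀ q e D j) (mulB κ ι ι a)
    (fun z hz => ⟨mul_MP h.1.1 hz.1, zz_mul h.1.2 hz (add_zero _)⟩) (fun z hz => h.mul_iff hz)
    fun z hz => let ⟨g, h1, h2⟩ := h.surj he hz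
      ⟨g, h1, h2 g h1.1 ((sub_self g).symm ▸ zero_mem _)⟩
  exact E.finrank_eq.symm

theorem Fm.At.exists_he {T : Type} [TopologicalSpace T] {U : Fm W T} {t : T} (h : U.At t p d) :
    ∃ a, He p d U.q (U.e t) (U.D t) a := by
  have hD := U.pf.pf t
  obtain ⟨n, r, u, v, k⟩ := exists_spl hD.blk hD.ee
  obtain ⟨f, hf, g, hg, ⟨H, hH, h1⟩, h2⟩ := h n r u v k
  have m := Fa.MM_mul k.bb.mm hg.1 (zero_add _)
  refine ⟨cM v * g, ⟨⟨m, ?_⟩, m, ?_⟩, f * cM u, ⟨Fa.MM_mul hf.1 k.ba.mm (add_zero _), ?_⟩,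
    ⟨cM v * H * cM u, Fa.MM_mul (Fa.MM_mul (k := 0) k.bb.mm hH (zero_add _)) k.ba.mm (add_zero _),
      ?_⟩, ?_⟩
  · rw [cM_one, Matrix.mul_one, ← Matrix.mul_assoc, k.eb]
  · rw [← Matrix.mul_assoc, ← k.b_d hD, Matrix.mul_assoc, hg.2, Matrix.mul_assoc]
  · rw [← Matrix.mul_assoc, hf.2, Matrix.mul_assoc, k.a_d hD, Matrix.mul_assoc]
  · rw [← k.up_l k hD hD, ← k.up_r k hD hD, ← Matrix.add_mul, ← Matrix.mul_add, ← h1, Matrix.mul_sub,
      Matrix.sub_mul, Matrix.mul_one, k.ba']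
    simp only [Matrix.mul_assoc]
  · rwa [Matrix.mul_assoc, ← Matrix.mul_assoc (cM u), k.ab, Matrix.one_mul]

theorem le_of_rank {Z B : Submodule ℂ (Matrix κ ι S6)} [FiniteDimensional ℂ Z]
    (h : finrank ℂ (HQ Z B) = 0) : Z ≤ B := fun z hz =>
  (Submodule.Quotient.mk_eq_zero (B.submoduleOf Z)).1
    (finrank_zero_iff_forall_zero.1 h (Submodule.Quotient.mk ⟨z, hz⟩))

end mat

end Vale.Agent.P287T.Psi
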