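import Vale.Agent.P287T.Psi.St
import Vale.Agent.P287T.Rb.Defs

/-!
# The local Koszul model of the maps from one member to the family: the statement
-/

noncomputable section

namespace Vale.Agent.P287T.Psi

open Filter Topology P269 P287Q P287T.Cy P287T.Fa P287T.Au

variable {W : S6} {C : Cf W} (G : Gf C)

/-- the maps of degree `j` from `d` to the member over `x` -/
abbrev Gf.M (x : C.Z) (j : ℤ) := MP C.p 1 G.U.q (G.U.e (Quo.mk _ x)) j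

/-- the closed ones -/
abbrev Gf.Zy (d : Matrix C.ι C.ι S6) (x : C.Z) (j : ℤ) :=
  ZP C.p 1 d G.U.q (G.U.e (Quo.mk _ x)) (G.U.D (Quo.mk _ x)) j

/-- the null-homotopic ones -/
abbrev Gf.Bd (d : Matrix C.ι C.ι S6) (x : C.Z) (j : ℤ) :=
  BP C.p 1 d G.U.q (G.U.e (Quo.mk _ x)) (G.U.D (Quo.mk _ x)) j

/-- the differential -/
abbrev Gf.dd (d : Matrix C.ι C.ι S6) (x : C.Z) := Rb.θ C.p d (G.U.D (Quo.mk _ x))

/-- all coefficients are continuous at `x` -/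
def Cc {T ι κ : Type} [TopologicalSpace T] (a : T → Matrix κ ι S6) (x : T) : Prop :=
  ∀ i j m, ContinuousAt (fun t => MvPolynomial.coeff m (a t i j)) x

/-- a chain map from the Koszul complex of local equations of the point `y` -/
structure Kl (d : Matrix C.ι C.ι S6) (y : C.Z) (Φ : (Fin C.ν → ℂ) → Fin 2 → ℂ)
    (a w : C.Z → Matrix G.U.κ C.ι S6) (η : Fin 2 → C.Z → Matrix G.U.κ C.ι S6) : Prop where
  an : AnalyticAt ℂ Φ y.1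
  van : ∀ᶠ x in 𝓝 y.1, (∃ c : ℂ, x = c • y.1) → Φ x = 0
  onto : ∀ u, ∃ v ∈ tn C.Z y.1, fderiv ℂ Φ y.1 v = u
  ct : ∀ᶠ x in 𝓝 y, Cc a x ∧ Cc w x ∧ ∀ i, Cc (η i) x
  mem : ∀ᶠ x in 𝓝 y, a x ∈ G.M x 0 ∧ w x ∈ G.Zy d x 6 ∧ ∀ i, η i x ∈ G.M x 3
  d1 : ∀ᶠ x in 𝓝 y, ∀ i, G.dd d x (η i x) = Φ x.1 i • w x
  d0 : ∀ᶠ x in 𝓝 y, G.dd d x (a x) = Φ x.1 0 • η 1 x - Φ x.1 1 • η 0 x
  n0 : a y ∉ G.Bd d y 0
  n1 : ∀ c : Fin 2 → ℂ, c 0 • η 0 y + c 1 • η 1 y ∈ G.Bd d y 3 → c = 0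
  n2 : w y ∉ G.Bd d y 6

/-- **KL**: the algebraic half of M1 -/
def StKl : Prop := ∀ (W : S6) (_ : Rr.Cu W) (C : Cf W) (G : Gf C) (y : C.Z), ∃ d ∈ C.O y.1,
  ∃ Φ a w η, Kl G d y Φ a w η

end Vale.Agent.P287T.Psi
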