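import Vale.Agent.P287T.Psi.M1a
import Vale.Agent.P287T.Psi.M1s
import Vale.Agent.P287T.Psi.Ko

/-!
# The local Koszul model of the maps from one member to the family
-/

set_option linter.unusedSectionVars false
set_option linter.style.haveILetI false

namespace Vale.Agent.P287T.Psi

open Set Function Filter Topology Module Matrix MvPolynomial P269 P269.Holo P287Q P287Q.Cub
  P287T.Cy P287T.Fa P287T.Au P287T.Rb P287T.Gl

theorem cc_ex0 {T T' ι κ : Type} [TopologicalSpace T] [TopologicalSpace T'] {V : Set T'}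
    (hV : IsOpen V) {g : V → Matrix κ ι S6} (hg : WC g) {G : T' → Matrix κ ι S6}
    (e : ∀ v : V, G v = g v) {f : T → T'} {x : T} (hf : ContinuousAt f x) (hx : f x ∈ V) :
    Cc (fun t => G (f t)) x := fun i j m =>
  ContinuousAt.comp (g := fun v => coeff m (G v i j))
    (hV.isOpenEmbedding_subtypeVal.continuousAt_iff (x := ⟨f x, hx⟩).1
      ((hg (lcoeff ℂ m ∘ₗ Matrix.entryLinearMap ℂ S6 i j)).congr fun v =>
        congrArg (fun a : Matrix κ ι S6 => coeff m (a i j)) (e v).symm).continuousAt) hf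

variable {W : S6} {C : Cf W} {σ : (Fin 2 → ℂ) → Fin C.ν → ℂ} {V : Set (Fin 2 → ℂ)}
  {w ξ η : (Fin 2 → ℂ) → Matrix C.ι C.ι S6} (h : Ko C σ V w ξ η)

/-- the point of the surface given by a point of the slice -/
noncomputable def Ko.pt (v : V) : SZ C.Z := Quo.mk _ (⟨σ v, (h.mem v v.2).1⟩ : C.Z)

theorem Ko.cont_pt : Continuous h.pt :=
  continuous_quot_mk.comp (h.cσ.domRestrict.subtype_mk _)

include h in
theorem Ko.mf (v : V) : IsMF W C.p (w v) := (C.orb _ (h.mem v v.2).1).mf _ (h.mem v v.2).2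

/-- **the comparison map** -/
theorem Ko.exists_a (G : Gf C) : ∃ a : V → Matrix G.U.κ C.ι S6, WC a ∧
    (∀ v : V, a v ∈ ZP C.p 1 (w v) G.U.q (G.U.e (h.pt v)) (G.U.D (h.pt v)) 0) ∧
    He C.p (w 0) G.U.q (G.U.e (h.pt ⟨0, h.z⟩)) (G.U.D (h.pt ⟨0, h.z⟩)) (a ⟨0, h.z⟩) := by
  choose b hb using fun v : V => (G.fib ⟨σ v, (h.mem v v.2).1⟩ _ (h.mem v v.2).2).exists_he
  obtain ⟨a, h1, h2, h3⟩ := exists_closed (T := V) (e := fun _ => 1) (d := fun v => w v)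
    ⟨fun v => Fa.IsMF.isPF (h.mf v), fun v => G.U.pf.hW (h.pt v), fun _ => continuous_const,
      continuous_const, fun i j m => (h.cw i j m).domRestrict⟩ (G.U.pf.comp h.cont_pt) (n := 1)
    (fun v => ((hb v).rank (G.U.pf.pf _).ee).trans
      ((C.orb _ (h.mem v v.2).1).dim _ (h.mem v v.2).2 0)) (hb ⟨0, h.z⟩).1
  exact ⟨a, h1, h3, h2 ▸ hb _⟩

/-- **KL** -/
theorem stKl_of (hk : StKo) : StKl := fun W c C G y => by
  obtain ⟨σ, V, w, ξ, η, h, h0⟩ := hk W C (G.U.pf.hW (Quo.mk _ y)) c.sm y.1 y.2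
  obtain ⟨y, hy⟩ := y
  obtain rfl : σ 0 = y := h0
  obtain ⟨a, ca, ma, ha⟩ := h.exists_a G
  obtain ⟨τ, Φ, -, k1, k2, k3, k4, k5⟩ := h.slc.exists_coord C.pv.toMC isUnit_one
  rw [scl_one] at k1 k2 k3 k5
  haveI := isAct_scl (π₀ (Fin C.ν))
  obtain ⟨A, eA⟩ : ∃ A : (Fin 2 → ℂ) → Matrix G.U.κ C.ι S6, ∀ v : V, A v = a v :=
    ⟨Function.extend Subtype.val a 0, Subtype.val_injective.extend_apply a 0⟩
  have cξ : WC fun v : V => ξ v := wc_MM (fun v => h.dξ v v.2) fun i j m => (h.cξ i j m).domRestrict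
  have cη : WC fun v : V => η v := wc_MM (fun v => h.dη v v.2) fun i j m => (h.cη i j m).domRestrict
  have ml : ∀ {g : V → Matrix C.ι C.ι S6}, WC g → WC fun v => a v * g v :=
    ca.mul_l fun v => (ma v).1.1
  have ng : ∀ {g : V → Matrix C.ι C.ι S6}, WC g → WC fun v => -g v := fun hg => hg.map (-.id)
  have ep : ∀ {g : V → Matrix C.ι C.ι S6}, WC g → WC fun v => g v * eps C.p := fun hg =>
    hg.map ((mulB _ _ _).flip (eps C.p))
  have ev : ∀ᶠ x : C.Z in 𝓝 ⟨_, hy⟩, ContinuousAt (fun x : C.Z => Φ x.1) x ∧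
      ∃ hx : Φ x.1 ∈ V, Quo.mk _ x = h.pt ⟨_, hx⟩ := by
    filter_upwards [continuous_subtype_val.continuousAt.eventually (k1.eventually_analyticAt.and
      (k5.and (k1.continuousAt.eventually (h.op.eventually_mem (k3.symm ▸ h.z :)))))] with x hx
    have e := hx.2.1 x.2
    exact ⟨hx.1.continuousAt.comp continuous_subtype_val.continuousAt, hx.2.2,
      (Quot.sound ⟨_, unit_of_mem (e.symm ▸ C.pv.sub x.2), e.symm⟩).symm⟩
  have mξ : ∀ v ∈ V, ξ v * eps C.p ∈ MM C.p C.p 3 := fun v hv =>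
    Fa.MM_mul (h.dξ v hv) (eps_mem _) rfl
  have mη : ∀ v ∈ V, -(η v * eps C.p) ∈ MM C.p C.p 3 := fun v hv =>
    neg_mem (Fa.MM_mul (h.dη v hv) (eps_mem _) rfl)
  have mw : ∀ v ∈ V, -(ξ v * η v) ∈ ZZ C.p (w 0) C.p (w v) 6 := fun v hv =>
    neg_mem ⟨Fa.MM_mul (h.dξ v hv) (h.dη v hv) rfl, h.e0 v hv⟩
  have de := d_mul_eps (h.mf ⟨0, h.z⟩).deg
  have th : ∀ v g, (w v * (g * eps C.p) - g * eps C.p * w 0) * eps C.p = w v * g + g * w 0 :=
    fun v g => by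
      rw [sub_mul, mul_assoc (g * _), de, mul_neg, ← mul_assoc, ← mul_assoc, Rr.eps_eps,
        Rr.eps_eps, sub_neg_eq_add]
  have A0 : A (Φ (σ 0)) = a ⟨0, h.z⟩ := (congrArg A k3).trans (eA ⟨0, h.z⟩)
  refine ⟨w 0, (h.mem 0 h.z).2, Φ, fun x => A (Φ x.1), fun x => A (Φ x.1) * -(ξ (Φ x.1) * η (Φ x.1)),
    ![fun x => A (Φ x.1) * -(η (Φ x.1) * eps C.p), fun x => A (Φ x.1) * (ξ (Φ x.1) * eps C.p)],
    k1, ?_, fun u => ⟨_, fderiv_mem_tn h.slc.an h.slc.mem u, ?_⟩, ev.mono fun x ⟨x1, x2, _⟩ => ?_,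
    ev.mono fun x ⟨_, x2, x3⟩ => ?_, ev.mono fun x ⟨_, x2, x3⟩ => ?_,
    ev.mono fun x ⟨_, x2, x3⟩ => ?_, fun k => ?_, fun b k => ?_, fun k => ?_⟩
  · have t1 : Tendsto (fun x => (Φ x, (0 : Fin 2 → ℂ))) (𝓝 (σ 0)) (𝓝 0 ×ˢ 𝓝 0) :=
      (k3 ▸ k1.continuousAt.tendsto).prodMk tendsto_const_nhds
    filter_upwards [k5, t1.eventually (h.slc.eventually_inj C.pv.toMC),
      isOpen_Ust.eventually_mem (C.pv.sub hy)] with x x1 x2 x3 ⟨b, hb⟩
    have e : x = scl (π₀ _) (fun _ => b) (σ 0) := hb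
    have e' := x1 (e ▸ C.pv.inv _ (unit_of_mem (e ▸ x3)) _ hy)
    have u := unit_of_mem (e'.symm ▸ x3)
    refine (x2 ((τ x)⁻¹ * fun _ => b) ?_).1
    rw [scl_mul, ← e]
    exact (scl_inv_scl u _).symm.trans (congrArg _ e')
  · have e : (fun z => Φ (σ z)) =ᶠ[𝓝 0] id :=
      ((continuous_const.prodMk continuous_id).continuousAt.eventually k4).mono fun z k =>
        (congrArg Φ (scl_one _).symm).trans k.2
    have : fderiv ℂ (fun z => Φ (σ z)) 0 = fderiv ℂ id 0 := e.fderiv_eq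
    rw [fderiv_comp_an k1 h.slc.an, fderiv_id] at this
    exact DFunLike.congr_fun this u
  · refine ⟨cc_ex0 h.op ca eA x1 x2, cc_ex0 (G := fun v => A v * -(ξ v * η v)) h.op
      (ml (ng (cξ.mul_l (fun v => h.dξ v v.2) cη))) (fun v => by rw [eA]) x1 x2,
      Fin.forall_fin_two.2 ⟨cc_ex0 (G := fun v => A v * -(η v * eps C.p)) h.op (ml (ng (ep cη)))
        (fun v => by rw [eA]) x1 x2, cc_ex0 (G := fun v => A v * (ξ v * eps C.p)) h.op (ml (ep cξ))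
        (fun v => by rw [eA]) x1 x2⟩⟩
  · have m := (eA ⟨_, x2⟩).symm ▸ x3.symm ▸ ma ⟨_, x2⟩
    exact ⟨m.1, ⟨mul_MP m.1 (mw _ x2).1, zz_mul m.2 (mw _ x2) rfl⟩,
      Fin.forall_fin_two.2 ⟨mul_MP m.1 (mη _ x2), mul_MP m.1 (mξ _ x2)⟩⟩
  · have m := (eA ⟨_, x2⟩).symm ▸ x3.symm ▸ ma ⟨_, x2⟩
    refine Fin.forall_fin_two.2 ⟨(θ_mul m.2.2 _).trans ?_, (θ_mul m.2.2 _).trans ?_⟩
    · rw [← neg_mul, th, mul_neg, neg_mul, ← neg_add, h.eη _ x2, ← smul_neg, Matrix.mul_smul]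
    · rw [th, h.eξ _ x2, ← smul_neg, Matrix.mul_smul]
  · have m := (eA ⟨_, x2⟩).symm ▸ x3.symm ▸ ma ⟨_, x2⟩
    refine ((congrArg _ (Matrix.mul_one _).symm).trans (θ_mul m.2.2 1)).trans ?_
    rw [mul_one, one_mul, h.e2 _ x2, add_mul, smul_mul_assoc, smul_mul_assoc, Matrix.mul_add,
      Matrix.mul_smul, Matrix.mul_smul]
    show _ = _ - _ • (_ * -_)
    rw [Matrix.mul_neg, smul_neg, sub_neg_eq_add]
    rfl
  · refine one_ne_zero (h.n0 1 ((ha.mul_iff (Submodule.smul_mem _ _ (zz_one _ _))).1 ?_))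
    rw [one_smul, Matrix.mul_one]
    exact A0 ▸ k
  · have z : (b 1 • ξ 0 + -b 0 • η 0) * eps C.p ∈ ZZ C.p (w 0) C.p (w 0) 3 :=
      mul_eps_mem_ZZ (h.mf ⟨0, h.z⟩).deg (add_mem (Submodule.smul_mem _ _ (h.dξ 0 h.z))
        (Submodule.smul_mem _ _ (h.dη 0 h.z))) (by
          have e1 := h.eξ 0 h.z
          have e2 := h.eη 0 h.z
          rw [Pi.zero_apply, zero_smul] at e1 e2
          rw [mul_add, add_mul, mul_smul_comm, mul_smul_comm, smul_mul_assoc, smul_mul_assoc,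
            add_add_add_comm, ← smul_add, ← smul_add, e1, e2, neg_zero, smul_zero, smul_zero,
            add_zero])
    have := h.n1 _ _ ((ha.mul_iff z).1 (by
      have k' : b 0 • (A (Φ (σ 0)) * -(η (Φ (σ 0)) * eps C.p)) +
        b 1 • (A (Φ (σ 0)) * (ξ (Φ (σ 0)) * eps C.p)) ∈ _ := k
      rw [A0, k3, ← Matrix.mul_smul, ← Matrix.mul_smul, ← Matrix.mul_add, add_comm] at k'
      rwa [add_mul, smul_mul_assoc, smul_mul_assoc, neg_smul, ← smul_neg]))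
    exact funext (Fin.forall_fin_two.2 ⟨neg_eq_zero.1 this.2, this.1⟩)
  · refine (neg_ne_zero.2 one_ne_zero) (h.n2 (-1) ?_)
    have k' : A (Φ (σ 0)) * -(ξ (Φ (σ 0)) * η (Φ (σ 0))) ∈ _ := k
    rw [A0, k3] at k'
    rw [neg_one_smul]
    exact (ha.mul_iff (mw 0 h.z)).1 k'

end Vale.Agent.P287T.Psi
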