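import Vale.Agent.P287T.Psi.M1a
import Vale.Agent.P287T.Psi.M1s
import Vale.Agent.P287T.Psi.Rq
import Vale.Agent.P287T.Rb.Rh

/-!
# From the algebraic Koszul data to the local model of the complex of bundles
-/

set_option linter.unusedSectionVars false
set_option linter.style.haveILetI false

namespace Vale.Agent.P287T.Psi

open Set Function Filter Topology Module Matrix MvPolynomial P269 P269.Holo P269.Grr P287Q
  P287Q.Cub P287T.Cy P287T.Fa P287T.Au P287T.Rb P287T.Gl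
open P287Z.T (HQ)

theorem span_of_dim {M : Type} [AddCommGroup M] [Module ℂ M] {Z B : Submodule ℂ M}
    [FiniteDimensional ℂ Z] {n : ℕ} (v : Fin n → M) (hv : ∀ i, v i ∈ Z)
    (li : ∀ c : Fin n → ℂ, ∑ i, c i • v i ∈ B → c = 0) (hd : finrank ℂ (HQ Z B) = n) :
    ∀ m ∈ Z, ∃ c : Fin n → ℂ, m - ∑ i, c i • v i ∈ B := fun m hm => by
  have e : ∀ c : Fin n → ℂ, ∑ i, c i • (B.submoduleOf Z).mkQ ⟨v i, hv i⟩ =
      (B.submoduleOf Z).mkQ ⟨∑ i, c i • v i, sum_mem fun i _ => Z.smul_mem _ (hv i)⟩ := fun c => by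
    simp only [← map_smul, ← map_sum]
    exact congrArg _ (Subtype.ext (map_sum Z.subtype _ _))
  have h := (Fintype.linearIndependent_iff.2 fun c k => congrFun (li c
    ((Submodule.Quotient.mk_eq_zero (B.submoduleOf Z)).1
      ((e c).symm.trans k)))).span_eq_top_of_card_eq_finrank'
      ((Fintype.card_fin n).trans hd.symm)
  obtain ⟨c, hc⟩ := (Submodule.mem_span_range_iff_exists_fun ℂ).1
    (h.ge (Submodule.mem_top (x := (B.submoduleOf Z).mkQ ⟨m, hm⟩)))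
  exact ⟨c, (Submodule.Quotient.eq (B.submoduleOf Z)).1 (hc.symm.trans (e c))⟩

theorem span_of_one {M : Type} [AddCommGroup M] [Module ℂ M] {Z B : Submodule ℂ M}
    [FiniteDimensional ℂ Z] {v : M} (hv : v ∈ Z) (n : v ∉ B) (hd : finrank ℂ (HQ Z B) = 1) :
    ∀ m ∈ Z, ∃ c : ℂ, m - c • v ∈ B := fun m hm => by
  obtain ⟨c, hc⟩ := span_of_dim ![v] (fun i => by rwa [Subsingleton.elim i 0]) (fun c k =>
    funext fun i => Subsingleton.elim i 0 ▸ by_contra fun e =>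
      n ((B.smul_mem_iff e).1 (Fin.sum_univ_one (fun i => c i • ![v] i) ▸ k))) hd m hm
  exact ⟨c 0, by rwa [Fin.sum_univ_one] at hc⟩

theorem Cc.mul {T ι κ μ : Type} [Fintype κ] [TopologicalSpace T] {a : T → Matrix μ κ S6} {x : T}
    (h : Cc a x) (g : Matrix κ ι S6) : Cc (fun t => a t * g) x := fun i j m => by
  classical
  simp only [Matrix.mul_apply, coeff_sum, coeff_mul]
  exact tendsto_finsetSum _ fun k _ => tendsto_finsetSum _ fun y _ => (h i k y.1).mul_const _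

variable {W : S6} {C : Cf W} {G : Gf C} {d d' : Matrix C.ι C.ι S6} {y : C.Z}
  {Φ : (Fin C.ν → ℂ) → Fin 2 → ℂ} {a w : C.Z → Matrix G.U.κ C.ι S6}
  {η : Fin 2 → C.Z → Matrix G.U.κ C.ι S6}

theorem MP_mul {x : C.Z} {j : ℤ} {m : Matrix G.U.κ C.ι S6} (hm : m ∈ G.M x j)
    {g : Matrix C.ι C.ι S6} (hg : g ∈ MM C.p C.p 0) : m * g ∈ G.M x j :=
  mem_MP (Fa.MM_mul hm.1 hg (add_zero _))
    (by rw [← Matrix.mul_assoc, Fa.MP.left hm (G.U.pf.pf _).ee]) (by rw [cM_one, Matrix.mul_one])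

/-- the data do not depend on the member of the conjugacy class -/
theorem Kl.conj (h : Kl G d' y Φ a w η) (hd : d ∈ C.O y.1) (hd' : d' ∈ C.O y.1) :
    ∃ a w η, Kl G d y Φ a w η := by
  obtain ⟨g, hg, g', hg', h1, h2, e⟩ := ((C.orb _ y.2).conj d hd d').1 hd'
  have e' : d * g' = g' * d' := by
    rw [← one_mul (d * g'), ← h2, mul_assoc, ← mul_assoc g, e, mul_assoc, h1, mul_one]
  have t : ∀ x m, G.dd d x (m * g) = G.dd d' x m * g := fun x m => by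
    have := mul_eps hg
    rw [sg, zpow_zero, one_smul] at this
    rw [Gf.dd, Gf.dd, θ_apply, θ_apply, Matrix.mul_assoc m, e, ← Matrix.mul_assoc,
      ← Matrix.mul_assoc, ← Matrix.sub_mul, Matrix.mul_assoc, this, Matrix.mul_assoc]
  have b : ∀ {j m}, m * g ∈ G.Bd d y j → m ∈ G.Bd d' y j := fun {j m} k => by
    rw [← Matrix.mul_one m, ← h1, ← Matrix.mul_assoc]
    exact ⟨MP_mul k.1 hg', bb_mul_zz k.2 ⟨hg', e'⟩ (zero_add _)⟩
  refine ⟨fun x => a x * g, fun x => w x * g, fun i x => η i x * g, h.an, h.van, h.onto,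
    h.ct.mono fun x k => ⟨k.1.mul g, k.2.1.mul g, fun i => (k.2.2 i).mul g⟩,
    h.mem.mono fun x k => ⟨MP_mul k.1 hg, ⟨MP_mul k.2.1.1 hg, zz_mul k.2.1.2 ⟨hg, e.symm⟩
      (zero_add _)⟩, fun i => MP_mul (k.2.2 i) hg⟩, h.d1.mono fun x k i => ?_,
    h.d0.mono fun x k => ?_, fun k => h.n0 (b k), fun c k => h.n1 c (b ?_), fun k => h.n2 (b k)⟩
  · rw [t, k, Matrix.smul_mul]
  · rw [t, k, Matrix.sub_mul, Matrix.smul_mul, Matrix.smul_mul]
  · rwa [Matrix.add_mul, Matrix.smul_mul, Matrix.smul_mul]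

theorem Gf.rank (G : Gf C) (hd : d ∈ C.O y.1) (k : ℤ) :
    finrank ℂ (HQ (G.Zy d y (3 * k)) (G.Bd d y (3 * k))) =
      if k = 0 ∨ k = 2 then 1 else if k = 1 then 2 else 0 :=
  let ⟨_, h⟩ := (G.fib y d hd).exists_he
  (h.rank (G.U.pf.pf _).ee).trans ((C.orb _ y.2).dim d hd k)

theorem Gf.le (G : Gf C) (hd : d ∈ C.O y.1) {k : ℤ} (hk : k < 0 ∨ 2 < k) :
    G.Zy d y (3 * k) ≤ G.Bd d y (3 * k) :=
  le_of_rank ((G.rank hd k).trans (by rw [if_neg (by omega), if_neg (by omega)]))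

/-- **the local model** -/
theorem Kl.loc (h : Kl G d y Φ a w η) (hd : d ∈ C.O y.1) (h0 : Φ y.1 = 0) {K : Cx (cnS C.pv)}
    {F : ℕ → C.Z → Submodule ℂ (Matrix G.U.κ C.ι S6)} {j} (hK : Mc K F (G.dd d) j)
    (F0 : ∀ t, F 0 t = G.Zy d t 6) (F1 : ∀ (i : ℕ) t, F (i + 1) t = G.M t (3 * (1 - i))) :
    ∃ φ, K.Loc 2 (fun x : C.Z => Φ x.1) φ y := by
  obtain ⟨U, hU, oU, yU⟩ := eventually_nhds_iff.1 (h.ct.and (h.mem.and (h.d1.and h.d0)))
  have wc : ∀ {g : C.Z → Matrix G.U.κ C.ι S6} {n}, (∀ x ∈ U, g x ∈ G.M x n) → (∀ x ∈ U, Cc g x) →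
      WC fun x : U => g x := fun h1 h2 => wc_MM (fun x => (h1 _ x.2).1) fun i k m =>
    continuous_iff_continuousAt.2 fun x => (h2 _ x.2 i k m).comp continuous_subtype_val.continuousAt
  have bo : ∀ (i : ℕ) {n : ℤ}, n = 3 * (2 - i) →
      Bo (Y := cnS C.pv) F (G.dd d) i y = G.Bd d y n := fun i n e =>
    ((congrArg (Submodule.map (G.dd d y)) (F1 i y)).trans
      (map_θ (Fa.IsMF.isPF ((C.orb _ y.2).mf d hd)) (G.U.pf.pf _))).trans
        (congrArg (G.Bd d y) (by omega))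
  have f1 : ∀ t, F 1 t = G.M t 3 := F1 0
  have f2 : ∀ t, F 2 t = G.M t 0 := F1 1
  have zy : ∀ {n m}, m ∈ G.M y n → G.dd d y m = 0 → m ∈ G.Zy d y n := fun k k' => MP_ker.le ⟨k, k'⟩
  have r0 : finrank ℂ (HQ (G.Zy d y 0) (G.Bd d y 0)) = 1 := G.rank hd 0
  have r1 : finrank ℂ (HQ (G.Zy d y 3) (G.Bd d y 3)) = 2 := G.rank hd 1
  have r2 : finrank ℂ (HQ (G.Zy d y 6) (G.Bd d y 6)) = 1 := G.rank hd 2
  obtain ⟨-, ⟨m0, m2, m1⟩, e1, e0⟩ := hU y yU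
  simp only [h0, Pi.zero_apply, zero_smul, sub_zero] at e0 e1
  refine ⟨_, hK.loc (U := U) oU ⟨y, yU⟩ (B := fun x : U => w x) (P := fun x : U => η 0 x)
    (Q := fun x : U => η 1 x) (L := fun x : U => a x)
    (wc (fun x k => (hU x k).2.1.2.1.1) fun x k => (hU x k).1.2.1)
    (wc (fun x k => (hU x k).2.1.2.2 0) fun x k => (hU x k).1.2.2 0)
    (wc (fun x k => (hU x k).2.1.2.2 1) fun x k => (hU x k).1.2.2 1)
    (wc (fun x k => (hU x k).2.1.1) fun x k => (hU x k).1.1)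
    (fun x => (F0 _).ge (hU _ x.2).2.1.2.1) (fun x => (f1 _).ge ((hU _ x.2).2.1.2.2 0))
    (fun x => (f1 _).ge ((hU _ x.2).2.1.2.2 1)) (fun x => (f2 _).ge (hU _ x.2).2.1.1)
    (fun x => (hU _ x.2).2.2.1 0) (fun x => (hU _ x.2).2.2.1 1) (fun x => (hU _ x.2).2.2.2)
    (fun c k => by_contra fun e => h.n2 ((Submodule.smul_mem_iff _ e).1 ((bo 0 rfl).le k)))
    (fun m k => (span_of_one m2 h.n2 r2 m ((F0 _).le k)).imp fun _ k => (bo 0 rfl).ge k)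
    (fun a b k => ?_) (fun m k k' => ?_)
    (fun c k => by_contra fun e => h.n0 ((Submodule.smul_mem_iff _ e).1 ((bo 2 rfl).le k)))
    (fun m k k' => (span_of_one (zy m0 e0) h.n0 r0 m (zy ((f2 _).le k) k')).imp
      fun _ k => (bo 2 rfl).ge k)
    fun i m k k' => (bo (i + 3) (by omega)).ge
      (G.le hd (.inl (by omega)) (zy ((F1 (i + 2) _).le k) k'))⟩
  · have := h.n1 ![a, b] ((bo 1 rfl).le k)
    exact ⟨congrFun this 0, congrFun this 1⟩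
  · obtain ⟨c, hc⟩ := span_of_dim (fun i => η i y) (fun i => zy (m1 i) (e1 i))
      (fun c k => h.n1 c (Fin.sum_univ_two (fun i => c i • η i y) ▸ k)) r1 m (zy ((f1 _).le k) k')
    exact ⟨c 0, c 1, (bo 1 rfl).ge (Fin.sum_univ_two (fun i => c i • η i y) ▸ hc)⟩

/-- **the complex of maps from a member resolves the point** -/
theorem kz_of (hk : StKl) (c : Rr.Cu W) (G : Gf C) {s : C.Z} (hd : d ∈ C.O s.1)
    {K : Cx (cnS C.pv)} {F : ℕ → C.Z → Submodule ℂ (Matrix G.U.κ C.ι S6)} {j}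
    (hK : Mc K F (G.dd d) j) (F0 : ∀ t, F 0 t = G.Zy d t 6)
    (F1 : ∀ (i : ℕ) t, F (i + 1) t = G.M t (3 * (1 - i))) (y : C.Z) (hy : y.1 ∈ Lne s.1) :
    haveI := isAct_scl (π₀ (Fin C.ν))
    haveI := C.pv.fp
    Kz K (Lne s.1) 2 y := by
  obtain ⟨y0, b, e⟩ := hy
  have b0 : b ≠ 0 := left_ne_zero_of_smul (e ▸ y0)
  have hd' : d ∈ C.O y.1 := by rwa [e, C.smul _ s.2 b b0]
  obtain ⟨d', k, Φ, a, w, η, h⟩ := hk W c C G y
  obtain ⟨a, w, η, h⟩ := h.conj hd' k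
  obtain ⟨φ, hφ⟩ := h.loc hd' (h.van.self_of_nhds ⟨1, (one_smul _ _).symm⟩) hK F0 F1
  refine ⟨Φ, φ, hφ, h.an, h.van.mono fun x k ⟨_, b', e'⟩ => k ⟨b' * b⁻¹, ?_⟩,
    fun u => tn_eq y.2 ▸ h.onto u⟩
  rw [e', e, mul_smul, inv_smul_smul₀ b0]

theorem Gf.le_off (G : Gf C) {s : C.Z} (hd : d ∈ C.O s.1) (hy : y.1 ∉ Lne s.1) (k : ℤ) :
    G.Zy d y (3 * k) ≤ G.Bd d y (3 * k) := by
  obtain ⟨d', k'⟩ := (C.orb _ y.2).ne
  obtain ⟨_, h⟩ := (G.fib y d' k').exists_he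
  exact h.le (G.U.pf.pf _).ee (C.ort _ s.2 _ y.2
    (fun b e => hy ⟨ust_iff.1 (C.pv.sub y.2), b, e⟩) d hd d' k' k)

theorem Gf.le_top (G : Gf C) {s : C.Z} (hd : d ∈ C.O s.1) (y : C.Z) {k : ℤ} (hk : 2 < k) :
    G.Zy d y (3 * k) ≤ G.Bd d y (3 * k) := by
  by_cases hy : y.1 ∈ Lne s.1
  · obtain ⟨y0, b, e⟩ := hy
    exact G.le (by rwa [e, C.smul _ s.2 b (left_ne_zero_of_smul (e ▸ y0))]) (.inr hk)
  · exact G.le_off hd hy k

end Vale.Agent.P287T.Psi
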