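import Vale.Agent.P287T.Psi.Srf
import Vale.Agent.P287T.Psi.Map
import Vale.Agent.P287T.Psi.Cup
import Vale.Agent.P287T.Df.Kur
import Vale.Agent.P287T.Per.Main

/-!
# The realisation of a class by a line bundle, from the geometric steps
-/

set_option linter.unusedSectionVars false
set_option linter.style.haveILetI false

noncomputable section

namespace Vale.Agent.P287T.Psi

namespace Mn

open Set Filter Topology Metric P291Z P269 P287Q P287Q.Cub P287Q.Zc P287T.Cy P287T.Rr P287T.Top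
  P287T.Cl P287T.Au P287T.Gl P287T.Sw

variable {F W : S6} {T : Type} [TopologicalSpace T] [Nice T]

theorem kunF (c : Cu F) : Dn.Kun T (XF F) :=
  haveI := isAct
  haveI := c.qm.fp
  haveI := c.qm.cpt
  haveI : FiniteDimensional ℂ (H (XF F)) := (c.per.cubH.pz.lat 4).finC
  Dn.kun T (XF F)

theorem psi_deg (c : Cu F) {θ : KV T F} (h : Dg 1 θ) (y : VV F) : psi θ y ∈ H.deg T 2 := by
  refine neg_mem (sub_mem (Submodule.sum_mem _ fun j _ => ?_) ?_)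
  · rw [cst, ← Algebra.smul_def]
    exact Submodule.smul_mem _ _ (h.a j)
  · refine fib_deg (n := 8) (kunF c) (fun k hk b hb => c.per.ps.pd.deg k hk b hb)
      (H.IsDeg.mul (p := 4) (q := 6) (y.2.2.1.map _) ?_)
    refine Submodule.span_le (p := H.deg _ 6).2 ?_ h.n
    rintro _ ⟨a, b, h1, h2, -, rfl⟩
    exact H.IsDeg.mul (p := 2) (q := 4) (h1.map _) (h2.map _)

section tr

variable {Φ : Per.V → Per.V} (h : Per.Sm F) (h' : Per.Sm W) (e : Per.Tr F W Φ)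

/-- the transport of vectors -/
def trV : VV W →ₗ[ℂ] VV F :=
  (LinearMap.id.prodMap (H.mapA e.φ).toLinearMap).restrict fun x hx =>
    ⟨hx.1, hx.2.1.map e.φ, by
      change hyp F * H.map e.φ x.2 = 0
      rw [← (Per.stTop h h' e).1, ← map_mul, hx.2.2, map_zero]⟩

theorem trV_val (x : VV W) : (trV h h' e x).1 = (x.1.1, H.map e.φ x.1.2) := rfl

theorem trV_surj (y : VV F) : ∃ x, trV h h' e x = y := by
  obtain ⟨a1, -, a3, a4, -⟩ := Per.stTop h h' e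
  obtain ⟨n, hn⟩ := a3.2 y.1.2
  refine ⟨⟨(y.1.1, n), y.2.1, (a4 4 n).1 (hn ▸ y.2.2.1), a3.1 ?_⟩, Subtype.ext (Prod.ext rfl hn)⟩
  rw [map_mul, a1, hn, y.2.2.2, map_zero]

theorem JV_trV (x y : VV W) : JV F (trV h h' e x) (trV h h' e y) = JV W x y := by
  rw [JV_apply, JV_apply, trV_val, trV_val, mu_apply, mu_apply, ← map_mul]
  exact congrArg _ ((Per.stTop h h' e).2.1 _)

theorem trV_vc {y : Cls W} (hy : y ∈ LT W) : trV h h' e (vc y) = vc (tr e.φ y) :=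
  Subtype.ext (by
    rw [trV_val, vc_val (P4_LT h'.cu hy), vc_val (P4_LT h.cu (((stTr h.cu h'.cu e).2.1 y).2 hy))]
    rfl)

theorem psi_trV (θ : KV T W) (x : VV W) : psi (trK e.φ θ) (trV h h' e x) = psi θ x := by
  have a : H.map (Dn.xm T e.φ) (H.map .snd x.1.2 * θ.2) =
      H.map .snd (H.map e.φ x.1.2) * H.map (Dn.xm T e.φ) θ.2 := by
    rw [map_mul, H.map_map, H.map_map]
    rfl
  exact congrArg (fun z => -(_ - z)) ((congrArg _ a.symm).trans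
    ((kunF h'.cu).lift1 (kunF h.cu) (J := JF W) (J' := JF F) (Per.stTop h h' e).2.1 _))

end tr

theorem mk_chi (hr : HRR) (c : Cu W) (E E' : G3.HM W) :
    mk (clE c E) (clE c E') = -P294.chi E E' := by
  rw [Sw.chi_eq, Cl.chi_eq hr c E.isMF E'.isMF, neg_neg]
  rfl

theorem lb_chi {S : Type} {O : S → G3.HM W} {L : G3.HM W} (h : Lb O L) (x : S) :
    P294.chi L (O x) = 1 := by
  have k := fun j hj => fr_of_zero (h.van x j hj)
  rw [chi_window fun j hj => k j (by omega), hd_zero, show hd L (O x) 1 = 0 from k 1 one_ne_zero,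
    show hd L (O x) 2 = 0 from k 2 two_ne_zero, show Module.finrank ℂ _ = 1 from h.one x]
  rfl

/-- the geometric steps -/
structure Stp : Prop where
  dg : StDg
  glob : StGlob
  adj : StAdj
  m1 : StM1
  sne : StSne
  lef : StLef
  flat : StFlat
  sym : Kx.StSym

variable {φ : ℝ} {v : Cls F}

/-- the classes of the line bundles -/
def RD {τ : C(XF F, XF W)} (D : Dat φ v W τ) : Set (VV F) :=
  {x | ∃ L, LbO D.C L ∧ x = vc (tr τ (clE D.c L))}

variable {h : Per.Sm F} {r : ℝ} {Φ : T3 → Per.V → Per.V} {σ : T3 → H (XF F)}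
  {η : T3 → T3 →ₗ[ℂ] H (XF F)} (k : Per.PM h p3 r Φ σ η)

theorem perp_om {t : T3} (ht : t ∈ ball (0 : T3) r) {y : VV (F + p3 t)}
    (hy : JV F (trV h (k.sm t ht) (k.tr t ht) y) (vn F (σ t)) = 0) :
    ∀ s ∈ Per.TT (F + p3 t) 3 1, JF (F + p3 t) (y.1.2 * s) = 0 := fun s hs => by
  obtain ⟨s0, a1, a2, a3⟩ := k.om t ht
  obtain ⟨a, rfl⟩ := Submodule.mem_span_singleton.1 ((k.sm t ht).cubH.gen a1 a2 hs)
  rw [JV_vn _ (per_spec k ht).1, neg_eq_zero, a3, trV_val, ← map_mul] at hy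
  have : JF (F + p3 t) (y.1.2 * s0) = 0 :=
    ((Per.stTop h (k.sm t ht) (k.tr t ht)).2.1 _).symm.trans hy
  rw [mul_smul_comm, map_smul, this, smul_zero]

theorem pt' (B : Blk) (S : Stp) (hv : Node v) {t : T3} (ht : t ∈ ball (0 : T3) r)
    {c : Cu (F + p3 t)} {v' : Top.Cls (F + p3 t)} (e : tr (k.tr t ht).φ v' = v)
    {C : Cf (F + p3 t)} (al : C.All (QQ c φ v')) (G : Gf C) (ty : G.Typ c) :
    Pt (JV F) (LV F) (vc v) (vc (eC v)) (vc (wC v)) (vn F (σ t)) (IZ C.Z) (H.deg _ 2) (Lk _ 2)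
      (psi (trK (k.tr t ht).φ (G.θ c 1))) 1 (SgZ C.Z)
      {x | ∃ L, LbO C L ∧ x = vc (tr (k.tr t ht).φ (clE c L))} := by
  subst e
  have h' := k.sm t ht
  have n' := ((stTr h.cu c (k.tr t ht)).2.2.2 v').1 hv
  have cv : Cv c C v' := fun x => (qe_ob al x).2
  obtain ⟨x0⟩ := mem_ne C
  have hg : Hdg v' := cv x0 ▸ (stMem c (ob C x0).isMF).2
  have := nice C
  have ps : ∀ x, psi (trK (k.tr t ht).φ (G.θ c 1)) (trV h h' (k.tr t ht) x) = G.ψ c x :=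
    psi_trV h h' _ _
  have su := trV_surj h h' (k.tr t ht)
  have pc : ∀ L : G3.HM (F + p3 t), psi (trK (k.tr t ht).φ (G.θ c 1))
      (vc (tr (k.tr t ht).φ (clE c L))) = G.ψ c (vc (clE c L)) := fun L =>
    (congrArg _ (trV_vc h h' _ (y := clE c L) (stMem c L.isMF).1).symm).trans (ps _)
  obtain ⟨m1, m2⟩ := S.m1 _ c C G v' cv
  refine ⟨uniZ C.pv, om_tr k ht n' hg, om_iso k ht, om_ne' k ht, om_neg k ht n' hg, fun x => ?_, ?_,
    one_ne_zero, fun x x' l hl l' hl' e e' => ?_, fun s hs => ?_, ?_,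
    fun s hs y hy => ?_, ?_, ?_, ampZ C.pv C.cn⟩
  · obtain ⟨x, rfl⟩ := su x
    exact (congrArg (· ∈ H.deg (SZ C.Z) 2) (ps x)).mpr (psi_deg c (S.dg _ c _ G.U 1) x)
  · exact (congrArg _ (trV_vc h h' _ n'.mem).symm).trans ((ps _).trans m1)
  · obtain ⟨x, rfl⟩ := su x
    obtain ⟨x', rfl⟩ := su x'
    have j := JV_trV h h' (k.tr t ht)
    exact (j x x').trans ((S.adj _ c C G v' cv x x' l hl l' hl'
      (fun y => (j x y).symm.trans ((e _).trans (congrArg _ (ps y))))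
      fun y => (j x' y).symm.trans ((e' _).trans (congrArg _ (ps y)))).trans
        (congrArg (· * IZ C.Z l l') (m2.trans Nat.cast_one.symm)))
  · exact TZ_deg (p := 2) (q := 0) C.pv hs
  · obtain ⟨s, hs⟩ := S.sym _ c.hom c.sm C
    exact S.sne _ _ s C.pv C.cn hs
  · obtain ⟨y, rfl⟩ := su y
    exact (congrArg (IZ C.Z s) (ps y)).trans (ty s hs y (perp_om k ht hy))
  · rintro _ ⟨L, hL, rfl⟩
    obtain ⟨b1, b2⟩ := stMem c L.isMF
    refine ⟨vc_mem h.cu ((tr_LT k ht).2 b1), (JV_tr k ht b1 n'.mem).trans ?_,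
      (JV_tr k ht b1 b1).trans ?_, (JV_om k ht b1).2 b2⟩
    · rw [← cv x0]
      exact (mk_chi B.hrr c L _).trans (by rw [lb_chi hL.lb, Int.cast_one])
    · exact (mk_chi B.hrr c L L).trans (by rw [hL.chi, Int.cast_ofNat])
  · obtain ⟨L₀, b1, b2⟩ := S.lef _ c C G (B.lb3 n' al)
    refine ⟨_, ⟨L₀, b1, rfl⟩, fun l hl hs => ?_⟩
    obtain ⟨L, b3, b4⟩ := b2 l hl hs
    exact ⟨_, ⟨L, b3, rfl⟩, (pc L).trans (b4.trans (congrArg (· + l) (pc L₀).symm))⟩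

theorem pt (B : Blk) (S : Stp) (hv : Node v) {t : T3} (ht : t ∈ ball (0 : T3) r)
    (D : Dat φ v (F + p3 t) (k.tr t ht).φ) (ty : D.G.Typ D.c) :
    Pt (JV F) (LV F) (vc v) (vc (eC v)) (vc (wC v)) (vn F (σ t)) (IZ D.C.Z) (H.deg _ 2) (Lk _ 2)
      D.ψ 1 (SgZ D.C.Z) (RD D) := pt' k B S hv ht D.tv D.all D.G ty

theorem exists_dat (B : Blk) (S : Stp) {τ : C(XF F, XF W)} {c : Cu W} {v' : Cls W}
    (e : tr τ v' = v) (hv : Node v') {C : Cf W} (hC : C.All (QQ c φ v')) :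
    ∃ D : Dat φ v W τ, D.G.Typ D.c ∧ D.C = C :=
  let ⟨G, hG⟩ := S.glob W c C (B.hasOut hv hC)
  ⟨⟨c, v', e, C, hC, B.span hv hC, G⟩, hG, rfl⟩

include k in
theorem aux (B : Blk) (hf : StFam) (S : Stp) {t : T3} (ht : t ∈ ball (0 : T3) r)
    (e : W = F + p3 t) (c : Cu W) (φ : ℝ) (v : Cls W) (C : Cf W) (hv : Node v)
    (hC : C.All (QQ c φ v)) (y : Cls W) (h1 : y ∈ LT W) (h2 : Hdg y) (h3 : mk y v = -1)
    (h4 : mk y y = -2) : ∃ G : G3.HM W, clE c G = y ∧ Lb (ob C) G := by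
  classical
  subst e
  obtain ⟨x0⟩ := mem_ne C
  have n := ((stTr h.cu c (k.tr t ht)).2.2.2 v).2 hv
  let t₀ : Dm k φ (tr (k.tr t ht).φ v) := ⟨t, ht, v, rfl, _, qe_ob hC x0⟩
  have a : ∀ s : Dm k φ (tr (k.tr t ht).φ v), ∃ D : Dat φ (tr (k.tr t ht).φ v) (F + p3 s.1)
      (k.tr _ (Dm.ball s)).φ, D.G.Typ D.c := fun s => by
    obtain ⟨E, hE⟩ := Dm.qe s
    obtain ⟨C', h'⟩ := hf _ _ φ _ E (Dm.node n s) hE
    exact (exists_dat B S (Dm.tr_v s) (Dm.node n s) h').imp fun _ => And.left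
  choose D hD using a
  obtain ⟨D₀, b1, b0⟩ := exists_dat B S (τ := (k.tr t ht).φ) rfl hv hC
  obtain ⟨D, hD, e⟩ : ∃ D : ∀ s : Dm k φ (tr (k.tr t ht).φ v), Dat φ (tr (k.tr t ht).φ v)
      (F + p3 s.1) (k.tr _ (Dm.ball s)).φ, (∀ s, (D s).G.Typ (D s).c) ∧ D t₀ = D₀ :=
    ⟨Function.update D t₀ D₀, (Function.forall_update_iff D fun s D => D.G.Typ D.c).2
      ⟨b1, fun s _ => hD s⟩, Function.update_self ..⟩
  obtain ⟨L, b2, b3⟩ := real (base h.cu n) (fun s => pt k B S n (Dm.ball s) (D s) (hD s))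
    (Dm.opn Df.kur stMem n) (fun s => (continuous_subtype_val.continuousAt.eventually
      (S.flat F h r Φ σ η k φ _ n s.1 (Dm.ball s) (D s))).mono fun s' hs => hs (by
        have := (hdg_iff k (Dm.ball s') (Dm.node n s').mem).1 (Dm.hdg stMem s')
        rwa [Dm.tr_v] at this) (Dm.ball s') (D s')) t₀
    (vc_mem h.cu ((tr_LT k ht).2 h1)) ((JV_om k ht h1).2 h2) ((JV_tr k ht h1 hv.mem).trans h3)
    ((JV_tr k ht h1 h1).trans h4)
  exact ⟨L, ((stTr h.cu c (k.tr t ht)).1.1 (vc_inj (P4_LT h.cu ((tr_LT k ht).2 h1))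
    (P4_LT h.cu ((tr_LT k ht).2 (stMem c L.isMF).1)) b3)).symm, b0 ▸ e ▸ b2.lb⟩

end Mn

/-- **PSI** -/
theorem stPsi_of (B : Top.Blk) (hf : Top.StFam) (dg : StDg) (glob : StGlob) (adj : StAdj)
    (m1 : StM1) (sne : StSne) (lef : StLef) (flat : StFlat) (sym : Kx.StSym) : Top.StPsi := by
  intro F c φ v C hv hC y h1 h2 h3 h4
  obtain ⟨r, Φ, σ, η, k⟩ := Per.stPer Top.T3 c.per Top.p3 Top.p3_hom
  exact Mn.aux k B hf ⟨dg, glob, adj, m1, sne, lef, flat, sym⟩ (Metric.mem_ball_self k.pos)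
    (by rw [map_zero, add_zero]) c φ v C hv hC y h1 h2 h3 h4

end Vale.Agent.P287T.Psi
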