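import Vale.Agent.P287T.Psi.Lin
import Mathlib.Analysis.Calculus.InverseFunctionTheorem.FDeriv
import Mathlib.Analysis.Calculus.ContDiff.RCLike
import Mathlib.Analysis.Calculus.FDeriv.Analytic
import Mathlib.Analysis.Calculus.FDeriv.Prod
import Mathlib.Analysis.Calculus.FDeriv.Add
import Mathlib.Analysis.Normed.Module.FiniteDimension
import Mathlib.Analysis.Calculus.Implicit

/-!
# The Mukai map of the moduli surface: openness of the period map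
-/

namespace Vale.Agent.P287T.Psi

open Filter Topology Module Set

variable {V : Type} [AddCommGroup V] [Module ℂ V] {J : V →ₗ[ℂ] V →ₗ[ℂ] ℂ} {Λ : Submodule ℤ V}
  {v η w : V} {T : Type} [NormedAddCommGroup T] [NormedSpace ℂ T] [FiniteDimensional ℂ T]

/-- A period map whose differential is onto is open. -/
theorem opn_at (h : Base J Λ v η w) (hw : J w w ≠ 0) {σ : T → V} {t₀ : T} {κ : T →ₗ[ℂ] V}
    (an : ∀ y, AnalyticAt ℂ (fun t => J y (σ t)) t₀)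
    (der : ∀ y u, fderiv ℂ (fun t => J y (σ t)) t₀ u = J y (κ u))
    (on : ∀ y, J y η = 0 → J y w = 0 → J y (σ t₀) = 0 → ∃ u, κ u = y)
    (pr : ∀ᶠ t in 𝓝 t₀, J (σ t) η = 0 ∧ J (σ t) w = 0 ∧ J (σ t) (σ t) = 0)
    (hv : J (σ t₀) v = 0) (ne : σ t₀ ≠ 0) {O : Set T} (hO : O ∈ 𝓝 t₀) {γ : ℂ → V}
    (h0 : γ 0 = σ t₀) (hc : ∀ y, ContinuousAt (fun s => J y (γ s)) 0)
    (hγ : ∀ s, J (γ s) η = 0 ∧ J (γ s) w = 0 ∧ J (γ s) (γ s) = 0) :
    ∀ᶠ s in 𝓝 (0 : ℂ), ∃ t ∈ O, γ s = σ t := by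
  have := h.fin
  have := FiniteDimensional.complete ℂ T
  obtain ⟨p1, p2, p3⟩ := pr.self_of_nhds
  obtain ⟨ω', q⟩ := h.exists_hyp ⟨p1, hv, p2⟩ p3 ne
  let b := finBasis ℂ V
  let c : V →ₗ[ℂ] Fin (finrank ℂ V) → ℂ := LinearMap.pi fun i => J (b i)
  have ci : Function.Injective c := (injective_iff_map_eq_zero _).2 fun x hx => h.nd x fun y => by
    have k : ∀ i, J (b i) x = 0 := congrFun hx
    rw [h.symm, ← b.sum_repr y]
    simp [LinearMap.sum_apply, -Basis.sum_repr, k]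
  have cs := (LinearMap.injective_iff_surjective_of_finrank_eq_finrank (by simp)).1 ci
  let L : (ℂ × ℂ × ℂ) →ₗ[ℂ] V := (LinearMap.toSpanSingleton ℂ V ω').coprod
    ((LinearMap.toSpanSingleton ℂ V η).coprod (LinearMap.toSpanSingleton ℂ V w))
  have hL : ∀ a, L a = a.1 • ω' + (a.2.1 • η + a.2.2 • w) := fun _ => rfl
  let G : T × ℂ × ℂ × ℂ → Fin (finrank ℂ V) → ℂ := fun z => c (σ z.1) + c (L z.2)
  have a1 : AnalyticAt ℂ (fun t => c (σ t)) t₀ := AnalyticAt.pi fun i => an (b i)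
  have d1 : ∀ u, fderiv ℂ (fun t => c (σ t)) t₀ u = c (κ u) := fun u => funext fun i => by
    have := fderiv_pi (φ := fun i t => J (b i) (σ t)) fun i => (an (b i)).differentiableAt
    exact (congrArg (fun A : T →L[ℂ] Fin (finrank ℂ V) → ℂ => A u i) this).trans (der (b i) u)
  have d2 : HasStrictFDerivAt G ((fderiv ℂ (fun t => c (σ t)) t₀).comp (.fst ℂ _ _) +
      (LinearMap.toContinuousLinearMap (c ∘ₗ L)).comp (.snd ℂ _ _)) (t₀, 0) :=
    (HasStrictFDerivAt.comp (t₀, 0) (f := Prod.fst) a1.hasStrictFDerivAt hasStrictFDerivAt_fst).add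
      (g := fun z => c (L z.2))
      ((LinearMap.toContinuousLinearMap (c ∘ₗ L)).comp (.snd ℂ T _)).hasStrictFDerivAt
  have d3 := d2.map_nhds_eq_of_surj (LinearMap.range_eq_top.2 fun z => by
    obtain ⟨x, rfl⟩ := cs z
    obtain ⟨u, hu⟩ := on (x - L (J x (σ t₀), J x η / J η η, J x w / J w w))
      (by simp [hL, q.t'.1, h.symm w η, h.ew, h.ee]) (by simp [hL, q.t'.2.2, h.ew, hw])
      (by simp [hL, h.symm _ (σ t₀), q.b, p1, p2])
    exact ⟨(u, (J x (σ t₀), J x η / J η η, J x w / J w w)),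
      show fderiv ℂ (fun t => c (σ t)) t₀ u + c (L _) = _ by
        rw [d1, hu, ← map_add]
        exact congrArg c (sub_add_cancel _ _)⟩)
  have n1 : ∀ᶠ t in 𝓝 t₀, J ω' (σ t) ≠ 0 :=
    (an ω').continuousAt.eventually_ne (by rw [h.symm, q.b]; exact one_ne_zero)
  have d4 : G '' (Prod.fst ⁻¹' {t | t ∈ O ∧ (J (σ t) η = 0 ∧ J (σ t) w = 0 ∧ J (σ t) (σ t) = 0) ∧
      J ω' (σ t) ≠ 0}) ∈ 𝓝 (G (t₀, 0)) := d3 ▸ image_mem_map
    (continuousAt_fst.preimage_mem_nhds (inter_mem hO (pr.and n1)))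
  have d5 : ContinuousAt (fun s => c (γ s)) 0 := continuousAt_pi.2 fun i => hc (b i)
  rw [show G (t₀, 0) = c (γ 0) by simp [G, h0]] at d4
  filter_upwards [d5.preimage_mem_nhds d4] with s hs
  obtain ⟨⟨t, a⟩, ⟨t1, ⟨t2, t3, t4⟩, t5⟩, e⟩ := hs
  have e : σ t + L a = γ s := ci (by rw [map_add]; exact e)
  obtain ⟨g1, g2, g3⟩ := hγ s
  rw [← e, hL] at g1 g2 g3
  have k1 : a.2.1 = 0 := by simpa [t2, q.t'.1, h.symm w η, h.ew, h.ee] using g1
  have k2 : a.2.2 = 0 := by simpa [t3, q.t'.2.2, h.ew, hw] using g2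
  have k3 : a.1 = 0 := by
    simp only [k1, k2, zero_smul, add_zero, map_add, map_smul, LinearMap.add_apply,
      LinearMap.smul_apply, smul_eq_mul, t4, q.c, h.symm (σ t) ω'] at g3
    exact (mul_eq_zero.1 (show a.1 * J ω' (σ t) = 0 by linear_combination g3 / 2)).resolve_right t5
  exact ⟨t, t1, by rw [← e, hL]; simp [k1, k2, k3]⟩

/-- The periods over a relatively open part `D` of the Noether-Lefschetz locus of `v`. -/
theorem opn_of (h : Base J Λ v η w) (hw : J w w ≠ 0) {σ : T → V} {κ : T → T →ₗ[ℂ] V} {D : Set T}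
    (an : ∀ t ∈ D, ∀ y, AnalyticAt ℂ (fun t => J y (σ t)) t)
    (der : ∀ t ∈ D, ∀ y u, fderiv ℂ (fun t => J y (σ t)) t u = J y (κ t u))
    (on : ∀ t ∈ D, ∀ y, J y η = 0 → J y w = 0 → J y (σ t) = 0 → ∃ u, κ t u = y)
    (pr : ∀ t₀ ∈ D, ∀ᶠ t in 𝓝 t₀, J (σ t) η = 0 ∧ J (σ t) w = 0 ∧ J (σ t) (σ t) = 0)
    (hv : ∀ t ∈ D, J (σ t) v = 0) (ne : ∀ t ∈ D, σ t ≠ 0)
    (hD : ∀ t₀ ∈ D, ∀ᶠ t in 𝓝 t₀, J (σ t) v = 0 → t ∈ D) : Opn J v η w fun t : D => σ t := by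
  intro t O hO e f he hf hi
  obtain ⟨O', h1, h2⟩ := (mem_nhds_subtype _ _ _).1 hO
  obtain ⟨p1, p2, -⟩ := (pr t t.2).self_of_nhds
  refine (opn_at h hw (an t t.2) (der t t.2) (on t t.2) (pr t t.2) (hv t t.2) (ne t t.2)
    (inter_mem h1 (hD t t.2)) (γ := fun s => σ t + s • e + s ^ 2 • f) (by simp) (fun y => ?_)
    fun s => ⟨by simp [p1, he.1, hf.1], by simp [p2, he.2.2, hf.2.2], hi s⟩).mono
      fun s ⟨t', ⟨t1, t2⟩, e'⟩ => ⟨⟨t', t2 (show J (σ t') v = 0 by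
        rw [← e']; simp [hv t t.2, he.2.1, hf.2.1])⟩, h2 t1, 1, by rw [one_smul]; exact e'⟩
  simp only [map_add, map_smul, smul_eq_mul]
  fun_prop

end Vale.Agent.P287T.Psi
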