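import Vale.Agent.P287T.Rr.AmbP
import Vale.Agent.P287T.Psi.Kv

/-!
# The two primitive parts agree
-/

set_option linter.unusedSectionVars false

namespace Vale.Agent.P287T.Psi

open Set Function P291Z P269 P269.Ch P269.Coh P287Q P287Q.Cub P287T.Cy P287T.Rr P287T.Top
  P287T.Dn

variable {W : S6} (c : Cu W)

theorem pk_pr4 (b : H (XF W)) : pr4 W b = c.pX b := by
  refine PA0.induction (P := fun b => pr4 W b = c.pX b) (by rw [map_zero]; exact (map_zero _).symm)
    (fun a b ha hb => by rw [map_add, ha, hb]; exact (map_add _ _ _).symm) (fun k x hx => ?_) b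
  have e : pr4 W x = H.comp 4 x - ((3 : ℂ)⁻¹ * JF W (H.comp 4 x * hyp W ^ 2)) • hyp W ^ 2 := rfl
  by_cases k4 : k = 4
  · subst k4
    rw [e, hx.comp_eq, ← div_eq_inv_mul, ← c.h_val]
    exact (prX_four c.lf rfl hx).symm
  · rw [e, hx.comp_ne (Ne.symm k4), zero_mul, map_zero, mul_zero, zero_smul, sub_zero]
    exact (prX_ne c.lf rfl c.h4 hx k4).symm

theorem pk_mul {T : Type} [TopologicalSpace T] (K : Kun T (XF W)) (a : H T) (b : H (XF W)) :
    prK T W (H.map .fst a * H.map .snd b) = H.map .fst a * H.map .snd (pr4 W b) := by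
  rw [prK, dif_pos K, ← kmap_tmul, LinearMap.comp_apply, LinearMap.comp_apply,
    LinearEquiv.coe_coe, LinearEquiv.ofBijective_symm_apply_apply, LinearMap.lTensor_tmul,
    kmap_tmul]

include c in
theorem pk_eq {T : Type} [TopologicalSpace T] (K : Kun T (XF W)) (y : H (T × XF W)) :
    prK T W y = y - ∑ m ∈ Finset.range 5, (3 : ℂ)⁻¹ • (H.map .fst
      (Dn.fib T (JF W) (y * H.map .snd (hyp W) ^ (4 - m))) *
        H.map (.snd : C(T × XF W, XF W)) (hyp W) ^ m) := by
  obtain ⟨y, rfl⟩ := K.2 y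
  induction y with
  | zero => simp only [map_zero, zero_mul, smul_zero, Finset.sum_const_zero, sub_zero]
  | add a b ha hb =>
    simp only [map_add, add_mul, smul_add, Finset.sum_add_distrib, ha, hb]
    abel
  | tmul a b =>
    rw [kmap_tmul, pk_mul K, pk_pr4 c, ← c.h_val]
    exact (c.prim_mul K a b).symm

/-- **The primitive part of the setting is `prK`.** -/
theorem prim_eq_prK {B : Ch.Sp} (cn : PreconnectedSpace B.T) (y : Hev (B.X × c.Y.X)) :
    ((ambB c B cn).prim y).1 = prK B.X W y.1 := by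
  rw [ambB_prim, c.h_val]
  exact (pk_eq c (c.kun B.X) y.1).symm

end Vale.Agent.P287T.Psi
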