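import Vale.Agent.P269.Grr.RRE
import Vale.Agent.P269.Grr.NL
import Vale.Agent.P287Q.Hb.QM

/-!
# The leading term of the Chern character of a Koszul type complex
-/

set_option linter.unusedSectionVars false
set_option linter.style.haveILetI false

namespace Vale.Agent.P287T.Psi

open Set Function Topology Filter Module P291Z P269 P269.Holo P269.Mono P269.Tq P269.Coh P269.Ch
  P269.Grr PowerSeries

variable {A W : Type} [NormedRing A] [NormedAlgebra ℂ A] [NormedAddCommGroup W] [NormedSpace ℂ W]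
  [FiniteDimensional ℂ A] [FiniteDimensional ℂ W] {act : A → W → W} {S Z : Set W}
  [IsAct act univ] [FP act S] {m r : ℕ}

/-- near `y` the complex looks like the Koszul complex of local equations of `Z` -/
def Kz (K : Cx (sp act S)) (Z : Set W) (r : ℕ) (y : Sp act S) : Prop :=
  ∃ (Φ : W → Fin r → ℂ) (φ : _), K.Loc r (fun x : Sp act S => Φ x.val) φ y ∧
    AnalyticAt ℂ Φ y.val ∧ (∀ᶠ x in 𝓝 y.val, x ∈ Z → Φ x = 0) ∧
    ∀ w, ∃ v ∈ tan (Subtype.val : S → W) y, fderiv ℂ Φ y.val v = w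

/-- **The class of a complex which resolves a line bundle on `Z` starts with the class of `Z`.** -/
theorem rr_sub (h : QM act S (m + r : ℕ)) (k : QM act Z m) (e : Z ⊆ S) (h0 : 0 < r)
    (K : Cx (sp act S)) (hex : ∀ t : Sp act S, t.val ∉ Z → K.Ex t)
    (hloc : ∀ y : Sp act S, y.val ∈ Z → Kz K Z r y) :
    (∀ j < r, coeff j K.chi = 0) ∧
      ∀ a, h.ps.J ((coeff r K.chi).1 * a) = k.ps.J (H.map (qinc act e) a) := by
  have := k.fp
  have := h.cpt
  have := k.cpt
  have hd : Dim act S (m + r) := h.dim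
  have kd : Dim act Z m := k.dim
  let X := hd.ho h.lin
  let Zs : SubMulAction X.G X.T :=
    ⟨{t : Sp act S | t.val ∈ Z}, fun (g : Aˣ) (t : Sp act S) ht => k.fp.mem _ g.isUnit _ ht⟩
  let j : Sp act Z → Zs := fun x => ⟨Sp.incl act e x, x.val_mem⟩
  have ej : IsEmbedding j :=
    (Sp.isEmbedding_incl (act := act) e).codRestrict {t | t.val ∈ Z} fun x => x.val_mem
  have hj : IsHomeomorph j := isHomeomorph_iff_isEmbedding_surjective.2
    ⟨ej, fun t => ⟨Sp.of act (Sp.val (act := act) t.1) t.2, rfl⟩⟩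
  have hc : IsClosed (Zs : Set X.T) := by
    have := (isCompact_range (qinc act e).continuous).isClosed.preimage
      (Orb.isQuo_sp (act := act) (S := S)).oq.continuous
    refine (show Sp.mk ⁻¹' range (qinc act e) = (Zs : Set X.T) from Set.ext fun t =>
      ⟨?_, fun ht => ⟨Sp.mk (Sp.of act (S := Z) _ ht), rfl⟩⟩) ▸ this
    rintro ⟨x, hx⟩
    obtain ⟨x, rfl⟩ := Sp.surjective_mk x
    obtain ⟨g, rfl⟩ := (Sp.mk_eq_iff (x := Sp.incl act e x) (y := t)).1 hx
    exact Zs.smul_mem g x.val_mem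
  have hm : ∀ t : Zs, IsMfd (fun s : Zs => X.ι s) (finrank ℂ X.L + m) t := fun t => by
    obtain ⟨x, rfl⟩ := hj.surjective t
    exact (kd.isMfd x).push (hj.isOpenEmbedding.lh x) ⟨id, analyticAt_id, .of_forall fun _ => rfl⟩
      ⟨id, analyticAt_id, .of_forall fun _ => rfl⟩
  obtain ⟨c, -, hr, hg, -, hF⟩ := exists_cut X Zs hc (r := r) hm fun _ => rfl
  obtain ⟨B, γ, R⟩ := rre c K hr h0 hex fun y hy => by
    obtain ⟨Φ, φ, k1, k2, k3, k4⟩ := hloc y.1 hy
    exact ⟨_, φ, k1, hF y hy _ Φ k2 (.of_forall fun _ => rfl)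
      (Sp.continuous_val.continuousAt.eventually k3) k4⟩
  refine ⟨fun i hi => by rw [R.chi, coeff_X_pow_mul', if_neg hi.not_ge], fun a => ?_⟩
  have g0 : coeff 0 γ = 1 := by
    have := congrArg (coeff 0) R.td
    rwa [VB.chc, coeff_zero_chP, R.rank, Nat.choose_zero_right, Nat.cast_one,
      coeff_zero_eq_constantCoeff, map_mul, VB.td, constantCoeff_tdOf, mul_one,
      ← coeff_zero_eq_constantCoeff_apply] at this
  let J : Mor (sp act Z) c.S := ⟨MonoidHom.id _, j, continuous_id, ej.continuous, fun _ _ => rfl⟩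
  have hJ : IsHomeomorph J.map :=
    (sp act Z).isQuo.isHomeomorph_map c.S.isQuo J.map_π (fun g _ => ⟨g, rfl⟩) hj
  have hf : res J.map (X.sub Zs hc.isLocallyClosed m hm).fund = fnd act Z := by
    have := (X.sub Zs hc.isLocallyClosed m hm).res_fund_of_mor (F := sp act Z) kd.holOrb J
      hJ.isOpenEmbedding (fun _ => ⟨id, analyticAt_id, .of_forall fun _ => rfl⟩)
      (fun t g hg => ⟨g, hj.injective hg, rfl⟩) (l := 1) fun t => Nat.card_eq_one_iff_unique.2
        ⟨⟨fun a b => Subtype.ext (a.2.2.trans b.2.2.symm)⟩, ⟨⟨1, one_smul _ _, rfl⟩⟩⟩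
    rw [Nat.cast_one, one_smul] at this
    exact this.trans kd.fnd_eq.symm
  have : CompactSpace c.S.X := hJ.surjective.compactSpace hJ.continuous
  have e1 : (c.i.map.comp J.map) = qinc act e := ContinuousMap.ext fun x => by
    obtain ⟨x, rfl⟩ := Sp.surjective_mk x
    exact (congrArg c.i.map (J.map_π x)).trans (c.i.map_π _)
  show Loc.intg (fnd act S) _ = Loc.intg (fnd act Z) _
  rw [R.chi, coeff_X_pow_mul', if_pos le_rfl, Nat.sub_self, coeff_mapL, g0,
    Hev.commute (c.g 1).2, ← Loc.intg_cap, ← hd.ho_fund h.lin, c.cap_g, hg, Loc.intg_push,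
    ← e1, ← H.map_map, ← Loc.intg_push J.map, ← hf]
  exact congrArg (Loc.intg · _) ((cap_one _).trans (push_res_homeo hJ _).symm)

end Vale.Agent.P287T.Psi
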