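import Vale.Agent.P287T.Psi.TyC
import Vale.Agent.P287T.Cl.Seg

/-!
# The product of the surface and the cubic fourfold as a variety
-/

set_option linter.unusedSectionVars false
set_option linter.style.haveILetI false

namespace Vale.Agent.P287T.Psi

open Set Function P291Z P269 P269.Holo P269.Mono P269.Tq P269.Ch P287Q P287Q.Hb P287Q.Cub P287T.Cy P287T.Rr
  P287T.Top P287T.Cl P287T.Gl P287T.Dn

section gen

variable {J R J' R' : Type} [Fintype J] [Fintype R] [Fintype J'] [Fintype R'] {π : J → R}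
  {π' : J' → R'} {A : Set (J → ℂ)} {A' : Set (J' → ℂ)} {n n' : ℕ}

/-- The multicone over the product of two varieties. -/
def pcC (A : Set (J → ℂ)) (A' : Set (J' → ℂ)) : Set (J ⊕ J' → ℂ) :=
  {y | y ∘ .inl ∈ A ∧ y ∘ .inr ∈ A'}

theorem pc_an1 (w : J ⊕ J' → ℂ) : AnalyticAt ℂ (fun w : J ⊕ J' → ℂ => w ∘ Sum.inl) w :=
  analyticAt_pi_iff.2 fun j =>
    (ContinuousLinearMap.proj (R := ℂ) (φ := fun _ : J ⊕ J' => ℂ) (.inl j)).analyticAt w

theorem pc_an2 (w : J ⊕ J' → ℂ) : AnalyticAt ℂ (fun w : J ⊕ J' → ℂ => w ∘ Sum.inr) w :=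
  analyticAt_pi_iff.2 fun j =>
    (ContinuousLinearMap.proj (R := ℂ) (φ := fun _ : J ⊕ J' => ℂ) (.inr j)).analyticAt w

theorem pc_mc (h : MC π A) (h' : MC π' A') : MC (Sum.map π π') (pcC A A') where
  sub w hw := by
    rintro (r | r)
    · obtain ⟨j, rfl, b⟩ := h.sub hw.1 r
      exact ⟨.inl j, rfl, b⟩
    · obtain ⟨j, rfl, b⟩ := h'.sub hw.2 r
      exact ⟨.inr j, rfl, b⟩
  inv t ht w hw := ⟨h.inv (t ∘ .inl) (unit_iff.2 fun _ => unit_iff.1 ht _) _ hw.1,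
    h'.inv (t ∘ .inr) (unit_iff.2 fun _ => unit_iff.1 ht _) _ hw.2⟩
  cl w hw hu := by
    refine ⟨h.cl _ (map_mem_closure (f := fun w : J ⊕ J' → ℂ => w ∘ Sum.inl) (by fun_prop) hw
      fun _ a => a.1) fun r => ?_, h'.cl _ (map_mem_closure
        (f := fun w : J ⊕ J' → ℂ => w ∘ Sum.inr) (by fun_prop) hw fun _ a => a.2) fun r => ?_⟩
    · obtain ⟨j | j, a, b⟩ := hu (.inl r)
      · exact ⟨j, Sum.inl_injective a, b⟩
      · cases a
    · obtain ⟨j | j, a, b⟩ := hu (.inr r)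
      · cases a
      · exact ⟨j, Sum.inr_injective a, b⟩

/-- The product of two varieties is a variety. -/
theorem pc_pv (h : PV π A n) (h' : PV π' A' n') : PV (Sum.map π π') (pcC A A') (n + n') where
  toMC := pc_mc h.toMC h'.toMC
  mfd w hw := by
    have h1 := ((h.mfd _ hw.1).prod (h'.mfd _ hw.2)).iso (S' := pcC A A')
      (F := fun p => Sum.elim p.1 p.2) (G := fun w => (w ∘ .inl, w ∘ .inr))
      (analyticAt_pi_iff.2 fun j => by
        rcases j with j | j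
        exacts [analyticAt_pi_iff.1 analyticAt_fst j, analyticAt_pi_iff.1 analyticAt_snd j])
      ((pc_an1 _).prod (pc_an2 _)) (.of_forall fun s b => ⟨b, rfl⟩)
      (.of_forall fun s a => ⟨a, Sum.elim_comp_inl_inr s⟩)
    rwa [Sum.elim_comp_inl_inr, add_add_add_comm, ← Fintype.card_sum] at h1

theorem pc_hm1 : Tq.Hm fun t : R ⊕ R' → ℂ => t ∘ Sum.inl :=
  ⟨rfl, fun _ _ _ _ => rfl, fun a _ => (pc_an1 a).continuousAt⟩

theorem pc_hm2 : Tq.Hm fun t : R ⊕ R' → ℂ => t ∘ Sum.inr :=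
  ⟨rfl, fun _ _ _ _ => rfl, fun a _ => (pc_an2 a).continuousAt⟩

variable (π π' A A')

theorem pc_hol1 : Tq.Hol (scl (Sum.map π π')) (scl π) (pcC A A') A (· ∘ .inl) (· ∘ .inl) :=
  haveI := isAct_scl (Sum.map π π')
  haveI := isAct_scl π
  .of_an pc_hm1 (fun _ a => a.1) (fun x _ => pc_an1 x) fun _ _ _ _ => rfl

theorem pc_hol2 : Tq.Hol (scl (Sum.map π π')) (scl π') (pcC A A') A' (· ∘ .inr) (· ∘ .inr) :=
  haveI := isAct_scl (Sum.map π π')
  haveI := isAct_scl π'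
  .of_an pc_hm2 (fun _ a => a.2) (fun x _ => pc_an2 x) fun _ _ _ _ => rfl

/-- The identification with the product of the spaces. -/
noncomputable def pcE : C(Spc (Sum.map π π') (pcC A A'), Spc π A × Spc π' A') :=
  (pc_hol1 π π' A A').toEqh.toEqv.qm.prodMk (pc_hol2 π π' A A').toEqh.toEqv.qm

theorem pcE_bij : Bijective (pcE π π' A A') := by
  haveI := isAct_scl π
  haveI := isAct_scl π'
  refine ⟨mk_surj.forall₂.2 fun x y e => ?_, fun ⟨x, y⟩ => ?_⟩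
  · obtain ⟨a, ha, e1⟩ := QMA.mk_eq (act := scl π) (x := ⟨x.1 ∘ .inl, x.2.1⟩)
      (y := ⟨y.1 ∘ .inl, y.2.1⟩) (congrArg Prod.fst e)
    obtain ⟨b, hb, e2⟩ := QMA.mk_eq (act := scl π') (x := ⟨x.1 ∘ .inr, x.2.2⟩)
      (y := ⟨y.1 ∘ .inr, y.2.2⟩) (congrArg Prod.snd e)
    exact Quot.sound ⟨Sum.elim a b, unit_iff.2 (Sum.rec (unit_iff.1 ha) (unit_iff.1 hb)),
      funext (Sum.rec (congrFun e1) (congrFun e2))⟩
  · obtain ⟨x, rfl⟩ := mk_surj x
    obtain ⟨y, rfl⟩ := mk_surj y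
    exact ⟨Quo.mk _ ⟨Sum.elim x.1 y.1, x.2, y.2⟩, rfl⟩

variable {π π' A A'}

theorem pcE_map (h : MC π A) (h' : MC π' A') : Bijective (H.map (pcE π π' A A')) :=
  haveI := (pc_mc h h').compact
  haveI := isAct_scl π
  haveI := isAct_scl π'
  haveI := h.fp
  haveI := h'.fp
  H.map_bijective_of_homeomorph ((isHomeomorph_iff_continuous_bijective.2
    ⟨(pcE π π' A A').continuous, pcE_bij π π' A A'⟩).homeomorph _)

end gen

variable {ν : ℕ} {Z : Set (Fin ν → ℂ)} {W : S6}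

/-- The two blocks of coordinates. -/
abbrev π2 (ν : ℕ) : Fin ν ⊕ Fin 6 → Unit ⊕ Unit := Sum.map (π₀ (Fin ν)) (π₀ (Fin 6))

/-- The multicone over the product. -/
abbrev C2 (Z : Set (Fin ν → ℂ)) (W : S6) : Set (Fin ν ⊕ Fin 6 → ℂ) := pcC Z (Pub.cone W)

/-- The identification with the product. -/
noncomputable abbrev e2 (Z : Set (Fin ν → ℂ)) (W : S6) : C(Spc (π2 ν) (C2 Z W), SZ Z × XF W) :=
  pcE (π₀ (Fin ν)) (π₀ (Fin 6)) Z (Pub.cone W)

/-- The Hodge types on the product. -/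
noncomputable def P2 (Z : Set (Fin ν → ℂ)) (W : S6) (p q : ℤ) :
    Submodule ℂ (H (SZ Z × XF W)) :=
  (QT (scl (π2 ν)) (C2 Z W) p q).comap (H.mapA (e2 Z W)).toLinearMap

theorem mem_P2 {p q : ℤ} {a : H (SZ Z × XF W)} :
    a ∈ P2 Z W p q ↔ H.map (e2 Z W) a ∈ QT (scl (π2 ν)) (C2 Z W) p q := Iff.rfl

theorem pv2 (hZ : PV (π₀ (Fin ν)) Z 2) (c : Cu W) : PV (π2 ν) (C2 Z W) 6 :=
  pc_pv hZ (Cub.pv c.hom c.sm)

/-- **The types on the product.** -/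
theorem pt2 (hZ : PV (π₀ (Fin ν)) Z 2) (c : Cu W) : PT Z W (P2 Z W) := by
  haveI := isAct_scl (π2 ν)
  haveI := isAct_scl (π₀ (Fin ν))
  haveI := isAct_scl (π₀ (Fin 6))
  have h := (pv2 hZ c).qm
  refine ⟨fun p q p' q' a ha b hb => ?_, fun p q k a ha => ?_, fun p q s hs => ?_,
    fun p q s hs => ?_⟩
  · rw [mem_P2, map_mul]
    exact QT_mul h ha hb
  · exact (pcE_map hZ.toMC (Cub.mc c.hom)).1
      ((QT_out h ha (.inl (by exact_mod_cast k))).trans (map_zero _).symm)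
  · rw [mem_P2, H.map_map]
    exact Mf.map_mem_QT h (pc_hol1 _ _ _ _) hs
  · rw [mem_P2, H.map_map]
    exact Mf.map_mem_QT h (pc_hol2 _ _ _ _) hs

section mor

variable [IsAct (scl (π2 ν)) univ] [FP (scl (π2 ν)) (C2 Z W)] (c : Cu W)

/-- The point of the surface. -/
def z2 (t : (spY (π2 ν) (C2 Z W)).T) : Z := ⟨pt t ∘ .inl, (pt_mem t).1⟩

theorem z2_cont : Continuous (z2 : (spY (π2 ν) (C2 Z W)).T → Z) :=
  (continuous_pi fun _ => (continuous_apply _).comp pt_cont).subtype_mk _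

theorem z2_smul (g : (spY (π2 ν) (C2 Z W)).G) (t : (spY (π2 ν) (C2 Z W)).T) :
    (z2 (g • t)).1 = un g (.inl ()) • (z2 t).1 := rfl

theorem z2_mk (g : (spY (π2 ν) (C2 Z W)).G) (t : (spY (π2 ν) (C2 Z W)).T) :
    (Quo.mk _ (z2 (g • t)) : SZ Z) = Quo.mk _ (z2 t) :=
  (Quot.sound ⟨un g ∘ .inl, unit_iff.2 fun _ => unit_iff.1 (un_unit g) _, rfl⟩).symm

/-- The morphism to the cubic. -/
noncomputable def m2X : Mor (spY (π2 ν) (C2 Z W)) c.Y :=
  haveI := Rr.isAct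
  haveI := c.qm.fp
  (pc_hol2 (π₀ (Fin ν)) (π₀ (Fin 6)) Z (Pub.cone W)).toEqh.mor

theorem m2X_x (t : (spY (π2 ν) (C2 Z W)).T) : c.x ((m2X c).f t) = pt t ∘ .inr := rfl

theorem m2X_χ (g : (spY (π2 ν) (C2 Z W)).G) : (c.χ ((m2X c).ρ g) : ℂ) = un g (.inr ()) := rfl

variable [Nice (SZ Z)]

/-- The morphism to the product. -/
noncomputable def m2 : Mor (spY (π2 ν) (C2 Z W)) (prS (.triv (SZ Z)) c.Y) where
  ρ := (1 : _ →* (Ch.Sp.triv (SZ Z)).G).prod (m2X c).ρ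
  f t := ((Quo.mk _ (z2 t) : SZ Z), (m2X c).f t)
  cρ := continuous_const.prodMk (m2X c).cρ
  cf := (continuous_mk.comp z2_cont).prodMk (m2X c).cf
  eqv g t := Prod.ext (z2_mk g t) ((m2X c).eqv g t)

theorem m2_fst (t : (spY (π2 ν) (C2 Z W)).T) : ((m2 c).f t).1 = (Quo.mk _ (z2 t) : SZ Z) := rfl

theorem m2_x (t : (spY (π2 ν) (C2 Z W)).T) : c.x ((m2 c).f t).2 = pt t ∘ .inr := rfl

theorem m2_χ (g : (spY (π2 ν) (C2 Z W)).G) :
    ((m2 c).chr ((pr2 _ c.Y).chr c.χ) g : ℂ) = un g (.inr ()) := rfl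

theorem m2_map : (m2 c).map = e2 Z W :=
  ContinuousMap.coe_injective ((m2 c).map_eq (φ := e2 Z W) fun _ => rfl).symm

end mor

end Vale.Agent.P287T.Psi
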