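import Vale.Agent.P287T.Psi.Hol
import Vale.Agent.P287T.Psi.Srf
import Vale.Agent.P287T.Psi.Kap0
import Vale.Agent.P287T.Rb.Defs
import Vale.Agent.P287T.Cl.Seg

/-!
# The bundles of generators of a holomorphic family have characters of type `(k, k)`
-/

set_option linter.unusedSectionVars false
set_option linter.style.haveILetI false

noncomputable section

namespace Vale.Agent.P287T.Psi

open Set Function Module Matrix MvPolynomial P291Z P269 P269.Holo P269.Tq P269.Ch P269.Grr P287Q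
  P287Q.Hb P287Q.Cub P287T.Cy P287T.Rr P287T.Fa P287T.Gb P287T.Gl P287T.Cl P287T.Rb P287Z.O
  P287Z.O.L

variable {ν n : ℕ} {Z : Set (Fin ν → ℂ)} [IsAct (scl (π₀ (Fin ν))) univ] [Mono.FP (scl (π₀ (Fin ν))) Z]

/-- the cone as a presentation of the variety -/
abbrev tbY (Z : Set (Fin ν → ℂ)) [Mono.FP (scl (π₀ (Fin ν))) Z] : Ch.Sp := spY (π₀ (Fin ν)) Z

theorem tb_kz (hZ : PV (π₀ (Fin ν)) Z n) {M N K : Type} [AddCommGroup M] [Module ℂ M]
    [AddCommGroup N] [Module ℂ N] [Fintype K] {F : (tbY Z).T → Submodule ℂ M}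
    (h : IsB (tv (tbY Z) M) F) (w : K → ℕ) {A : (tbY Z).T → M →ₗ[ℂ] K → ℂ}
    (cont : ∀ m, WC fun t => A t m) (inj : ∀ t, ∀ m ∈ F t, A t m = 0 → m = 0)
    (eqv : ∀ (g : (tbY Z).G) t m i, A (g • t) m i = un g () ^ w i * A t m i)
    {B : (Fin ν → ℂ) → N →ₗ[ℂ] K → ℂ} (an : ∀ y ∈ Z, ∀ u, AnalyticAt ℂ (fun z => B z u) y)
    (P : Submodule ℂ N) [FiniteDimensional ℂ P] (hF : ∀ t, (F t).map (A t) = P.map (B (Cl.pt t))) :
    KZ (GE (TZ Z)) (ch (tv (tbY Z) M) F) := by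
  obtain ⟨E, j, h⟩ := h
  have hc : Tq.Hm fun t : Unit → ℂ => t () :=
    ⟨rfl, fun _ _ _ _ => rfl, fun _ _ => (continuous_apply ()).continuousAt⟩
  let χ : (tbY Z).G →ₜ* ℂˣ := hc.ρ
  have i : ∀ t v, v ∈ E.F t → (A t ∘ₗ j) v = 0 → v = 0 := fun t v hv e =>
    (map_eq_zero_iff _ h.inj).1 (inj t _ (h.mem.2 hv) e)
  have c : Continuous fun x : (tbY Z).T × E.W => A x.1 (j x.2) :=
    (WC.app (A := fun t => A t ∘ₗ j) fun v => cont (j v)).cont
  have k : Hom (Mor.id _) E (am χ fun i => (w i : ℤ)) fun t => A t ∘ₗ j :=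
    Hom.of_continuous (fun _ _ _ => trivial) c fun g t v hv =>
      (funext fun i => (congrArg (A (g • t) · i) (h.eqv g t v hv)).trans ((eqv g t _ i).trans
        (congrArg (· * _) (zpow_natCast _ _).symm))).trans (am_smul χ _ g _).symm
  let E' := (am χ fun i => (w i : ℤ)).sub (fun t => (E.F t).map (A t ∘ₗ j)) E.r (k.isClosed_map i)
    (fun t => (finrank_map_of_inj (i t)).trans (E.rank t)) (by
      rintro g t _ ⟨v, hv, rfl⟩
      exact ⟨_, E.inv g t v hv, k.eqv g t v hv⟩)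
  rw [h.ch, Iso.chc' (E := E') ⟨⟨fun t v hv => ⟨v, hv, rfl⟩, k.cont, k.eqv⟩, i, fun _ _ hv => hv⟩]
  refine kz_sub hZ E' (fun i _ => w i) LinearMap.id injective_id (fun g v i => ?_)
    (B := fun y => B y ∘ₗ P.subtype ∘ₗ (finBasis ℂ P).equivFun.symm.toLinearMap)
    (fun y hy _ => an y hy _) fun t => ?_
  · rw [Fintype.prod_unique]
    exact congrFun (am_smul χ (fun i => (w i : ℤ)) g v) i
  · rw [LinearMap.range_comp, LinearMap.range_comp_of_range_eq_top _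
      (finBasis ℂ P).equivFun.symm.range, P.range_subtype, ← hF, ← h.map, ← Submodule.map_comp]
    exact Submodule.map_id _

variable {ι κ μ : Type} [Fintype ι] [Fintype κ] [Fintype μ] {p : ι → ℤ} {q : κ → ℤ} {r : μ → ℤ}
  {u j : ℤ}

/-- columns of charge `u` with entries in `I` -/
def tbC (I : Ideal S6) (q : κ → ℤ) (u : ℤ) : Submodule ℂ (Matrix κ Unit S6) where
  carrier := {g | g ∈ MM (fun _ => u) q 0 ∧ ∀ i, g i () ∈ I}
  zero_mem' := ⟨zero_mem _, fun _ => I.zero_mem⟩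
  add_mem' h h' := ⟨add_mem h.1 h'.1, fun i => I.add_mem (h.2 i) (h'.2 i)⟩
  smul_mem' c _ h := ⟨Submodule.smul_mem _ c h.1, fun i => I.smul_of_tower_mem c (h.2 i)⟩

theorem tbC_mul {I : Ideal S6} {a : Matrix μ κ S6} {g : Matrix κ Unit S6} (ha : a ∈ MM q r 0)
    (hg : g ∈ tbC I q u) : a * g ∈ tbC I r u :=
  ⟨mm_mul ha hg.1 rfl, fun _ => I.sum_mem fun l _ => I.mul_mem_left _ (hg.2 l)⟩

theorem tbC_fin (I : Ideal S6) (q : κ → ℤ) (u : ℤ) : FiniteDimensional ℂ (tbC I q u) :=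
  Submodule.finiteDimensional_of_le (S₂ := MM (fun _ => u) q 0) fun _ h => h.1

/-- those fixed by `e` -/
def tbF (I : Ideal S6) (q : κ → ℤ) (u : ℤ) (e : Matrix κ κ ℂ) : Submodule ℂ (Matrix κ Unit S6) :=
  tbC I q u ⊓ LinearMap.eqLocus (mulB κ κ Unit (cM e)) LinearMap.id

theorem tb_core [DecidableEq ι] (hZ : PV (π₀ (Fin ν)) Z n) [PreconnectedSpace (tbY Z).T]
    {e : (tbY Z).T → Matrix κ κ ℂ} (ce : Continuous e) (be : ∀ t, Blk q q (e t))
    (ee : ∀ t, e t * e t = e t) (ie : ∀ (g : (tbY Z).G) t, e (g • t) = e t) {m : ι → ℕ}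
    {Ψ : (tbY Z).T → Matrix ι κ S6} (cΨ : WC Ψ) (dΨ : ∀ t, Ψ t ∈ MM q p j)
    (eΨ : ∀ (g : (tbY Z).G) t, Ψ (g • t) = cM (dg (un g ()) m) * Ψ t)
    (inj : ∀ t, ∀ g ∈ MM (fun _ : Unit => u) q 0, cM (e t) * g = g → Ψ t * g = 0 → g = 0)
    {φ : (Fin ν → ℂ) → Matrix ι μ S6}
    (an : ∀ z ∈ Z, ∀ i l k, AnalyticAt ℂ (fun y => coeff k (φ y i l)) z)
    (od : ∀ t, ∃ α ∈ MM q r 0, ∃ β ∈ MM r q 0,
      (∀ g ∈ MM (fun _ : Unit => u) q 0, Ψ t * g = φ (Cl.pt t) * (α * g)) ∧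
      ∀ g ∈ MM (fun _ : Unit => u) r 0, Ψ t * (cM (e t) * (β * g)) = φ (Cl.pt t) * g)
    (I : Ideal S6) : IsB (tv (tbY Z) _) (fun t => tbF I q u (e t)) ∧
      KZ (GE (TZ Z)) (ch (tv (tbY Z) _) fun t => tbF I q u (e t)) := by
  haveI := tbC_fin I q u
  haveI := tbC_fin I r u
  have e2 : ∀ t (g : Matrix κ Unit S6), cM (e t) * (cM (e t) * g) = cM (e t) * g := fun t g => by
    rw [← Matrix.mul_assoc, ← cM_mul, ee]
  have hB : IsB (tv (tbY Z) _) fun t => tbF I q u (e t) :=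
    (isB_const _ (tbC I q u)).1.fix (π := fun t => mulB κ κ Unit (cM (e t)))
      ⟨fun t _ h => tbC_mul (be t).mm h, fun g => (wc_cM ce).mul_l (fun t => (be t).mm) (WC.const g),
        fun g t _ _ => by rw [ie]; rfl⟩ (fun t g _ => e2 t g) fun _ _ => Iff.rfl
  let co : Matrix ι Unit S6 →ₗ[ℂ] (Σ i : ι, (fin_deg (j + u - p i)).toFinset) → ℂ :=
    LinearMap.pi fun k => lcoeff ℂ k.2.1 ∘ₗ Matrix.entryLinearMap ℂ S6 k.1 ()
  refine ⟨hB, tb_kz hZ hB (fun k => m k.1) (A := fun t => co ∘ₗ mulB ι κ Unit (Ψ t))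
    (fun g => (cΨ.mul_l dΨ (WC.const g)).map co) (fun t g hg k => inj t g hg.1.1 hg.2 ?_)
    (fun g t x k => ?_) (B := fun y => co ∘ₗ mulB ι μ Unit (φ y))
    (fun y hy x => analyticAt_pi_iff.2 fun k => ?_) (tbC I r u) fun t => ?_⟩
  · refine Matrix.ext fun i _ => (hg_eq_sum (mm_mul (dΨ t) hg.1.1 (add_zero j) i ())).trans
      (Finset.sum_eq_zero fun s hs => ?_)
    exact smul_eq_zero_of_left (congrFun k ⟨i, s, hs⟩) _
  · show coeff _ ((Ψ (g • t) * x) k.1 ()) = _ * coeff _ ((Ψ t * x) k.1 ())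
    rw [eΨ, Matrix.mul_assoc, dg, cM, diagonal_map C_0, diagonal_mul, coeff_C_mul]
  · show AnalyticAt ℂ (fun z => coeff _ ((φ z * x) k.1 ())) y
    simp only [Matrix.mul_apply, coeff_sum, coeff_mul]
    exact Finset.analyticAt_fun_sum _ fun l _ => Finset.analyticAt_fun_sum _ fun s _ =>
      (an y hy _ _ _).mul analyticAt_const
  · obtain ⟨α, hα, β, hβ, h1, h2⟩ := od t
    refine le_antisymm ?_ ?_
    · rintro _ ⟨g, hg, rfl⟩
      exact ⟨_, tbC_mul hα hg.1, congrArg co (h1 g hg.1.1).symm⟩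
    · rintro _ ⟨g, hg, rfl⟩
      exact ⟨_, ⟨tbC_mul (be t).mm (tbC_mul hβ hg), e2 t _⟩, congrArg co (h2 g hg.1)⟩

theorem tb_pe [DecidableEq κ] {g : Matrix κ Unit S6} (hg : g ∈ MM (fun _ : Unit => u) q 0) {a : ℤ}
    (h : 2 ∣ u + a) : cM (pe q a) * g = g := by
  rw [pe_comm hg (a := a) (by omega), pe, if_pos h, diagonal_one, cM_one, Matrix.mul_one]

variable {W : S6} [Nice (SZ Z)] [PreconnectedSpace (tbY Z).T] (U : Fm W (SZ Z))

theorem tb_E (u : ℤ) :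
    IsB (tv (tbY Z) _) (fun t => Vf (fun i => U.q i = u) (U.e ((tbY Z).π t)) 0) ∧
      ch (tv (tbY Z) _) (fun t => Vf (fun i => U.q i = u) (U.e ((tbY Z).π t)) 0) = U.chE u := by
  haveI : PreconnectedSpace (SZ Z) :=
    ⟨(tbY Z).surj.range_eq ▸ isPreconnected_range (tbY Z).cont⟩
  obtain ⟨r, h⟩ := U.famE u
  let m : Mor (tbY Z) (.triv (SZ Z)) :=
    ⟨1, (tbY Z).π, continuous_const, (tbY Z).cont, (tbY Z).π_smul⟩
  have h' := chF_fam (χ' := 1) h m fun _ => rfl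
  have M : Md (tv (tbY Z) _) (fun t => Vf (fun i => U.q i = u) (U.e ((tbY Z).π t)) 0) h'.vb
      LinearMap.id := ⟨injective_id, fun _ => Submodule.map_id _, fun g t v _ =>
    (am_smul _ _ g v).trans (funext fun i => one_mul _)⟩
  refine ⟨⟨_, _, M⟩, M.ch.trans ((chF_eq h').symm.trans ((chF_pb ⟨r, h⟩ m fun _ => rfl).trans
    (PowerSeries.ext fun k => (PowerSeries.coeff_map _ _ _).trans (Subtype.ext ?_))))⟩
  exact H.map_id (fun x => (tbY Z).π_out x) _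

theorem tb_fin (hZ : PV (π₀ (Fin ν)) Z n)
    (h : ∀ I, IsB (tv (tbY Z) _) (fun t => tbF I U.q u (U.e ((tbY Z).π t))) ∧
      KZ (GE (TZ Z)) (ch (tv (tbY Z) _) fun t => tbF I U.q u (U.e ((tbY Z).π t)))) :
    KZ (GE (TZ Z)) (U.chE u) := by
  let c : Matrix U.κ Unit S6 →ₗ[ℂ] U.κ → ℂ :=
    LinearMap.pi fun i => lcoeff ℂ 0 ∘ₗ Matrix.entryLinearMap ℂ S6 i ()
  have := (h (RingHom.ker constantCoeff)).1.exact (h ⊤).1 (tb_E U u).1 (B := fun _ => c)
    (HM.incl fun _ _ k => ⟨⟨k.1.1, fun _ => trivial⟩, k.2⟩)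
    ⟨fun t g hg => ⟨fun i hi => c0_blk hg.1.1 i () hi, funext fun i => ?_, zero_mulVec _⟩,
      fun _ => WC.const _, fun _ _ _ _ => rfl⟩ (fun _ _ _ e => e) (fun t v hv => ?_)
    fun t g hg => ⟨fun e => ⟨g, ⟨⟨hg.1.1, congrFun e⟩, hg.2⟩, rfl⟩, ?_⟩
  · rw [← (tb_E U u).2, eq_sub_of_add_eq' this.symm]
    exact (h _).2.sub (gr_GE hZ.hg) (h _).2
  · have e := congrArg c0 (show cM (U.e ((tbY Z).π t)) * g = g from hg.2)
    rw [c0_mul, c0_cM] at e
    exact congrFun (congrFun e i) ()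
  · refine ⟨cM (of fun i _ => v i), ⟨⟨Blk.mm fun i _ hi => hv.1 i hi, fun _ => trivial⟩,
      (cM_mul _ _).symm.trans (congrArg cM (Matrix.ext fun i _ => congrFun hv.2.1 i))⟩,
      funext fun i => coeff_zero_C _⟩
  · rintro ⟨g', hg', rfl⟩
    exact funext hg'.1.2

variable [DecidableEq ι] [DecidableEq μ] {m : ι → ℕ} {φ : (Fin ν → ℂ) → Matrix ι μ S6}
  {B : Z → Matrix ι U.κ ℂ}

theorem tb_even (hZ : PV (π₀ (Fin ν)) Z n) (h : U.HolD p r m φ B) (hu : 2 ∣ u + 0) :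
    KZ (GE (TZ Z)) (U.chE u) := by
  refine tb_fin U hZ (tb_core hZ (U.pf.ce.comp (tbY Z).cont) (fun t => (U.pf.pf _).blk)
    (fun t => (U.pf.pf _).ee) (fun g t => congrArg U.e ((tbY Z).π_smul g t)) (m := m)
    (Ψ := fun t => cM (B t)) (wc_cM h.cB) (fun t => (h.bB t).mm)
    (fun g t => (congrArg cM (h.eB t (g • t) (un g ()) rfl)).trans (cM_mul _ _))
    (fun t g hg e k => ?_) (φ := fun _ => 1) (r := p) (fun _ _ _ _ _ => analyticAt_const)
    fun t => ?_) <;> obtain ⟨A, hA, h1, h2⟩ := h.ev t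
  · have := congrArg (cM A * ·) k
    rwa [← Matrix.mul_assoc, ← cM_mul, h2, cM_mul, Matrix.mul_assoc, tb_pe hg hu, Matrix.mul_zero,
      show cM (U.e (Quo.mk _ t)) * g = g from e] at this
  · refine ⟨_, (h.bB t).mm, _, hA.mm, fun g _ => (Matrix.one_mul _).symm, fun g hg => ?_⟩
    have e : B t * (U.e (Quo.mk _ t) * (A * pe p 0)) = pe p 0 := by
      rw [← Gb.Blk.pe_comm hA, ← Matrix.mul_assoc (U.e _), ← h2, Matrix.mul_assoc, ← Matrix.mul_assoc, h1,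
        pe_pe]
    have := congrArg (cM · * g) e
    simp only [cM_mul, Matrix.mul_assoc, tb_pe hg hu] at this
    exact this.trans (Matrix.one_mul _).symm

theorem tb_odd (hZ : PV (π₀ (Fin ν)) Z n) (hW : W ≠ 0) (h : U.HolD p r m φ B) (hu : 2 ∣ u + 1) :
    KZ (GE (TZ Z)) (U.chE u) := by
  refine tb_fin U hZ (tb_core hZ (U.pf.ce.comp (tbY Z).cont) (fun t => (U.pf.pf _).blk)
    (fun t => (U.pf.pf _).ee) (fun g t => congrArg U.e ((tbY Z).π_smul g t)) (m := m) (r := r)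
    (Ψ := fun t => cM (B t) * U.D (Quo.mk _ t)) ((wc_cM h.cB).mul_l (fun t => (h.bB t).mm)
      ((wc_MM (fun t => (U.pf.pf t).deg) U.pf.cd).comp (tbY Z).cont))
    (fun t => mm_mul (h.bB t).mm (U.pf.pf _).deg rfl) (fun g t => ?_) (fun t g hg e k => ?_) h.an
    fun t => ?_)
  · rw [← Matrix.mul_assoc, ← cM_mul, ← h.eB t (g • t) (un g ()) rfl]
    exact congrArg (cM (B (g • t)) * U.D ·) ((tbY Z).π_smul g t)
  · obtain ⟨A, hA, h1, h2⟩ := h.ev t
    have k1 := congrArg (cM A * ·) k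
    have pf := U.pf.pf (Quo.mk _ t)
    simp only [← Matrix.mul_assoc, ← cM_mul, h2] at k1
    rw [cM_mul, Matrix.mul_assoc (cM _), pe_comm pf.deg (a := 1) (by omega), ← Matrix.mul_assoc,
      pf.ed, Matrix.mul_assoc, tb_pe hg hu, Matrix.mul_zero] at k1
    have k2 := congrArg (U.D (Quo.mk _ t) * ·) k1
    simp only [← Matrix.mul_assoc, pf.sq, Matrix.smul_mul, Matrix.mul_zero] at k2
    exact smul_canc hW ((congrArg (W • ·) e).symm.trans (k2.trans (smul_zero W).symm))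
  · obtain ⟨α, hα, β, hβ, h1, h2⟩ := h.od t
    refine ⟨_, mm_mul (pe_blk 1).mm hα rfl, _, mm_mul (pe_blk 1).mm hβ rfl, fun g hg => ?_,
      fun g hg => ?_⟩
    · have := congrArg (· * g) h1
      simp only [Matrix.mul_assoc, tb_pe hg hu] at this ⊢
      exact this
    · have := congrArg (· * g) h2
      simp only [Matrix.mul_assoc, tb_pe hg hu] at this
      refine Eq.trans ?_ this.symm
      rw [Matrix.mul_assoc, Matrix.mul_assoc, ← Matrix.mul_assoc (U.D _)]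
      exact congrArg (cM (B t) * ·) (congrArg (· * _) (U.pf.pf _).de)

end Vale.Agent.P287T.Psi

namespace Vale.Agent.P287T.Psi

open P291Z P269 P287Q P287Q.Cub P287T.Cy P287T.Gl

/-- **The characters of the bundles of generators are of type `(k, k)`.** -/
theorem chE_typ {ν : ℕ} {Z : Set (Fin ν → ℂ)} {W : S6} (hZ : PV (π₀ (Fin ν)) Z 2)
    (hc : IsConnected Z) [Nice (SZ Z)] (hW : W ≠ 0) (U : Fm W (SZ Z)) (h : U.Hol) (u : ℤ) (k : ℕ) :
    (PowerSeries.coeff k (U.chE u)).1 ∈ TZ Z k k := by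
  haveI := isAct_scl (π₀ (Fin ν))
  haveI := hZ.qm.fp
  haveI : PreconnectedSpace (tbY Z).T := Subtype.preconnectedSpace hc.isPreconnected
  obtain ⟨ι, μ, _, _, _, _, p, q, m, φ, B, h⟩ := h
  by_cases hu : 2 ∣ u + 0
  exacts [(tb_even U hZ h hu).typ k, (tb_odd U hZ hW h (by omega)).typ k]

end Vale.Agent.P287T.Psi
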