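import Vale.Agent.P287T.Cl.Seg2
import Vale.Agent.P287T.Psi.Kap0
import Vale.Agent.P287T.Psi.Hol
import Vale.Agent.P287Q.Cub.Pv

/-!
# The bundle `V_U` of a holomorphic family has Chern classes of type `(k, k)`
-/

set_option linter.unusedSectionVars false

namespace Vale.Agent.P287T.Psi

open Set Function Module Matrix MvPolynomial P291Z P269 P269.Holo P269.Mono P269.Tq P269.Ch P269.Grr
  P287Q P287Q.Hb P287Q.Cub P287T.Cy P287T.Rr P287T.Fa P287T.Gb P287T.Gl P287T.Cl P287Z.O P287Z.O.L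

variable {ι κ μ : Type} [Fintype ι] [Fintype κ] [Fintype μ] [DecidableEq ι] [DecidableEq κ]
  [DecidableEq μ]

theorem tv_cM (x : Fin 6 → ℂ) (a : Matrix κ ι ℂ) : evM x (cM a) = a :=
  Matrix.ext fun _ _ => eval_C _

theorem tv_pe {p : ι → ℤ} {a : ℤ} {v : ι → ℂ} (hv : ∀ i, ¬2 ∣ p i + a → v i = 0) :
    pe p a *ᵥ v = v := funext fun i => by
  rw [pe, mulVec_diagonal]
  split_ifs with h
  exacts [one_mul _, (zero_mul _).trans (hv i h).symm]

theorem tv_pe_sup (p : ι → ℤ) (a : ℤ) (v : ι → ℂ) (i : ι) (hi : ¬2 ∣ p i + a) :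
    (pe p a *ᵥ v) i = 0 := by rw [pe, mulVec_diagonal, if_neg hi, zero_mul]

/-- the image of the kernel on the even generators -/
theorem tv_map {r : κ → ℤ} {e D H : Matrix κ κ ℂ} (h : Fib r e D H) {B : Matrix ι κ ℂ}
    {φ : Matrix ι μ ℂ} {α : Matrix μ κ ℂ} {β : Matrix κ μ ℂ} (h1 : B * D * pe r 1 = φ * α)
    (h2 : φ = B * D * pe r 1 * β) :
    (Vf (fun i => 2 ∣ r i + 0) e D).map B.mulVecLin = LinearMap.range φ.mulVecLin := by
  refine Submodule.ext fun u => ⟨?_, ?_⟩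
  · rintro ⟨v, hv, rfl⟩
    have k := congrArg (· *ᵥ v) h.h
    simp only [add_mulVec, ← mulVec_mulVec, hv.2.2, hv.2.1, mulVec_zero, add_zero] at k
    refine ⟨α *ᵥ (H *ᵥ v), ?_⟩
    rw [mulVecLin_apply, mulVecLin_apply, mulVec_mulVec, ← h1, ← mulVec_mulVec, ← mulVec_mulVec,
      tv_pe fun i hi => odd_mulVec (p := r) (q := r) (a := 0) (b := 1)
        (fun i j k => h.oH i j (by omega)) hv.1 i (by omega), k]
  · rintro ⟨v, rfl⟩
    refine ⟨D *ᵥ (pe r 1 *ᵥ (β *ᵥ v)), ⟨fun i hi => odd_mulVec (p := r) (q := r) (a := 1) (b := 1)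
      (fun i j k => h.oD i j (by omega)) (tv_pe_sup r 1 _) i (by omega), ?_, ?_⟩, ?_⟩
    · rw [mulVec_mulVec, h.eD]
    · rw [mulVec_mulVec, h.DD, zero_mulVec]
    · rw [mulVecLin_apply, mulVecLin_apply, h2]
      simp only [mulVec_mulVec, Matrix.mul_assoc]

theorem tv_inj {r : κ → ℤ} {e : Matrix κ κ ℂ} {A : Matrix κ ι ℂ} {B : Matrix ι κ ℂ} {v : κ → ℂ}
    (hA : A * B = e * pe r 0) (h1 : ∀ i, ¬2 ∣ r i + 0 → v i = 0) (h2 : e *ᵥ v = v)
    (h0 : B *ᵥ v = 0) : v = 0 := by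
  have h := congrArg (A *ᵥ ·) h0
  simp only [mulVec_mulVec, hA, mulVec_zero] at h
  rwa [← mulVec_mulVec, tv_pe h1, h2] at h

theorem tv_eqv {p : ι → ℤ} {r : κ → ℤ} {m : ι → ℕ} {a b : ℂ} {B B' : Matrix ι κ ℂ} {v v' : κ → ℂ}
    (h1 : B' = dg a m * B) (h2 : v' = fun j => b ^ wt (r j) * v j)
    (h3 : ∀ i j, p i ≠ r j → B i j = 0) (i : ι) :
    (B' *ᵥ v') i = a ^ m i * b ^ wt (p i) * (B *ᵥ v) i := by
  rw [h1, h2, ← mulVec_mulVec, dg, mulVec_diagonal, mul_assoc]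
  simp only [Matrix.mulVec, dotProduct, Finset.mul_sum]
  refine Finset.sum_congr rfl fun j _ => congrArg (_ * ·) ?_
  by_cases h4 : p i = r j
  · rw [h4, mul_left_comm]
  · simp only [h3 i j h4, zero_mul, mul_zero]

/-- the value of the homogeneous part -/
noncomputable def tvE (p : ι → ℤ) (q : μ → ℤ) (x : Fin 6 → ℂ) (φ : Matrix ι μ S6) : Matrix ι μ ℂ :=
  Matrix.of fun i j => ∑ m ∈ (fin_deg (3 + q j - p i)).toFinset,
    coeff m (φ i j) * eval x (monomial m (1 : ℂ))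

theorem tvE_eq {p : ι → ℤ} {q : μ → ℤ} (x : Fin 6 → ℂ) {φ : Matrix ι μ S6} (h : φ ∈ MM q p 3) :
    tvE p q x φ = evM x φ := Matrix.ext fun i j => by
  rw [evM, Matrix.map_apply, hg_eq_sum (h i j)]
  conv_lhs => rw [tvE, Matrix.of_apply]
  simp only [map_sum, smul_eval]

variable {W : S6} {ν n : ℕ} {Z : Set (Fin ν → ℂ)} {J R : Type} [Fintype J] [Fintype R] {π : J → R}
  {C : Set (J → ℂ)} [IsAct (scl π) univ] [FP (scl π) C] [Nice (SZ Z)]

/-- `C` is a cone over the product of the surface and the cubic fourfold. -/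
structure PrC (c : Cu W) (e : Mor (spY π C) (Dn.prS (.triv (SZ Z)) c.Y)) (iz : Fin ν → J)
    (ix : Fin 6 → J) (rz rx : R) : Prop where
  hz : ∀ j, π (iz j) = rz
  mz : ∀ y ∈ C, y ∘ iz ∈ Z
  e1 : ∀ t, (e.f t).1 = Quo.mk _ (⟨pt t ∘ iz, mz _ (pt_mem t)⟩ : Z)
  e2 : ∀ t, c.x (e.f t).2 = pt t ∘ ix
  e3 : ∀ g, (c.χ (e.ρ g).2 : ℂ) = un g rx

/-- **The Chern classes of `V_U` are integral of type `(k, k)`.** -/
theorem chV_kz [PreconnectedSpace (SZ Z)] (hC : PV π C n) {c : Cu W}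
    {e : Mor (spY π C) (Dn.prS (.triv (SZ Z)) c.Y)} {iz : Fin ν → J} {ix : Fin 6 → J} {rz rx : R}
    (k : PrC c e iz ix rz rx) (U : Fm W (SZ Z)) (h : U.Hol) :
    KZ (GE (QT (scl π) C)) (pS e.map (U.chV c)) := by
  classical
  obtain ⟨ι, μ, _, _, _, _, p, q, m, φ, B, h⟩ := h
  obtain ⟨r, hr⟩ := U.famV c
  let z : (spY π C).T → Z := fun t => ⟨pt t ∘ iz, k.mz _ (pt_mem t)⟩
  have cz : Continuous z := (continuous_pi fun j => (continuous_apply _).comp pt_cont).subtype_mk _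
  rw [Fm.chV, chF_eq hr, ← chc_pb]
  refine kz_var hC (hr.vb.pb e)
    (fun i o => (if o = rz then (m i : ℤ) else 0) + if o = rx then wt (p i) else 0)
    (fun t => (B (z t)).mulVecLin) (((h.cB.comp cz).comp continuous_fst).matrix_mulVec continuous_snd)
    (fun t v hv h0 => ?_) (fun g t v _ i => ?_)
    (B := fun y => (tvE p q (y ∘ ix) (φ (y ∘ iz)) * pe q 1).mulVecLin) (fun y hy u => ?_) fun t => ?_
  · obtain ⟨A, -, -, hA⟩ := h.ev (z t)
    exact tv_inj hA hv.1 (k.e1 t ▸ hv.2.1) h0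
  · have h1 : B (z (g • t)) = dg (un g rz) m * B (z t) := h.eB _ _ _ (funext fun j => by
      show pt (g • t) (iz j) = un g rz * pt t (iz j)
      rw [pt_smul, P287Q.scl, k.hz])
    have h2 := (am_smul ((Dn.pr2 (.triv (SZ Z)) c.Y).chr c.χ) (fun i => wt (U.q i)) (e.ρ g) v).trans
      (funext fun j => congrArg (fun a : ℂ => a ^ wt (U.q j) * (v : U.κ → ℂ) j) (k.e3 g))
    have h3 : ∏ o, un g o ^ ((if o = rz then (m i : ℤ) else 0) + if o = rx then wt (p i) else 0) =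
        un g rz ^ m i * un g rx ^ wt (p i) := by
      simp only [zpow_add₀ (unit_iff.1 (un_unit g) _), Finset.prod_mul_distrib,
        pow_ite, zpow_zero, Finset.prod_ite_eq', Finset.mem_univ, if_true,
        zpow_natCast]
    exact (tv_eqv h1 h2 (h.bB (z t)) i).trans (congrArg (· * _) h3).symm
  · have a1 : AnalyticAt ℂ (fun y : J → ℂ => y ∘ iz) y := analyticAt_pi_iff.2 fun j => PV_an_crd _ y
    have a2 : AnalyticAt ℂ (fun y : J → ℂ => y ∘ ix) y := analyticAt_pi_iff.2 fun j => PV_an_crd _ y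
    simp only [mulVecLin_apply, ← mulVec_mulVec]
    exact analyticAt_pi_iff.2 fun i => Finset.analyticAt_fun_sum _ fun j _ =>
      (Finset.analyticAt_fun_sum _ fun l _ => ((h.an _ (k.mz y hy) i j l).comp_of_eq a1 rfl).mul
        ((an_eval _ _).comp a2)).mul analyticAt_const
  · obtain ⟨α, -, β, -, h1, h2⟩ := h.od (z t)
    have hx := c.x_mem (e.f t).2
    have f := pf_fib (U.pf.pf (e.f t).1) c.sm hx.1 hx.2
    have h3 := congrArg (evM (c.x (e.f t).2)) h1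
    have h4 := congrArg (evM (c.x (e.f t).2)) h2
    simp only [evM_mul, tv_cM] at h3 h4
    rw [tvE_eq _ (h.deg _ (z t).2), ← k.e2]
    exact tv_map f (k.e1 t ▸ h3) (k.e1 t ▸ h4)

theorem chV_typ [PreconnectedSpace (SZ Z)] (hC : PV π C n) {c : Cu W}
    {e : Mor (spY π C) (Dn.prS (.triv (SZ Z)) c.Y)} {iz : Fin ν → J} {ix : Fin 6 → J} {rz rx : R}
    (k : PrC c e iz ix rz rx) (U : Fm W (SZ Z)) (h : U.Hol) (j : ℕ) :
    H.map e.map (PowerSeries.coeff j (U.chV c)).1 ∈ QT (scl π) C j j :=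
  (chV_kz hC k U h).typ j

end Vale.Agent.P287T.Psi
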