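import Vale.Agent.P287T.Psi.Typ0
import Vale.Agent.P287T.Psi.Hol
import Vale.Agent.P287T.Rr.St

/-!
# The Chern characters of the bundles of generators of a holomorphic family have Hodge type
-/

set_option linter.unusedSectionVars false
set_option linter.style.haveILetI false

noncomputable section

namespace Vale.Agent.P287T.Psi

open Set Function Topology Matrix MvPolynomial Module P291Z P269 P269.Holo P269.Tq P269.Ch
  P269.Grr P287Q P287Q.Cub P287Q.Hb P287T.Cy P287T.Fa P287T.Rr P287T.Cl P287T.Rb P287T.Gb P287T.Gl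
  P287Z.O P287Z.O.L

variable {W : S6} {ι κ μ : Type} [Fintype ι] [Fintype κ] [Fintype μ]

/-- the quotient map as a morphism -/
def toTriv (Y : Ch.Sp) : Mor Y (.triv Y.X) := ⟨1, Y.π, continuous_const, Y.cont, Y.π_smul⟩

theorem toTriv_map (Y : Ch.Sp) (x : Y.X) : (toTriv Y).map x = x := Y.π_out x

theorem pS_toTriv (Y : Ch.Sp) (A : PowerSeries (Hev Y.X)) : pS (toTriv Y).map A = A :=
  PowerSeries.ext fun _ => (PowerSeries.coeff_map _ _ _).trans
    (Subtype.ext (H.map_id (toTriv_map Y) _))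

/-- the product of matrices as a bilinear map -/
def mB (ι κ μ : Type) [Fintype κ] :
    Matrix ι κ S6 →ₗ[ℂ] Matrix κ μ S6 →ₗ[ℂ] Matrix ι μ S6 :=
  LinearMap.mk₂ ℂ (fun a b => a * b) Matrix.add_mul Matrix.smul_mul Matrix.mul_add
    fun c a b => Matrix.mul_smul a c b

/-- the vector of the coefficients of a monomial -/
def coV (κ : Type) (k : Fin 6 →₀ ℕ) : Matrix κ Unit S6 →ₗ[ℂ] κ → ℂ :=
  LinearMap.pi fun i => lcoeff ℂ k ∘ₗ Matrix.entryLinearMap ℂ S6 i ()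

/-- the column with one monomial -/
def moV (κ : Type) (k : Fin 6 →₀ ℕ) : (κ → ℂ) →ₗ[ℂ] Matrix κ Unit S6 where
  toFun v := .of fun i _ => monomial k (v i)
  map_add' _ _ := Matrix.ext fun _ _ => map_add (monomial k) _ _
  map_smul' _ _ := Matrix.ext fun _ _ => map_smul (monomial k) _ _

theorem coV_cM (k : Fin 6 →₀ ℕ) (e : Matrix ι κ ℂ) (g : Matrix κ Unit S6) :
    coV ι k (cM e * g) = e *ᵥ coV κ k g := funext fun i => by
  show coeff k (∑ j, C (e i j) * g j ()) = ∑ j, e i j * coeff k (g j ())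
  simp only [coeff_sum, coeff_C_mul]

theorem cM_moV (k : Fin 6 →₀ ℕ) (e : Matrix ι κ ℂ) (v : κ → ℂ) :
    cM e * moV κ k v = moV ι k (e *ᵥ v) := Matrix.ext fun i _ => by
  show ∑ j, C (e i j) * monomial k (v j) = monomial k (∑ j, e i j * v j)
  simp only [map_sum, C_mul_monomial]

theorem coV_mul (k : Fin 6 →₀ ℕ) (A : Matrix ι κ S6) (g : Matrix κ Unit S6) (i : ι) :
    coV ι k (A * g) i = ∑ l, ∑ y ∈ Finset.HasAntidiagonal.antidiagonal k,
      coeff y.1 (A i l) * coeff y.2 (g l ()) := by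
  show coeff k (∑ l, A i l * g l ()) = _
  simp only [coeff_sum, coeff_mul]

theorem coV_cont {T : Type} [TopologicalSpace T] {A : T → Matrix ι κ S6}
    (h : ∀ i l k, Continuous fun t => coeff k (A t i l)) (g : Matrix κ Unit S6) (k : Fin 6 →₀ ℕ)
    (i : ι) : Continuous fun t => coV ι k (A t * g) i := by
  simp only [coV_mul]
  exact continuous_finsetSum _ fun l _ => continuous_finsetSum _ fun y _ =>
    (h _ _ _).mul continuous_const

theorem coV_an {A : (μ → ℂ) → Matrix ι κ S6} {z : μ → ℂ}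
    (h : ∀ i l k, AnalyticAt ℂ (fun t => coeff k (A t i l)) z) (g : Matrix κ Unit S6)
    (k : Fin 6 →₀ ℕ) (i : ι) : AnalyticAt ℂ (fun t => coV ι k (A t * g) i) z := by
  simp only [coV_mul]
  exact Finset.analyticAt_fun_sum _ fun l _ => Finset.analyticAt_fun_sum _ fun y _ =>
    (h _ _ _).mul analyticAt_const

/-- the monomials that occur in the columns of charge `a` -/
def mS (q : κ → ℤ) (a : ℤ) : Finset (Fin 6 →₀ ℕ) :=
  Finset.univ.biUnion fun i => (fin_deg (a + 0 - q i)).toFinset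

theorem mem_mS {q : κ → ℤ} {a : ℤ} {k : Fin 6 →₀ ℕ} :
    k ∈ mS q a ↔ ∃ i, 2 * (k.degree : ℤ) = a + 0 - q i := by
  simp [mS]

theorem sup_mS {q : κ → ℤ} {a : ℤ} {g : Matrix κ Unit S6} (h : g ∈ MM 0 q a) (i : κ) :
    (g i ()).support ⊆ mS q a := fun k hk => mem_mS.2 ⟨i, hg_iff.1 (h i ()) k hk⟩

theorem pe_col [DecidableEq κ] {q : κ → ℤ} {a b : ℤ} {g : Matrix κ Unit S6} (h : g ∈ MM 0 q a)
    (e : 2 ∣ b + a) : cM (pe q b) * g = g := by
  rw [pe_comm h (a := 0) (by omega), show pe (0 : Unit → ℤ) 0 = 1 from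
    Matrix.ext fun _ _ => by simp [pe], cM_one, Matrix.mul_one]

section gen

variable {T : Type} [TopologicalSpace T] (U : Fm W T)

/-- the generators of charge `u` -/
def Fm.gE (u : ℤ) (t : T) : Submodule ℂ (U.κ → ℂ) := Vf (fun i => U.q i = u) (U.e t) 0

/-- the elements of charge `a` -/
def Fm.gK (a : ℤ) (t : T) : Submodule ℂ (Matrix U.κ Unit S6) :=
  MM 0 U.q a ⊓ LinearMap.eqLocus (mB _ _ _ (cM (U.e t))) LinearMap.id

theorem Fm.mem_gK {a : ℤ} {t : T} {g : Matrix U.κ Unit S6} :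
    g ∈ U.gK a t ↔ g ∈ MM 0 U.q a ∧ cM (U.e t) * g = g := Iff.rfl

theorem Fm.ee (t : T) (g : Matrix U.κ ι S6) : cM (U.e t) * (cM (U.e t) * g) = cM (U.e t) * g := by
  rw [← Matrix.mul_assoc, ← cM_mul, (U.pf.pf t).ee]

variable [Nice T] [PreconnectedSpace T]

theorem Fm.isE (u : ℤ) : IsB (tv (.triv T) _) (U.gE u) ∧ ch (tv (.triv T) _) (U.gE u) = U.chE u := by
  have e : EF (.triv T) W U.q U.e U.D := ⟨U.pf, fun _ _ => rfl, fun _ _ => rfl, ‹_›⟩
  have k := e.pj_sup (Mor.id _) 1 (· = u) (fun _ => 0) ‹_›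
  have f : ∃ r, Fam (Y := .triv T) 1 (fun _ => 0) (U.gE u) r :=
    ⟨_, k.cl, iSup_rk k.rk, fun g t v hv => am_smul 1 (fun _ => 0) g v ▸ k.iv g t v hv⟩
  have m : Md (tv (.triv T) _) (U.gE u) f.choose_spec.vb LinearMap.id :=
    ⟨injective_id, fun _ => Submodule.map_id _, fun g t v _ =>
      (am_smul 1 (fun _ => 0) g v).trans (funext fun _ => by rw [zpow_zero, one_mul]; rfl)⟩
  exact ⟨⟨_, _, m⟩, m.ch.trans (Eq.symm (a := U.chE u) (dif_pos f))⟩

theorem Fm.isK (a : ℤ) : IsB (tv (.triv T) _) (U.gK a) :=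
  haveI : PreconnectedSpace (Ch.Sp.triv T).T := ‹_›
  (isB_const (.triv T) (MM 0 U.q a)).1.fix (π := fun t => mB _ _ _ (cM (U.e t)))
    ⟨fun t _ h => mm_mul (U.pf.pf t).blk.mm h (zero_add a), fun g =>
      (WC.of_cont (W := U.κ → U.κ → ℂ) U.pf.ce).map
        ((mB _ _ _).flip g ∘ₗ ⟨⟨cM, cM_add⟩, cM_smul⟩), fun _ _ _ _ => rfl⟩
    (fun t g _ => U.ee t g) fun _ _ => Iff.rfl

theorem Fm.chK (a : ℤ) : ch (tv (.triv T) _) (U.gK a) =
    ∑ k ∈ insert 0 (mS U.q a), U.chE (a - 2 * k.degree) := by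
  haveI : PreconnectedSpace (Ch.Sp.triv T).T := ‹_›
  refine (IsB.ch_sum (Y := .triv T) (F' := fun (k : Fin 6 →₀ ℕ) t => U.gE (a - 2 * k.degree) t)
    (fun k => (U.isE _).1) (π := coV _) (s := moV _) (insert 0 (mS U.q a)) (U.isK a)
    (fun k _ => ⟨fun t g h => ⟨fun i hi => by_contra fun e => hi ?_,
      (coV_cM k _ g).symm.trans (congrArg _ h.2), zero_mulVec _⟩,
      fun _ => WC.const _, fun _ _ _ _ => rfl⟩)
    (fun k _ => ⟨fun t v h => ⟨fun i _ => ?_, (cM_moV k _ v).trans (congrArg _ h.2.1)⟩,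
      fun _ => WC.const _, fun _ _ _ _ => rfl⟩)
    (fun t g h => Matrix.ext fun i _ => ?_) fun k _ l _ t v _ => funext fun i => ?_).trans
    (Finset.sum_congr rfl fun k _ => (U.isE _).2)
  · have := hg_iff.1 (h.1 i ()) k (mem_support_iff.2 e)
    simp only [Pi.zero_apply] at this
    omega
  · by_cases e : U.q i = a - 2 * k.degree
    · exact hga_monomial _ (by simp only [Pi.zero_apply]; omega)
    · exact Eq.mpr (congrArg (V.Hg _) ((congrArg (monomial k) (h.1 i e)).trans monomial_zero))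
        (hga_zero _)
  · rw [Matrix.sum_apply]
    exact (Finset.sum_subset ((sup_mS h.1 i).trans (Finset.subset_insert _ _)) fun k _ e =>
      (congrArg (monomial k) (notMem_support_iff.1 e)).trans monomial_zero).symm.trans
        (g i ()).as_sum.symm
  · refine (coeff_monomial _ _ _).trans ?_
    by_cases e : k = l
    · rw [if_pos e, if_pos e.symm]
    · rw [if_neg e, if_neg (Ne.symm e)]
      rfl

end gen

variable {ν n : ℕ} {Z : Set (Fin ν → ℂ)} [Nice (SZ Z)] [PreconnectedSpace (SZ Z)]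
  (hZ : PV (π₀ (Fin ν)) Z n) (U : Fm W (SZ Z)) [DecidableEq ι] [DecidableEq μ] {p : ι → ℤ}
  {q : μ → ℤ} {m : ι → ℕ}
include hZ

theorem mk_smul {z z' : Z} {c : ℂ} (e : z'.1 = c • z.1) :
    Quo.mk (scl (π₀ (Fin ν))) z' = Quo.mk _ z := by
  refine (Quot.sound ⟨fun _ => c, unit_iff.2 fun _ k => ?_, e⟩).symm
  obtain ⟨j, -, hj⟩ := hZ.sub z'.2 ()
  exact hj (by rw [e, k, zero_smul, Pi.zero_apply])

theorem kz_K {a j : ℤ} {G : Z → Matrix ι U.κ S6} {ψ : (Fin ν → ℂ) → Matrix ι μ S6}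
    (cG : ∀ i l k, Continuous fun z => coeff k (G z i l)) (dG : ∀ z, G z ∈ MM U.q p j)
    (eG : ∀ (z z' : Z) (c : ℂ), z'.1 = c • z.1 → G z' = cM (dg c m) * G z)
    (an : ∀ z ∈ Z, ∀ i l k, AnalyticAt ℂ (fun y => coeff k (ψ y i l)) z)
    (inj : ∀ z, ∀ g ∈ U.gK a (Quo.mk _ z), G z * g = 0 → g = 0)
    (im : ∀ (z : Z) x, (∃ g ∈ U.gK a (Quo.mk _ z), G z * g = x) ↔ ∃ u ∈ MM 0 q a, ψ z.1 * u = x) :
    KZ (GE (QT (scl (π₀ (Fin ν))) Z)) (ch (tv (.triv (SZ Z)) _) (U.gK a)) := by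
  haveI := isAct_scl (π₀ (Fin ν))
  haveI := hZ.fp
  let co : Matrix ι Unit S6 →ₗ[ℂ] ι × mS p (j + a) → ℂ :=
    LinearMap.pi fun x => LinearMap.proj x.1 ∘ₗ coV ι x.2.1
  obtain ⟨h1, h2⟩ := (U.isK a).pb (toTriv (spY (π₀ (Fin ν)) Z))
  have k := kz_isB hZ h1 (fun x _ => m x.1)
    (A := fun t => co ∘ₗ mB _ _ _ (G ⟨pt t, pt_mem t⟩)) (fun g => continuous_pi fun x => ?_)
    (fun t g hg e => inj _ g hg (Matrix.ext fun i _ => MvPolynomial.ext _ _ fun k =>
      by_contra fun e' => e' (congrFun e (i, ⟨k, sup_mS (mm_mul (dG _) hg.1 rfl) i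
        (mem_support_iff.2 e')⟩)))) (fun g t v _ x => ?_)
    (B := fun y => co ∘ₗ mB _ _ _ (ψ y) ∘ₗ (MM 0 q a).subtype)
    (fun y hy u => analyticAt_pi_iff.2 fun x => ?_) fun t => ?_
  · rw [h2] at k
    exact Eq.mp (congrArg _ (pS_toTriv (spY (π₀ (Fin ν)) Z) _)) k
  · exact (coV_cont cG g x.2.1 x.1).comp (pt_cont.subtype_mk pt_mem)
  · show coV ι x.2.1 (G _ * v) x.1 = _ * coV ι x.2.1 (G _ * v) x.1
    rw [eG ⟨pt t, pt_mem t⟩ ⟨pt (g • t), pt_mem _⟩ (un g ()) rfl, Matrix.mul_assoc, coV_cM, dg,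
      mulVec_diagonal, Fintype.prod_unique, zpow_natCast]
  · exact coV_an (an y hy) u.1 x.2.1 x.1
  · rw [Submodule.map_comp, LinearMap.range_comp, LinearMap.range_comp, Submodule.range_subtype]
    exact congrArg _ (Submodule.ext (im ⟨pt t, pt_mem t⟩))

variable {U} {φ : (Fin ν → ℂ) → Matrix ι μ S6} {B : Z → Matrix ι U.κ ℂ}

theorem kz_gK (h : U.HolD p q m φ B) (hW : W ≠ 0) (a : ℤ) :
    KZ (GE (QT (scl (π₀ (Fin ν))) Z)) (ch (tv (.triv (SZ Z)) _) (U.gK a)) := by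
  have cB : ∀ i l k, Continuous fun z => coeff k (cM (B z) i l) := fun i l k =>
    (coL k).continuous.comp (continuous_C.comp (h.cB.matrix_elem i l))
  have i0 : ∀ z b, 2 ∣ 0 + b → ∀ g ∈ U.gK b (Quo.mk _ z), cM (B z) * g = 0 → g = 0 :=
    fun z b hb g hg e => by
      obtain ⟨A, -, -, a2⟩ := h.ev z
      rw [← (U.mem_gK.1 hg).2, ← pe_col hg.1 hb, ← Matrix.mul_assoc, ← cM_mul,
        ← a2, cM_mul, Matrix.mul_assoc, e, Matrix.mul_zero]
  by_cases ha : 2 ∣ 0 + a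
  · refine kz_K hZ U (G := fun z => cM (B z)) (ψ := fun _ => 1) (q := p) cB (fun z => (h.bB z).mm)
      (fun z z' c e => by rw [h.eB z z' c e, cM_mul]) (fun _ _ _ _ _ => analyticAt_const)
      (fun z => i0 z a ha) fun z x => ⟨?_, ?_⟩
    · rintro ⟨g, hg, rfl⟩
      exact ⟨_, mm_mul (h.bB z).mm hg.1 (zero_add a), Matrix.one_mul _⟩
    · rintro ⟨u, hu, rfl⟩
      obtain ⟨A, a0, a1, a2⟩ := h.ev z
      have e : cM (B z) * (cM A * u) = u := by
        rw [← Matrix.mul_assoc, ← cM_mul, a1, pe_col hu ha]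
      have k := mm_mul a0.mm hu (zero_add a)
      refine ⟨cM A * u, ⟨k, ?_⟩, e.trans (Matrix.one_mul u).symm⟩
      show cM (U.e _) * (cM A * u) = cM A * u
      rw [← pe_col k ha, ← Matrix.mul_assoc, ← cM_mul, ← a2, cM_mul, Matrix.mul_assoc, e,
        pe_col k ha]
  have ha' : 2 ∣ 1 + a := by omega
  have pf := fun z : Z => U.pf.pf (Quo.mk _ z)
  refine kz_K hZ U (G := fun z => cM (B z) * U.D (Quo.mk _ z)) (m := m) (q := q) (fun i l k => ?_)
    (fun z => mm_mul (h.bB z).mm (pf z).deg (zero_add 3)) (fun z z' c e => ?_) h.an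
    (fun z g hg e => ?_) fun z x => ⟨?_, ?_⟩
  · simp only [Matrix.mul_apply, cM, Matrix.map_apply, coeff_sum, coeff_C_mul]
    exact continuous_finsetSum _ fun j _ => (h.cB.matrix_elem i j).mul
      ((U.pf.cd j l k).comp continuous_quot_mk)
  · rw [h.eB z z' c e, cM_mul, Matrix.mul_assoc, mk_smul hZ e]
  · have := i0 z (3 + a) (by omega) _ (U.mem_gK.2 ⟨mm_mul (pf z).deg hg.1 rfl,
      by rw [← Matrix.mul_assoc, (pf z).ed]⟩) (by rwa [← Matrix.mul_assoc])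
    refine smul_canc hW ?_
    rw [← (U.mem_gK.1 hg).2, ← Matrix.smul_mul, ← (pf z).sq, Matrix.mul_assoc, this,
      Matrix.mul_zero, smul_zero]
  · rintro ⟨g, hg, rfl⟩
    obtain ⟨α, h1, -, -, h2, -⟩ := h.od z
    have k := mm_mul h1 hg.1 (zero_add a)
    exact ⟨_, k, by rw [← pe_col k ha', ← Matrix.mul_assoc, ← Matrix.mul_assoc, ← h2,
      Matrix.mul_assoc, pe_col hg.1 ha']⟩
  · rintro ⟨u, hu, rfl⟩
    obtain ⟨-, -, β, h1, -, h2⟩ := h.od z
    have k := mm_mul h1 hu (zero_add a)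
    refine ⟨cM (U.e _) * (β * u), ⟨mm_mul (pf z).blk.mm k (zero_add a), U.ee _ _⟩, ?_⟩
    rw [← Matrix.mul_assoc, Matrix.mul_assoc (cM (B z)), (pf z).de, ← pe_col k ha',
      ← Matrix.mul_assoc, ← Matrix.mul_assoc, ← h2, Matrix.mul_assoc, pe_col hu ha']

/-- **The bundles of generators.** -/
theorem kz_chE (h : U.HolD p q m φ B) (hW : W ≠ 0) (u : ℤ) :
    KZ (GE (QT (scl (π₀ (Fin ν))) Z)) (U.chE u) := by
  haveI := isAct_scl (π₀ (Fin ν))
  have g := gr_GE hZ.hg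
  obtain ⟨b, hb⟩ := (finite_range U.q).bddBelow
  obtain ⟨N, hN⟩ : ∃ N, (u - b).toNat = N := ⟨_, rfl⟩
  induction N using Nat.strong_induction_on generalizing u with
  | _ N ih =>
    have e := U.chK u
    rw [← Finset.add_sum_erase _ _ (Finset.mem_insert_self _ _), map_zero, Nat.cast_zero, mul_zero,
      sub_zero] at e
    rw [eq_sub_of_add_eq (G := PowerSeries (Hev (SZ Z))) e.symm]
    refine (kz_gK hZ h hW u).sub g (KZ.sum g _ fun k hk => ih _ ?_ _ rfl)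
    have k1 := (Finset.mem_erase.1 hk).1
    obtain ⟨i, hi⟩ := mem_mS.1 ((Finset.mem_insert.1 (Finset.mem_erase.1 hk).2).resolve_left k1)
    have k2 := hb ⟨i, rfl⟩
    have k3 := mt (Finsupp.degree_eq_zero_iff k).1 k1
    omega

end Vale.Agent.P287T.Psi
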