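import Vale.Agent.P287T.Psi.TyV
import Vale.Agent.P287T.Psi.TyC
import Vale.Agent.P287T.Psi.Typ1

/-!
# The Mukai map of a holomorphic family preserves the Hodge filtration
-/

set_option linter.unusedSectionVars false
set_option linter.style.haveILetI false

namespace Vale.Agent.P287T.Psi.TyW

open Set Function P291Z P269 P269.Holo P269.Mono P269.Tq P269.Ch P287Q P287Q.Hb P287Q.Cub P287T.Cy
  P287T.Rr P287T.Top P287T.Cl P287T.Gl P287T.Dn P287T.Au

variable {ν : ℕ} {Z : Set (Fin ν → ℂ)} {W : S6}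

/-- the two blocks of coordinates -/
abbrev πw (ν : ℕ) : Fin ν ⊕ Fin 6 → Unit ⊕ Unit := Sum.map (π₀ (Fin ν)) (π₀ (Fin 6))

theorem pt_w (hZ : PV (π₀ (Fin ν)) Z 2) (c : Cu W) :
    PT Z W (PQ (π₀ (Fin ν)) (π₀ (Fin 6)) Z (P287Q.Pub.cone W)) :=
  have h := Cub.pv c.hom c.sm
  ⟨fun _ _ _ _ _ a _ b => PQ.mul hZ h a b, fun _ _ k _ a => PQ.out hZ h a k,
    fun _ _ _ => PQ.fst hZ h, fun _ _ _ => PQ.snd hZ h⟩

section mor

variable [IsAct (scl (πw ν)) univ] [FP (scl (πw ν)) (prC Z (P287Q.Pub.cone W))] (c : Cu W)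

/-- the morphism to the cubic -/
noncomputable def mX : Mor (spY (πw ν) (prC Z (P287Q.Pub.cone W))) c.Y :=
  haveI := Rr.isAct
  haveI := c.qm.fp
  (hol2 (π₀ (Fin ν)) (π₀ (Fin 6)) Z (P287Q.Pub.cone W)).toEqh.mor

variable [Nice (SZ Z)]

/-- the morphism to the product -/
noncomputable def mP : Mor (spY (πw ν) (prC Z (P287Q.Pub.cone W))) (prS (.triv (SZ Z)) c.Y) where
  ρ := (1 : _ →* (Ch.Sp.triv (SZ Z)).G).prod (mX c).ρ
  f t := ((Quo.mk _ (⟨pt t ∘ .inl, (pt_mem t).1⟩ : Z) : SZ Z), (mX c).f t)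
  cρ := continuous_const.prodMk (mX c).cρ
  cf := (continuous_mk.comp ((continuous_pi fun _ => (continuous_apply _).comp pt_cont).subtype_mk
    _)).prodMk (mX c).cf
  eqv g t := Prod.ext (Quot.sound ⟨un g ∘ .inl, unit_iff.2 fun _ => unit_iff.1 (un_unit g) _,
    rfl⟩).symm ((mX c).eqv g t)

theorem mP_map : (mP c).map = prq (π₀ (Fin ν)) (π₀ (Fin 6)) Z (P287Q.Pub.cone W) :=
  ContinuousMap.coe_injective ((mP c).map_eq (φ := prq _ _ Z (P287Q.Pub.cone W)) fun _ => rfl).symm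

theorem mP_prc : PrC c (mP (Z := Z) c) .inl .inr (.inl ()) (.inr ()) :=
  ⟨fun _ => rfl, fun _ h => h.1, fun _ => rfl, fun _ => rfl, fun _ => rfl⟩

end mor

theorem cu_ne (c : Cu W) : W ≠ 0 := fun e =>
  one_ne_zero (c.sm 1 fun _ => by rw [e, map_zero, map_zero])

/-- **TYP** -/
theorem typ_of_hol (W : S6) (c : Cu W) (C : Cf W) (G : Gf C) (h : G.U.Hol) : G.Typ c := by
  haveI := nice C
  haveI : ConnectedSpace C.Z := isConnected_iff_connectedSpace.1 C.cn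
  haveI : ConnectedSpace (SZ C.Z) := Quot.mk_surjective.connectedSpace continuous_quot_mk
  have hC := pr_pv C.pv (Cub.pv c.hom c.sm)
  haveI := isAct_scl (πw C.ν)
  haveI := hC.fp
  refine typ_of C.pv c G.U (pt_w C.pv c) (fun u => ?_) ?_
  · obtain ⟨ι, μ, _, _, _, _, p, q, m, φ, B, k⟩ := h
    exact (kz_chE C.pv k (cu_ne c) u).typ 1
  · have k := chV_typ hC (mP_prc c) G.U h 3
    rw [mP_map] at k
    exact k

end Vale.Agent.P287T.Psi.TyW
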