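import Vale.Agent.P287T.Cl.Seg
import Vale.Agent.P287T.Rb.Tk
import Vale.Agent.P287T.Rr.Fib

/-!
# Holomorphic bundles with a continuous identification; products of projective varieties
-/

set_option linter.unusedSectionVars false
set_option linter.style.haveILetI false

namespace Vale.Agent.P287T.Psi

open Set Function Topology Filter Module P291Z P269 P269.Holo P269.Mono P269.Tq P269.Ch P269.Coh
  P269.Grr P287Q P287Q.Hb P287Q.Zc P287T.Cl P287T.Rb

section fam

variable {J R K L : Type} [Fintype J] [Fintype R] [Fintype K] [Fintype L] {π : J → R}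
  {C : Set (J → ℂ)} {n : ℕ} [IsAct (scl π) univ] [FP (scl π) C]

/-- A bundle which is continuously identified with a holomorphic subbundle of a sum of line
bundles. -/
theorem kz_fam (hC : PV π C n) (E : VB (spY π C)) (w : K → R → ℤ)
    {A : (spY π C).T → E.W →ₗ[ℂ] K → ℂ} (cont : ∀ v, Continuous fun t => A t v)
    (inj : ∀ t, ∀ v ∈ E.F t, A t v = 0 → v = 0)
    (eqv : ∀ (g : (spY π C).G) t, ∀ v ∈ E.F t, ∀ i,
      A (g • t) (g • v) i = (∏ o, un g o ^ w i o) * A t v i)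
    {B : (J → ℂ) → (L → ℂ) →ₗ[ℂ] K → ℂ} (an : ∀ y ∈ C, ∀ u, AnalyticAt ℂ (fun z => B z u) y)
    (hF : ∀ t, (E.F t).map (A t) = LinearMap.range (B (pt t))) :
    KZ (GE (QT (scl π) C)) E.chc := by
  let D : VB (spY π C) := chars fun i => (hm_chr (w i)).ρ
  have cA : Continuous fun x : (spY π C).T × E.W => A x.1 x.2 :=
    (WC.app fun v => WC.of_cont (cont v)).cont
  have h : Hom (Mor.id _) E D A :=
    Hom.of_continuous (fun _ _ _ => trivial) cA fun g t v hv => funext (eqv g t v hv)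
  obtain ⟨E'', B', -, e⟩ := h.exists_coker inj
  have r : ∀ t, finrank ℂ ((E.F t).map (A t)) = E.r := fun t =>
    (finrank_map_of_inj (inj t)).trans (E.rank t)
  let E' : VB (spY π C) := D.sub (fun t => (E.F t).map (A t)) E.r
    (Eq.mp (congrArg IsClosed (Set.ext fun x => e.ex x.1 x.2 trivial))
      (isClosed_eq (e.hB.continuous continuous_fst continuous_snd fun _ => trivial)
        continuous_const)) r
    (by rintro g t _ ⟨v, hv, rfl⟩; exact ⟨g • v, E.inv g t v hv, h.eqv g t v hv⟩)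
  have i : Iso (Mor.id _) E E' A :=
    Iso.of_inj (Hom.of_continuous (fun t v hv => ⟨v, hv, rfl⟩) cA h.eqv) inj rfl
  rw [Iso.chc' i]
  exact kz_sub hC E' w LinearMap.id injective_id (fun _ _ _ => rfl) an fun t =>
    (Submodule.map_id _).trans (hF t)

/-- The same for families in an arbitrary vector space. -/
theorem kz_isB (hC : PV π C n) {M N : Type} [AddCommGroup M] [Module ℂ M] [AddCommGroup N]
    [Module ℂ N] [FiniteDimensional ℂ N] {ρ : (spY π C).G → M →ₗ[ℂ] M}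
    {F : (spY π C).T → Submodule ℂ M} (h : IsB ρ F) (w : K → R → ℤ)
    {A : (spY π C).T → M →ₗ[ℂ] K → ℂ} (cont : ∀ v, Continuous fun t => A t v)
    (inj : ∀ t, ∀ v ∈ F t, A t v = 0 → v = 0)
    (eqv : ∀ (g : (spY π C).G) t, ∀ v ∈ F t, ∀ i,
      A (g • t) (ρ g v) i = (∏ o, un g o ^ w i o) * A t v i)
    {B : (J → ℂ) → N →ₗ[ℂ] K → ℂ} (an : ∀ y ∈ C, ∀ u, AnalyticAt ℂ (fun z => B z u) y)
    (hF : ∀ t, (F t).map (A t) = LinearMap.range (B (pt t))) :
    KZ (GE (QT (scl π) C)) (ch ρ F) := by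
  obtain ⟨E, j, k⟩ := h
  rw [k.ch]
  refine kz_fam hC E w (A := fun t => A t ∘ₗ j) (fun v => cont _)
    (fun t v hv e => k.inj ((inj t _ (k.mem.2 hv) e).trans (map_zero j).symm))
    (fun g t v hv i => ?_) (B := fun y => B y ∘ₗ (finBasis ℂ N).equivFun.symm.toLinearMap)
    (fun y hy u => an y hy _) fun t => ?_
  · rw [LinearMap.comp_apply, k.eqv g t v hv]
    exact eqv g t _ (k.mem.2 hv) i
  · rw [Submodule.map_comp, k.map, hF, LinearEquiv.range_comp]

end fam

section prod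

variable {J R J' R' : Type} [Fintype J] [Fintype R] [Fintype J'] [Fintype R'] {π : J → R}
  {π' : J' → R'} {A : Set (J → ℂ)} {A' : Set (J' → ℂ)} {n n' : ℕ}

/-- the multicone over the product -/
def prC (A : Set (J → ℂ)) (A' : Set (J' → ℂ)) : Set (J ⊕ J' → ℂ) :=
  {w | w ∘ .inl ∈ A ∧ w ∘ .inr ∈ A'}

theorem an_inl (w : J ⊕ J' → ℂ) : AnalyticAt ℂ (fun w : J ⊕ J' → ℂ => w ∘ Sum.inl) w :=
  analyticAt_pi_iff.2 fun _ => PV_an_crd _ w

theorem an_inr (w : J ⊕ J' → ℂ) : AnalyticAt ℂ (fun w : J ⊕ J' → ℂ => w ∘ Sum.inr) w :=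
  analyticAt_pi_iff.2 fun _ => PV_an_crd _ w

theorem pr_pv (h : PV π A n) (h' : PV π' A' n') : PV (Sum.map π π') (prC A A') (n + n') where
  sub w hw := by
    rintro (r | r)
    · obtain ⟨j, rfl, b⟩ := h.sub hw.1 r
      exact ⟨.inl j, rfl, b⟩
    · obtain ⟨j, rfl, b⟩ := h'.sub hw.2 r
      exact ⟨.inr j, rfl, b⟩
  inv t ht w hw := ⟨h.inv (t ∘ .inl) (unit_iff.2 fun _ => unit_iff.1 ht _) _ hw.1,
    h'.inv (t ∘ .inr) (unit_iff.2 fun _ => unit_iff.1 ht _) _ hw.2⟩
  cl w hw hu := by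
    refine ⟨h.cl _ (map_mem_closure (f := fun w : J ⊕ J' → ℂ => w ∘ Sum.inl) (by fun_prop) hw
      fun _ a => a.1) fun r => ?_, h'.cl _ (map_mem_closure
        (f := fun w : J ⊕ J' → ℂ => w ∘ Sum.inr) (by fun_prop) hw fun _ a => a.2) fun r => ?_⟩
    · obtain ⟨j | j, a, b⟩ := hu (.inl r)
      · exact ⟨j, Sum.inl_injective a, b⟩
      · cases a
    · obtain ⟨j | j, a, b⟩ := hu (.inr r)
      · cases a
      · exact ⟨j, Sum.inr_injective a, b⟩
  mfd w hw := by
    have h1 := ((h.mfd _ hw.1).prod (h'.mfd _ hw.2)).iso (S' := prC A A')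
      (F := fun p => Sum.elim p.1 p.2) (G := fun w => (w ∘ .inl, w ∘ .inr))
      (analyticAt_pi_iff.2 fun j => by
        rcases j with j | j
        exacts [analyticAt_pi_iff.1 analyticAt_fst j, analyticAt_pi_iff.1 analyticAt_snd j])
      ((an_inl _).prod (an_inr _)) (.of_forall fun s a => ⟨a, rfl⟩)
      (.of_forall fun s a => ⟨a, Sum.elim_comp_inl_inr s⟩)
    rwa [Sum.elim_comp_inl_inr, add_add_add_comm, ← Fintype.card_sum] at h1

theorem hol1 (π : J → R) (π' : J' → R') (A : Set (J → ℂ)) (A' : Set (J' → ℂ)) :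
    Tq.Hol (scl (Sum.map π π')) (scl π) (prC A A') A (fun t => t ∘ .inl) fun w => w ∘ .inl :=
  hol_coord Sum.inl Sum.inl (fun _ => rfl) fun _ h => And.left h

theorem hol2 (π : J → R) (π' : J' → R') (A : Set (J → ℂ)) (A' : Set (J' → ℂ)) :
    Tq.Hol (scl (Sum.map π π')) (scl π') (prC A A') A' (fun t => t ∘ .inr) fun w => w ∘ .inr :=
  hol_coord Sum.inr Sum.inr (fun _ => rfl) fun _ h => And.right h

variable (π π' A A') in
/-- the identification with the product -/
noncomputable def prq : C(Spc (Sum.map π π') (prC A A'), Spc π A × Spc π' A') :=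
  (hol1 π π' A A').q.prodMk (hol2 π π' A A').q

theorem prq_inj (h : PV π A n) (h' : PV π' A' n') : Injective (H.map (prq π π' A A')) := by
  have := isAct_scl π
  have := isAct_scl π'
  have := isAct_scl (Sum.map π π')
  have := h.fp
  have := h'.fp
  have := (pr_pv h h').qm.cpt
  have b : Bijective (prq π π' A A') := ⟨fun x y e => ?_, fun ⟨x, y⟩ => ?_⟩
  · let k := Continuous.homeoOfEquivCompactToT2 (f := Equiv.ofBijective _ b)
      (prq π π' A A').continuous
    refine LeftInverse.injective (g := H.map (k.symm : C(_, _))) fun a => ?_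
    rw [H.map_map]
    exact H.map_id (fun z => k.apply_symm_apply z) a
  · obtain ⟨x, rfl⟩ := mk_surj x
    obtain ⟨y, rfl⟩ := mk_surj y
    obtain ⟨a, a1, a2⟩ := QMA.mk_eq (act := scl π) (x := ⟨_, x.2.1⟩) (y := ⟨_, y.2.1⟩)
      (congrArg Prod.fst e)
    obtain ⟨b, b1, b2⟩ := QMA.mk_eq (act := scl π') (x := ⟨_, x.2.2⟩) (y := ⟨_, y.2.2⟩)
      (congrArg Prod.snd e)
    refine Quot.sound ⟨Sum.elim a b, unit_iff.2 ?_, funext ?_⟩
    · rintro (r | r)
      exacts [unit_iff.1 a1 r, unit_iff.1 b1 r]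
    · rintro (j | j)
      exacts [congrFun a2 j, congrFun b2 j]
  · obtain ⟨x, rfl⟩ := mk_surj x
    obtain ⟨y, rfl⟩ := mk_surj y
    exact ⟨Quo.mk _ ⟨Sum.elim x.1 y.1, x.2, y.2⟩, rfl⟩

/-- the types on a product -/
noncomputable def PQ (π : J → R) (π' : J' → R') (A : Set (J → ℂ)) (A' : Set (J' → ℂ)) (p q : ℤ) :
    Submodule ℂ (H (Spc π A × Spc π' A')) :=
  (QT (scl (Sum.map π π')) (prC A A') p q).comap (H.mapA (prq π π' A A')).toLinearMap

theorem PQ.mul (h : PV π A n) (h' : PV π' A' n') {a b c d : ℤ} {x y : H (Spc π A × Spc π' A')}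
    (hx : x ∈ PQ π π' A A' a b) (hy : y ∈ PQ π π' A A' c d) :
    x * y ∈ PQ π π' A A' (a + c) (b + d) :=
  haveI := isAct_scl (Sum.map π π')
  Eq.mpr (congrArg (· ∈ QT _ _ _ _) (map_mul (H.map (prq π π' A A')) x y))
    ((pr_pv h h').hg.mul _ _ _ _ _ hx _ hy)

theorem PQ.out (h : PV π A n) (h' : PV π' A' n') {a b : ℤ} {x : H (Spc π A × Spc π' A')}
    (hx : x ∈ PQ π π' A A' a b) (e : n + n' < a) : x = 0 :=
  haveI := isAct_scl (Sum.map π π')
  prq_inj h h' (((pr_pv h h').hg.eq_zero_out hx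
    (.inr (.inr (.inl ((Nat.cast_add n n').trans_lt e))))).trans (map_zero _).symm)

theorem PQ.fst (h : PV π A n) (h' : PV π' A' n') {a b : ℤ} {s : H (Spc π A)}
    (hs : s ∈ QT (scl π) A a b) : H.map .fst s ∈ PQ π π' A A' a b :=
  haveI := isAct_scl π
  haveI := isAct_scl (Sum.map π π')
  Eq.mpr (congrArg (· ∈ QT _ _ _ _) (H.map_map (prq π π' A A') .fst s))
    (Mf.map_mem_QT (pr_pv h h').qm (hol1 π π' A A') hs)

theorem PQ.snd (h : PV π A n) (h' : PV π' A' n') {a b : ℤ} {s : H (Spc π' A')}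
    (hs : s ∈ QT (scl π') A' a b) : H.map .snd s ∈ PQ π π' A A' a b :=
  haveI := isAct_scl π'
  haveI := isAct_scl (Sum.map π π')
  Eq.mpr (congrArg (· ∈ QT _ _ _ _) (H.map_map (prq π π' A A') .snd s))
    (Mf.map_mem_QT (pr_pv h h').qm (hol2 π π' A A') hs)

end prod

end Vale.Agent.P287T.Psi
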